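import Vale.Agent.P014Y.Rd.St
import Vale.Agent.P022K.G2.Tam

/-!
# P014Y, route R: the rows `LIN`, `CBR`, `PLS` (helper28)
-/

set_option autoImplicit false
set_option linter.all false

open NumberField

noncomputable section

namespace Vale.Agent.P014Y.Rd

open Vale.Agent.P022 (Qb GQ)
open Vale.Agent.P027M.S (Inert)
open Vale.Agent.P022E.GW (Ov Fb)
open Vale.Agent.P022K.G2

namespace Li

variable {F : Type} [Field F]

/-- the matrix with a new diagonal -/
def dg {d : ℕ} (D : Fin d → Fin d → F) (δ : Fin d → F) (m : Fin d → F) (i : Fin d) : F :=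
  ∑ i', (if i' = i then δ i else D i i') * m i'

theorem stp [Finite F] {d : ℕ} (D : Fin (d + 1) → Fin (d + 1) → F) (δ : Fin d → F)
    (h : ∀ m, (∀ i, dg (fun i k => D i.succ k.succ) δ m i = 0) → m = 0) (t : F) :
    ∃ a : F, ∀ m, (∀ i : Fin d, dg D (Fin.cons a δ) m i.succ = 0) →
      dg D (Fin.cons a δ) m 0 = t * m 0 ∧ (m 0 = 0 → m = 0) := by
  let B : (Fin d → F) →ₗ[F] Fin d → F :=
    { toFun := dg (fun i k => D i.succ k.succ) δ
      map_add' := fun x y => funext fun i => by simp [dg, mul_add, Finset.sum_add_distrib]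
      map_smul' := fun c x => funext fun i => by
        simp only [dg, Pi.smul_apply, smul_eq_mul, RingHom.id_apply, Finset.mul_sum]
        exact Finset.sum_congr rfl fun _ _ => by ring }
  have inj : Function.Injective B :=
    (injective_iff_map_eq_zero B).2 fun m e => h m (congrFun e)
  obtain ⟨v, hv⟩ := Finite.injective_iff_surjective.1 inj fun i => -D i.succ 0
  refine ⟨t - ∑ i, D 0 i.succ * v i, fun m hm => ?_⟩
  have e : (fun i => m i.succ) = m 0 • v := inj (by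
    rw [map_smul, hv]
    funext i
    have := hm i
    simp only [dg, Fin.sum_univ_succ, (Fin.succ_ne_zero i).symm, if_false, Fin.succ_inj,
      Fin.cons_succ] at this
    show dg (fun i k => D i.succ k.succ) δ (fun i => m i.succ) i = m 0 * -D i.succ 0
    rw [dg]
    linear_combination this)
  have e' : ∀ i, m (Fin.succ i) = m 0 * v i := congrFun e
  refine ⟨?_, fun z => funext fun i => ?_⟩
  · simp only [dg, Fin.sum_univ_succ, if_true, Fin.succ_ne_zero, if_false, Fin.cons_zero, e',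
      sub_mul, Finset.sum_mul]
    rw [sub_add, sub_eq_self, ← Finset.sum_sub_distrib]
    exact Finset.sum_eq_zero fun _ _ => by ring
  · refine Fin.cases z (fun i => ?_) i
    rw [e', z, zero_mul]; rfl

theorem ex_dg [Finite F] : ∀ (d : ℕ) (D : Fin d → Fin d → F),
    ∃ δ, ∀ m, (∀ i, dg D δ m i = 0) → m = 0
  | 0, _ => ⟨0, fun _ _ => Subsingleton.elim _ _⟩
  | d + 1, D => by
    obtain ⟨δ, h⟩ := ex_dg d fun i k => D i.succ k.succ
    obtain ⟨a, ha⟩ := stp D δ h 1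
    refine ⟨Fin.cons a δ, fun m hm => ?_⟩
    have := ha m fun i => hm _
    exact this.2 (by rw [← one_mul (m 0), ← this.1, hm])

theorem int_mem {q : ℕ} {Q : Ideal (𝓞 Qb)} (h : Ov q Q) (m : ℤ) :
    (m : 𝓞 Qb) ∈ Q ↔ (q : ℤ) ∣ m := by
  refine ⟨fun k => ?_, ?_⟩
  · by_contra c
    obtain ⟨a, b, e⟩ := (Nat.prime_iff_prime_int.1 h.1).irreducible.coprime_iff_not_dvd.2 c
    refine h.2.1.ne_top ((Ideal.eq_top_iff_one _).2 ?_)
    have e' : (1 : 𝓞 Qb) = a * q + b * m := by exact_mod_cast congrArg (Int.cast : ℤ → 𝓞 Qb) e.symm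
    exact e' ▸ Q.add_mem (Q.mul_mem_left _ h.2.2) (Q.mul_mem_left _ k)
  · rintro ⟨c, rfl⟩
    push_cast
    exact Q.mul_mem_right _ h.2.2

theorem cube_iff {q n : ℕ} [Fact q.Prime] (hq : q - 1 = 3 * n) {x : ZMod q} (hx : x ≠ 0) :
    x ^ n = 1 ↔ ∃ a : ZMod q, x = a ^ 3 := by
  refine ⟨fun h => ?_, ?_⟩
  · obtain ⟨g, hg⟩ := IsCyclic.exists_monoid_generator (α := (ZMod q)ˣ)
    obtain ⟨m, hm⟩ := hg (Units.mk0 x hx)
    have o : orderOf g = 3 * n := by
      rw [orderOf_eq_card_of_forall_mem_powers hg, Nat.card_eq_fintype_card, ZMod.card_units, hq]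
    have e : g ^ (m * n) = 1 := Units.ext (by
      rw [pow_mul, show g ^ m = _ from hm]; simpa using h)
    have n0 : 0 < n := by
      have := (Fact.out : q.Prime).two_le
      omega
    obtain ⟨k, rfl⟩ := Nat.dvd_of_mul_dvd_mul_right n0 (o ▸ orderOf_dvd_of_pow_eq_one e)
    refine ⟨(g ^ k : (ZMod q)ˣ), ?_⟩
    have := congrArg Units.val hm
    simp only [Units.val_mk0] at this
    rw [← this]
    push_cast
    ring
  · rintro ⟨a, rfl⟩
    rw [← pow_mul, ← hq]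
    exact ZMod.pow_card_sub_one_eq_one fun z => hx (by simp [z])

theorem fb_root {q l : ℕ} [Fact q.Prime] {L : Ideal (𝓞 Qb)} {ψ : GQ} (h : Ov l L) (ne : q ≠ l)
    (f : Fb l L ψ) {ζ : Qb} (e : ζ ^ q = 1) : ψ ζ = ζ ^ l := by
  let z : 𝓞 Qb := ⟨ζ, IsIntegral.of_pow (Fact.out : q.Prime).pos (by rw [e]; exact isIntegral_one)⟩
  have e1 : z ^ q = 1 := RingOfIntegers.ext e
  exact congrArg Subtype.val (P022E.GW.Unr.root_inj h.2.1 (p_notMem h ne.symm)
    (by rw [← smul_pow', e1, smul_one]) (by rw [← pow_mul, mul_comm, pow_mul, e1, one_pow]) (f z))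

theorem cb_iff {q l : ℕ} [Fact q.Prime] {L : Ideal (𝓞 Qb)} {ψ : GQ} (h : Ov l L) (ne : q ≠ l)
    (f : Fb l L ψ) : Cb q ψ ↔ ∃ a : ZMod q, (l : ZMod q) = a ^ 3 := by
  refine ⟨fun ⟨a, ha⟩ => ⟨a, ?_⟩, fun ⟨a, ha⟩ => ⟨a.val, fun ζ e => ?_⟩⟩
  · have := ha _ (zt_pow (p := q))
    rw [fb_root h ne f zt_pow, ← pw_nat l, ← pw_nat (a ^ 3)] at this
    exact_mod_cast pw_inj this
  · rw [fb_root h ne f e, pow_eq_pow_mod l e, pow_eq_pow_mod (a.val ^ 3) e]
    congr 1
    exact (ZMod.natCast_eq_natCast_iff _ _ _).1 (by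
      rw [ha, Nat.cast_pow, ZMod.natCast_zmod_val])

theorem ka_fb {q l n : ℕ} {Q : Ideal (𝓞 Qb)} {σ : GQ} (h : Ov q Q) (hq : q = 3 * n + 1)
    (hl : (l : 𝓞 Qb) ∉ Q) (f : Fb q Q σ) : ka 3 (l : Qb) σ = 0 ↔ (l : 𝓞 Qb) ^ n - 1 ∈ Q := by
  let y : 𝓞 Qb := ⟨rt 3 l, IsIntegral.of_pow three_pos (by
    rw [rt_pow]; exact (l : 𝓞 Qb).isIntegral_coe)⟩
  let ζ : 𝓞 Qb := ⟨zt 3, (zt_prim 3).isIntegral three_pos⟩
  have y3 : y ^ 3 = l := RingOfIntegers.ext (rt_pow 3 _)
  have hy : y ∉ Q := fun m => hl (y3 ▸ Ideal.pow_mem_of_mem Q m 3 three_pos)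
  have e1 : σ • y - y ^ q = (ζ ^ (ka 3 (l : Qb) σ).val - l ^ n) * y := by
    rw [sub_mul, hq, pow_succ, pow_mul, y3]
    exact congrArg (· - (l : 𝓞 Qb) ^ n * y) (RingOfIntegers.ext (ka_spec (map_natCast σ l)))
  have m := (h.2.1.mem_or_mem (e1 ▸ f y)).resolve_right hy
  refine ⟨fun z => ?_, fun k => pw_inj ?_⟩
  · rw [z, ZMod.val_zero, pow_zero] at m
    simpa using Q.neg_mem m
  · rw [ZMod.val_zero, pow_zero]
    exact congrArg Subtype.val (P022E.GW.Unr.root_inj h.2.1 (p_notMem (p := 3) h (by omega))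
      (RingOfIntegers.ext (pw_pow (ka 3 (l : Qb) σ))) (one_pow 3) (by simpa using Q.add_mem m k))

theorem ex_cube {N : ℕ} (h0 : N ≠ 0) (h : ∀ l : ℕ, l.Prime → 3 ∣ N.factorization l) :
    ∃ T, N = T ^ 3 := by
  refine ⟨∏ l ∈ N.primeFactors, l ^ (N.factorization l / 3), ?_⟩
  rw [← Finset.prod_pow]
  refine (Nat.factorization_prod_pow_eq_self h0).symm.trans (Finset.prod_congr rfl fun l hl => ?_)
  rw [← pow_mul, Nat.div_mul_cancel (h l (Nat.prime_of_mem_primeFactors hl))]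

end Li

open Li

/-- **row `LIN`** -/
theorem lin : LIN := fun d D => by
  obtain ⟨δ, h⟩ := ex_dg d fun i k => D i.succ k.succ
  obtain ⟨a, ha⟩ := stp D δ h 0
  refine ⟨Fin.cons a δ, fun u w s m m' hu hw e e' => ?_⟩
  have k := ha m fun i => by simpa only [dg, Fin.succ_ne_zero, if_false, add_zero] using e i.succ
  have e0 := e 0
  rw [show (∑ i', _) = _ from k.1, if_pos rfl, zero_mul, zero_add] at e0
  have z := (mul_eq_zero.1 e0).resolve_left hu
  rw [z, mul_zero, add_zero] at e'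
  exact ⟨k.2 ((mul_eq_zero.1 e').resolve_left hw), z⟩

/-- **row `CBR`** -/
theorem cbr : CBR := by
  rintro q l Q L φ ψ hQ hL ne h3 f - ⟨t, ht, fq⟩
  haveI : Fact q.Prime := ⟨hQ.1⟩
  haveI : Fact l.Prime := ⟨hL.1⟩
  have hq : q = 3 * (q / 3) + 1 := by omega
  have hl : (l : 𝓞 Qb) ∉ Q := p_notMem hQ ne
  have l0 : (l : ZMod q) ≠ 0 := fun z =>
    ne ((Nat.prime_dvd_prime_iff_eq hQ.1 hL.1).1 ((ZMod.natCast_eq_zero_iff _ _).1 z))
  have k0 : ka 3 (l : Qb) t = 0 :=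
    ka_int (p := 3) hQ (by omega) hl ht (map_natCast t l)
  have k1 := ka_coc (p := 3) (b := (l : Qb)) (Nat.cast_ne_zero.2 hL.1.ne_zero) (map_natCast φ l)
    (map_natCast t l)
  rw [k0, mul_zero, add_zero] at k1
  rw [← k1, ka_fb hQ hq hl fq, cb_iff hL ne f, ← cube_iff (n := q / 3) (by omega) l0,
    show (l : 𝓞 Qb) ^ (q / 3) - 1 = ((l ^ (q / 3) - 1 : ℤ) : 𝓞 Qb) by push_cast; rfl, int_mem hQ,
    ← ZMod.intCast_zmod_eq_zero_iff_dvd]
  push_cast
  exact sub_eq_zero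

/-- **row `PLS`** -/
theorem pls : PLS := by
  intro ι _ q s n y inj hq n0 hy hv hm
  classical
  have N0 : n.natAbs ≠ 0 := Int.natAbs_ne_zero.2 n0
  have P0 : ∀ i, q i ^ (2 * n.natAbs.factorization (q i)) ≠ 0 := fun i =>
    pow_ne_zero _ (hq i).1.ne_zero
  have out : ∀ l : ℕ, l.Prime → (∀ i, l ≠ q i) → 3 ∣ n.natAbs.factorization l := fun l hl k => by
    rw [Nat.factorization_def _ hl]; exact hv l hl k
  obtain ⟨T, hT⟩ := ex_cube (N := n.natAbs * ∏ i, q i ^ (2 * n.natAbs.factorization (q i)))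
    (mul_ne_zero N0 (Finset.prod_ne_zero_iff.2 fun i _ => P0 i)) fun l hl => by
      rw [Nat.factorization_mul N0 (Finset.prod_ne_zero_iff.2 fun i _ => P0 i),
        Nat.factorization_prod fun i _ => P0 i, Finsupp.add_apply, Finsupp.finset_sum_apply]
      simp only [fun i k => Nat.Prime.factorization_pow (k := k) (hq i).1, Finsupp.single_apply]
      by_cases c : ∃ i, l = q i
      · obtain ⟨i, rfl⟩ := c
        simp only [inj.eq_iff, Finset.sum_ite_eq', Finset.mem_univ, if_true]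
        omega
      · rw [Finset.sum_eq_zero fun i _ => if_neg fun e => c ⟨i, e.symm⟩, add_zero]
        exact out l hl fun i e => c ⟨i, e⟩
  have T0 : (T : Qb) ≠ 0 := Nat.cast_ne_zero.2 fun z => by
    rw [z, zero_pow three_ne_zero] at hT
    exact mul_ne_zero N0 (Finset.prod_ne_zero_iff.2 fun i _ => P0 i) hT
  obtain ⟨y', y3, fy⟩ : ∃ y' : Qb, y' ^ 3 = (n.natAbs : Qb) ∧ ∀ i, s i y' = y' := by
    rcases Int.natAbs_eq n with e | e
    · exact ⟨y, hy.trans ((congrArg Int.cast e).trans (Int.cast_natCast _)), fun i => (hq i).2.2⟩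
    · refine ⟨-y, ?_, fun i => by rw [map_neg, (hq i).2.2]⟩
      have : (n : Qb) = -(n.natAbs : Qb) :=
        (congrArg Int.cast e).trans (by rw [Int.cast_neg, Int.cast_natCast])
      linear_combination -hy - this
  have z := hm (fun i => (2 * n.natAbs.factorization (q i) : ℕ)) fun i => by
    have g := mem_Gz.2 (hq i).2.1
    have q0 : ∀ k, (q k : Qb) ≠ 0 := fun k => Nat.cast_ne_zero.2 (hq k).1.ne_zero
    have k1 := ka_pp (p := 3) T0 g (map_natCast _ T)
    have e : (T : Qb) ^ 3 = n.natAbs * ∏ i, (q i : Qb) ^ (2 * n.natAbs.factorization (q i)) := by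
      exact_mod_cast congrArg (Nat.cast : ℕ → Qb) hT.symm
    rw [e, ka_mul (Nat.cast_ne_zero.2 N0) (Finset.prod_ne_zero_iff.2 fun k _ => pow_ne_zero _ (q0 k))
      g (map_natCast _ _) (by simp), (ka_eq_zero (Nat.cast_ne_zero.2 N0) y3 g
        (map_natCast _ _)).2 (fy i), zero_add,
      ka_prod _ g fun k _ => ⟨pow_ne_zero _ (q0 k), by simp⟩] at k1
    rw [← k1]
    exact Finset.sum_congr rfl fun k _ => by rw [ka_pow (q0 k) g (map_natCast _ _), mul_comm]
  obtain ⟨T', hT'⟩ := ex_cube N0 fun l hl => by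
    by_cases c : ∃ i, l = q i
    · obtain ⟨i, rfl⟩ := c
      have := (ZMod.natCast_eq_zero_iff _ _).1 (congrFun z i)
      omega
    · exact out l hl fun i e => c ⟨i, e⟩
  rcases Int.natAbs_eq n with e | e
  · exact ⟨T', by rw [e, hT']; push_cast; rfl⟩
  · exact ⟨-T', by rw [e, hT']; push_cast; ring⟩

end Vale.Agent.P014Y.Rd
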