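import Vale.Agent.P014Y.Rd.St4
import Vale.Agent.P014Y.Rd.Lin
import Vale.Agent.P004R.Twr0
import Vale.Agent.P022E.GW.Fix

/-!
# P014Y, route R: the last prime of the tower
-/

set_option autoImplicit false
set_option linter.all false

open NumberField
open scoped Pointwise

noncomputable section

namespace Vale.Agent.P014Y.Rd

open Vale.Agent.P022 (Qb GQ GK below IsFrob)
open P004K
open Vale.Agent.P027M.S (Inert)
open Vale.Agent.P022D.W (dec)
open Vale.Agent.P022E.GW (Ov Fb)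
open Vale.Agent.P022K.G2 hiding Tv
open Vale.Agent.P004S (ex_conj inert_dec lt)
open P004R.Cb (fxg fxg_open)
open P004R.Wr (inert_hc ov_nat)

namespace T2

variable {l : ℕ} {P : Ideal (𝓞 Qb)} {g : GQ}

theorem ex_kv {N : ℕ} [NeZero N] {ζ a : Qb} (hζ : IsPrimitiveRoot ζ N) (f : Fx {1} N g)
    (e : g a = a) : ∃ x : ZMod N, Kv ζ a g x := by
  obtain ⟨y, rfl⟩ := IsAlgClosed.exists_pow_nat_eq a (NeZero.pos N)
  have H : ∀ z : Qb, z ^ N = y ^ N → ∃ i : ℕ, z = ζ ^ i * y := fun z hz => by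
    by_cases h0 : y = 0
    · rw [h0, zero_pow (NeZero.ne N)] at hz
      exact ⟨0, by rw [h0, (pow_eq_zero_iff (NeZero.ne N)).1 hz, mul_zero]⟩
    · obtain ⟨i, -, k⟩ := hζ.eq_pow_of_pow_eq_one (ξ := z / y)
        (by rw [div_pow, hz, div_self (pow_ne_zero _ h0)])
      exact ⟨i, by rw [k, div_mul_cancel₀ _ h0]⟩
  obtain ⟨i, hi⟩ := H (g y) (by rw [← map_pow, e])
  refine ⟨i, fun z hz => ?_⟩
  obtain ⟨k, rfl⟩ := H z hz
  rw [map_mul, map_pow, f ζ hζ.pow_eq_one, hi, ZMod.val_natCast,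
    ← pow_eq_pow_mod _ hζ.pow_eq_one]
  ring

theorem kv_red {M : ℕ} (h0 : 0 < M) {ζ a : Qb} (hζ : IsPrimitiveRoot ζ (3 * M)) (a0 : a ≠ 0)
    {x : ZMod (3 * M)} {z : ZMod 3} (h : Kv ζ a g x) (k : Kv (ζ ^ M) a g z) :
    (x.val : ZMod 3) = z := by
  obtain ⟨y, rfl⟩ := IsAlgClosed.exists_pow_nat_eq a (show 0 < 3 * M by omega)
  have y0 : y ^ M ≠ 0 := fun e => a0 (by rw [mul_comm, pow_mul, e]; simp)
  have e := k (y ^ M) (by rw [← pow_mul, mul_comm])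
  rw [map_pow, h y rfl, mul_pow, ← pow_mul, mul_comm x.val, pow_mul] at e
  have p := hζ.pow (by omega) (mul_comm 3 M)
  have := mul_right_cancel₀ y0 e
  rw [pow_eq_pow_mod _ p.pow_eq_one] at this
  rw [← ZMod.natCast_mod, p.pow_inj (Nat.mod_lt _ three_pos) z.val_lt this, ZMod.natCast_zmod_val]

/-- reduction modulo three -/
def rd (n : ℕ) : ZMod (3 * 3 ^ (n + 1)) →+* ZMod 3 := ZMod.castHom (dvd_mul_right 3 _) (ZMod 3)

theorem rd_val {n : ℕ} (x : ZMod (3 * 3 ^ (n + 1))) : (x.val : ZMod 3) = rd n x := by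
  rw [rd, ZMod.castHom_apply, ZMod.natCast_val]

theorem eb_eq {n : ℕ} (e : GQ → ZMod (3 * 3 ^ (n + 1))) (g : GQ) : eb e g = rd n (e g) :=
  rd_val _

theorem add_pw {H : Subgroup GQ} {f : GQ → ZMod 3}
    (a : ∀ g ∈ H, ∀ h ∈ H, f (g * h) = f g + f h) {t : GQ} (hg : g ∈ H) (ht : t ∈ H) (r : ZMod 3) :
    f (g * t ^ r.val) = f g + r * f t := by
  have : ∀ r : ℕ, f (g * t ^ r) = f g + r * f t := fun r => by
    induction r with
    | zero => simp
    | succ r ih =>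
      rw [pow_succ, ← mul_assoc, a _ (mul_mem hg (pow_mem ht r)) _ ht, ih]
      push_cast
      ring
  rw [this, ZMod.natCast_zmod_val]

theorem gz {M : ℕ} (f : Fx {1} (3 * M) g) : g ∈ Gz 3 :=
  mem_Gz'.2 (f _ (by show zt 3 ^ (3 * M) = 1; rw [pow_mul, zt_pow, one_pow]))

theorem mod3 (o : Ov l P) (n : l ≠ 3) (f : Fb l P g) (z : g ∈ Gz 3) : l % 3 = 1 := by
  have a := mem_Gz'.1 z
  rw [Li.fb_root o n.symm f zt_pow, ← pw_nat l] at a
  exact (ZMod.natCast_eq_natCast_iff' l 1 3).1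
    (pw_inj (b := 1) (by rw [a, ZMod.val_one, pow_one]))

theorem kad (h : l.Prime) : ∀ g ∈ Gz 3, ∀ k ∈ Gz 3, ka 3 l (g * k) = ka 3 l g + ka 3 l k :=
  fun g z k _ => ka_add (Nat.cast_ne_zero.2 h.ne_zero) z (map_natCast _ _) (map_natCast _ _)

theorem kin {q : ℕ} (o : Ov l P) (n : l ≠ 3) (h : q.Prime) (ne : l ≠ q) (i : Inert P g) :
    ka 3 q g = 0 :=
  haveI := Fact.mk h
  ka_int (p := 3) (x := q) o n (p_notMem o ne) i (map_natCast g q)

variable {K : Type} [Field K] [NumberField K] {j : K →+* Qb}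

theorem xc {n c : ℕ} {e : GQ → ZMod (3 * 3 ^ (n + 1))}
    (a : ∀ g ∈ GK j, ∀ h ∈ GK j, e (g * h) = e g + e h) (k : ∀ g ∈ Hc j c, e g = 0) :
    Xc j c (eb e) :=
  ⟨fun g m h m' => by rw [eb_eq, eb_eq, eb_eq, a g m h m', map_add],
    fun g m => by rw [eb_eq, k g m, map_zero]⟩

theorem ka_ne (o : Ov l P) (n : l ≠ 3) (d : dec P ≤ GK j) {c : ℕ} (op : IsOpen (Hc j c : Set GQ))
    {x : GQ → ZMod 3} (hx : Xc j c x) (i : Inert P g) (e : x g = 1) : ka 3 l g ≠ 0 := fun z => by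
  obtain ⟨W, hW, le⟩ := ex_lv' op
  obtain ⟨v, hv⟩ := (tam 3 l P o n).2.2 (ZMod 3) (ZMod 3) x
    (fun g h a b => hx.add g (d (inert_dec a)) h (d (inert_dec b)))
    ⟨W, hW, fun w hw _ => hx.ker w (le hw)⟩
  have := hv g i
  rw [z, map_zero, zero_smul, e] at this
  exact one_ne_zero this

theorem cop {B : Finset ℕ} {P : ℕ → Ideal (𝓞 Qb)} (bs : Bs j B P) {c : ℕ} (hc : ∀ b ∈ B, ¬ b ∣ c)
    (μ : ℕ → ℕ) : Cop c (∏ b ∈ B, below j (P b) ^ μ b) := by
  refine ⟨Finset.prod_ne_zero_iff.2 fun b hb => pow_ne_zero _ (below_ne j (bs.ov b hb).1),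
    Ideal.isCoprime_iff_sup_eq.1 (IsCoprime.prod_left fun b hb => IsCoprime.pow_left ?_)⟩
  have o := (bs.ov b hb).1
  obtain ⟨u, v, e⟩ : IsCoprime (b : 𝓞 K) (c : 𝓞 K) :=
    Nat.Coprime.cast ((Nat.Prime.coprime_iff_not_dvd o.1).2 (hc b hb))
  exact Ideal.isCoprime_iff_sup_eq.2 ((Ideal.eq_top_iff_one _).2 (e ▸ add_mem
    (Ideal.mem_sup_left (Ideal.mul_mem_left _ _ (by simpa [below] using o.2.2)))
    (Ideal.mem_sup_right (Ideal.mul_mem_left _ _ (Ideal.mem_span_singleton_self _)))))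

theorem gk_nor (r1 : RC1) (hK : Iq K) : (GK j).Normal := ⟨fun t ht g => by
  by_cases k : g ∈ GK j
  · exact mul_mem (mul_mem k ht) (inv_mem k)
  · simpa using (GK j).mul_mem ((r1 K j hK 1 one_pos).2.2.2.2.1 g k t ht).1 (inv_mem ht)⟩

theorem dec_gk (r1 : RC1) (hK : Iq K) (o : Ov l P) (f : Fb l P g) (m : g ∈ GK j)
    (u : ∀ i, Inert P i → i ∈ GK j) {Q : Ideal (𝓞 Qb)} (hQ : Ov l Q) : dec Q ≤ GK j := fun x k => by
  obtain ⟨t, -, e⟩ := ex_conj o hQ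
  simpa [mul_assoc] using (gk_nor r1 hK).conj_mem _
    (lt.dec_le o f (P022.H916.isOpen_GK j) m u (e x k)) t

theorem qa_fix (r1 : RC1) (hK : Iq K) (γ : GQ) (β : 𝓞 K) (m : g ∈ GK j) :
    g (qa j γ β) = qa j γ β := by
  have := congrArg γ ((gk_nor r1 hK).conj_mem' g m γ (β : K))
  rw [← AlgEquiv.mul_apply, mul_assoc, mul_inv_cancel_left, AlgEquiv.mul_apply] at this
  rw [qa, map_div₀, m, this]

theorem qa_ne (γ : GQ) {β : 𝓞 K} (h : β ≠ 0) : qa j γ β ≠ 0 :=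
  have : j β ≠ 0 := (map_ne_zero j).2 (RingOfIntegers.coe_ne_zero_iff.2 h)
  div_ne_zero this ((map_ne_zero γ).2 this)

theorem dvd_q {ι : Type} [Fintype ι] {q : ι → ℕ} (h : ∀ i, (q i).Prime) (hl : l.Prime)
    (ne : ∀ i, q i ≠ l) : ¬ l ∣ ∏ i, q i := fun d => by
  obtain ⟨i, -, k⟩ := (Prime.dvd_finset_prod_iff hl.prime _).1 d
  exact ne i ((Nat.prime_dvd_prime_iff_eq hl (h i)).1 k).symm

end T2

open T2

/-- **the last prime** -/
theorem tw2 (r1 : RC1) (r2 : RC2) (ext : EXT) (adj : ADJ) (lin : LIN) (cbr : CBR) : TW2 := by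
  classical
  intro K _ _ j kd γ hγ B P A bs ga S U Gq hS nq
  have op := fun c (h : 0 < c) => (r1 K j kd.iq c h).2.1
  have mo := fun c m (h : 0 < c) (k : 0 < m) => (r1 K j kd.iq c h).2.2.2.2.2 m k
  obtain ⟨h, -, h9, hA, m, hm⟩ := nq.ex A ga.ne (Hc j 9) (op 9 (by norm_num))
  obtain ⟨k, -, hk⟩ := hm 1 fun _ _ => rfl
  rw [one_mul] at hk
  refine ⟨m, fun G n d q Q φ e p => ?_⟩
  have hN : 3 * 3 ^ (n + 1) = 3 ^ (n + 2) := by ring
  obtain ⟨ζ, hζ⟩ := HasEnoughRootsOfUnity.exists_primitiveRoot Qb (3 * 3 ^ (n + 1))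
  have ov := fun i => (p.pl i).1
  have fb := fun i => (p.pl i).2.1
  have qB := fun i => (p.pl i).2.2.1
  have φz := fun i => gz (p.pl i).2.2.2.1
  have dq := fun i Q' o => ((p.pl i).2.2.2.2.2 Q' o).1
  have q3 : ∀ i, q i ≠ 3 := fun i e => qB i (e ▸ bs.thr)
  have φd := fun i => P022D.W.phi_mem (ov i).1 (ov i).2.1 (fb i)
  have c0 : 0 < ∏ i, q i := Finset.prod_pos fun i _ => (ov i).1.pos
  have xe := xc p.add p.ker
  choose μ β hβ using fun i => bs.gen _ (below_ne j (ov i))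
  have cp := fun i => cop bs (fun b hb => dvd_q (fun i => (ov i).1) (bs.ov b hb).1.1
    fun i e => qB i (e ▸ hb)) (μ i)
  have β0 : ∀ i, β i ≠ 0 := fun i z => mul_ne_zero (below_ne j (ov i)) (cp i).1
    (by rw [hβ, z, Ideal.span_singleton_zero]; rfl)
  choose t ti te using fun i => ((p.pl i).2.2.2.2.2 _ (ov i)).2
  have e1 : ∀ {e : GQ → ZMod (3 * 3 ^ (n + 1))} {g : GQ}, e g = 1 → eb e g = 1 := fun a => by
    rw [eb_eq, a, map_one]
  have a0 := fun i => ka_ne (ov i) (q3 i) (dq i _ (ov i)) (op _ c0) xe (ti i) (e1 (te i))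
  obtain ⟨δ, hδ⟩ := lin d fun i i' => ka 3 (q i') (φ i)
  have hF : h ^ k ∈ fxg (insert 1 (j '' A)) (3 * 3 ^ (n + 1)) := pow_mem (hN ▸ hA (n + 2)) k
  obtain ⟨τ, hτ, x1, hz⟩ := adj K j kd γ hγ _ 0 q Q β _ (eb e) (ζ ^ 3 ^ (n + 1)) p.inj
    (hζ.pow (by positivity) (mul_comm _ _))
    (fun i => ⟨ov i, mod3 (ov i) (q3 i) (fb i) (φz i), hβ i, cp i, fun Q' o =>
      ((p.pl i).2.2.2.2.2 Q' o).imp_right fun ⟨s, a, b⟩ => ⟨s, a, e1 b⟩⟩) xe (h ^ k)
    (pow_mem h9 k).1 (by rw [map_pow, hF ζ (Or.inl hζ.pow_eq_one)])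
    fun i => (ka 3 (q i) (φ i) - δ i) / ka 3 (q i) (t i) - eb e (φ i)
  have tV : τ ∈ Hc j 9 ⊓ fxg (insert 1 (j '' A)) (3 * 3 ^ (n + 1)) ⊓ U m :=
    (Subgroup.closure_le _).2 (by
      rintro s ⟨i, Q', o, hs⟩
      have ms := dq i Q' o (inert_dec hs)
      exact ⟨⟨inert_hc r2 kd.iq o (fun d => q3 i ((Nat.prime_dvd_prime_iff_eq o.1
        Nat.prime_three).1 (o.1.dvd_of_dvd_pow (n := 2) d))) ms hs,
        hN ▸ ga.unr _ _ _ o (qB i) s ms hs⟩, (nq.opn m).2.2 _ _ o (fun c => qB i (hS c)) s hs⟩) hτ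
  have gV : h ^ k * τ ∈ Hc j 9 ⊓ fxg (insert 1 (j '' A)) (3 * 3 ^ (n + 1)) :=
    mul_mem ⟨pow_mem h9 k, hF⟩ tV.1
  have gG := nq.stb m _ _ tV.2 hk
  generalize h ^ k * τ = g at x1 hz gV gG
  have oW : IsOpen (((Hc j 9 ⊓ fxg (insert 1 (j '' A)) (3 * 3 ^ (n + 1)) ⊓ U m ⊓ Hc j (∏ i, q i)) ⊓
      ⨅ i, fxg {1} (q i) ⊓ fxg {qa j γ (β i), (q i : Qb)} 3 : Subgroup GQ) : Set GQ) := by
    rw [Subgroup.coe_inf, Subgroup.coe_iInf]
    exact ((((op 9 (by norm_num)).inter (fxg_open ((A.finite_toSet.image _).insert _)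
      (by positivity))).inter (nq.opn m).1).inter (op _ c0)).inter
      (isOpen_iInter_of_finite fun i => (fxg_open (Set.finite_singleton _) (ov i).1.pos).inter
        (fxg_open (Set.toFinite _) three_pos))
  obtain ⟨n0, nn, hn0⟩ := P022E.GW.Fx2.fin_ram (GK j) (P022.H916.isOpen_GK j)
  obtain ⟨l, ψ, hl, lT, ⟨L, L1, L2, fψ⟩, hO⟩ := P022K.Cheb.exists_fr
    (oW.preimage (f := fun x => g⁻¹ * x) (continuous_const.mul continuous_id))
    (g := g) (by simp [one_mem]) (B ∪ Finset.univ.image q ∪ n0.primeFactors)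
  have oL : Ov l L := ⟨hl, L1, L2⟩
  rw [Finset.mem_union, Finset.mem_union, not_or, not_or] at lT
  have lq : ∀ i, q i ≠ l := fun i e => lT.1.2 (Finset.mem_image.2 ⟨i, Finset.mem_univ _, e⟩)
  have l3 : l ≠ 3 := fun e => lT.1.1 (e ▸ bs.thr)
  have lc := dvd_q (fun i => (ov i).1) hl lq
  obtain ⟨w, rfl⟩ : ∃ w, ψ = g * w := ⟨g⁻¹ * ψ, by group⟩
  rw [Set.mem_preimage, inv_mul_cancel_left] at hO
  obtain ⟨⟨⟨wV, wU⟩, wc⟩, wi⟩ := hO
  replace wi := Subgroup.mem_iInf.1 wi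
  have ψV := mul_mem gV wV
  have ψ1 : Fx {1} (3 * 3 ^ (n + 1)) (g * w) := fun y hy => ψV.2 y (Or.inl hy)
  have dL := fun L' (o : Ov l L') => dec_gk r1 kd.iq oL fψ ψV.1.1
    (hn0 L L1 (ov_nat oL fun d => lT.2 (Nat.mem_primeFactors.2 ⟨hl, d, nn⟩))) o
  have pr : (List.ofFn ![g * w]).prod = g * w := by simp
  obtain ⟨η, ηa, ηk, ηt, ηb, ηl⟩ := ext K j kd γ hγ B P bs _ (n + 2) ζ 0 hN hζ 1 ![l] ![L] ![g * w]
    (fun a b _ => Subsingleton.elim a b)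
    (fun i => by rw [Subsingleton.elim i 0]; exact ⟨oL, dL L oL, fψ, lT.1.1, ψ1⟩)
    (by
      have := ga.stb _ ζ 1 (one_mem _) _ ψV.1.1 0 (by positivity) ψV.2 (ga.one _ ζ)
      rwa [one_mul, ← pr] at this)
  rw [show ∏ i, ![l] i = l by simp] at ηk ηl
  rw [pr] at ηl
  have ql : ∀ i, ¬ q i ∣ l := fun i d => lq i ((Nat.prime_dvd_prime_iff_eq (ov i).1 hl).1 d)
  have ηφ : ∀ i, rd n (η (φ i)) =
      (ka 3 (q i) (φ i) - δ i) / ka 3 (q i) (t i) - eb e (φ i) := fun i => by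
    obtain ⟨x, hx⟩ := ex_kv hζ ψ1 (qa_fix r1 kd.iq γ (β i) ψV.1.1)
    have := ηl _ _ _ _ _ x (ov i) (dq i _ (ov i)) (fb i) (ql i) (hβ i) hx
    simp only [Pi.zero_apply, mul_zero, Finset.sum_const_zero, add_zero] at this
    rw [this, ← rd_val]
    exact kv_red (by positivity) hζ (qa_ne γ (β0 i)) hx fun y hy => by
      rw [AlgEquiv.mul_apply, (wi i).2 y (Or.inl hy), (hz i).1 y hy]
  have η0 : ∀ i Q', Ov (q i) Q' → ∀ s, Inert Q' s → η s = 0 := fun i Q' o s hs =>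
    ηk s (inert_hc r2 kd.iq o (ql i) (dq i Q' o (inert_dec hs)) hs)
  have P' : P0 j B P (fun g => G g ∨ Gq m g) (fun o : Option _ => o.elim l q)
      (fun o => o.elim L Q) (fun o => o.elim (g * w) φ) (e + η) := by
    refine ⟨?_, ?_, fun a ma b mb => ?_, fun a ma => ?_, fun b hb ψ f => ?_⟩
    · rintro (_ | i) (_ | i') e
      exacts [rfl, (lq i' e.symm).elim, (lq i e).elim, congrArg some (p.inj e)]
    · rintro (_ | i)
      · refine ⟨oL, fψ, lT.1.1, ψ1, Or.inr (nq.stb m _ _ wU gG), fun L' o => ⟨dL L' o, ?_⟩⟩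
        obtain ⟨s, a, b⟩ := ηt 0 L' o
        exact ⟨s, a, by rw [Pi.add_apply, b,
          p.ker s (inert_hc r2 kd.iq o lc (dL L' o (inert_dec a)) a), zero_add]⟩
      · obtain ⟨a, b, c, d, f, u⟩ := p.pl i
        refine ⟨a, b, c, d, Or.inl f, fun Q' o => (u Q' o).imp_right fun ⟨s, a, b⟩ => ⟨s, a, ?_⟩⟩
        rw [Pi.add_apply, b, η0 i Q' o s a, add_zero]
    · simp only [Pi.add_apply, p.add a ma b mb, ηa a ma b mb]
      ring
    · rw [Fintype.prod_option] at ma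
      rw [Pi.add_apply, ηk a (mo _ _ hl.pos c0 ma), p.ker a (mo _ _ c0 hl.pos (mul_comm l _ ▸ ma)),
        add_zero]
    · rw [Pi.add_apply, p.val b hb ψ f, ηb b hb ψ f, Pi.zero_apply, add_zero]
  have xe' := xc P'.add P'.ker
  have o3 : ∀ o : Option (Fin (d + 1)), o.elim l q ≠ 3 := by
    rintro (_ | i)
    exacts [l3, q3 i]
  refine ⟨_, _, _, _, P', P'.inj, fun o => ?_, xe', ⟨?_, ?_⟩, ?_, fun a y ya hy f =>
    p.det a y ya hy fun i => f (some i) (Option.some_ne_none i), ?_⟩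
  · obtain ⟨a, b, -, d, -, u⟩ := P'.pl o
    exact ⟨a, b, mod3 a (o3 o) b (gz d), fun Q' o => (u Q' o).imp_right fun ⟨s, a, b⟩ =>
      ⟨s, a, e1 b⟩⟩
  · have := Finset.mul_prod_erase Finset.univ (fun o : Option _ => o.elim l q)
      (Finset.mem_univ none)
    rw [Fintype.prod_option] at this
    rw [Nat.eq_of_mul_eq_mul_left hl.pos this]
    exact xe
  · show eb e (g * w) ≠ 0
    rw [xe.add g gV.1.1 w wV.1.1, x1, xe.ker w wc, add_zero]
    exact one_ne_zero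
  · rintro (_ | i) hi
    · exact absurd rfl hi
    obtain ⟨z, a, b, c⟩ := p.x9 i
    refine ⟨z, a, b, ?_⟩
    rintro (_ | i') hi'
    exacts [a.ker _ ψV.1, c i' fun e => hi' (congrArg some e)]
  obtain ⟨tl, tli, tle⟩ := ((P'.pl none).2.2.2.2.2 L oL).2
  have te' : ∀ i, eb (e + η) (t i) = 1 := fun i =>
    e1 (by rw [Pi.add_apply, te, η0 i _ (ov i) _ (ti i), add_zero])
  have ψd := P022D.W.phi_mem hl L1 fψ
  have sd := fun i => mul_mem (φd i) (pow_mem (inert_dec (ti i)) (-eb (e + η) (φ i)).val)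
  refine ⟨fun o => o.elim (g * w * tl ^ (-eb (e + η) (g * w)).val)
    fun i => φ i * t i ^ (-eb (e + η) (φ i)).val, ?_, fun v hv => ?_⟩
  · rintro (_ | i)
    · refine ⟨mul_mem ψd (pow_mem (inert_dec tli) _), ?_⟩
      show eb _ (_ * _) = 0
      rw [add_pw xe'.add ψV.1.1 (dL L oL (inert_dec tli)), e1 tle]
      ring
    · refine ⟨sd i, ?_⟩
      show eb _ (_ * _) = 0
      rw [add_pw xe'.add (dq i _ (ov i) (φd i)) (dq i _ (ov i) (inert_dec (ti i))), te']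
      ring
  have kl : ∀ i, ka 3 l (φ i * t i ^ (-eb (e + η) (φ i)).val) = 0 ↔ i ≠ 0 := fun i => by
    rw [cbr (q i) l (Q i) L _ (g * w) (ov i) oL (lq i) (mod3 (ov i) (q3 i) (fb i) (φz i)) fψ (sd i)
      ⟨_, inv_mem (pow_mem (show t i ∈ P022.H443.inP (Q i) from ti i) _), by
        rw [mul_inv_cancel_right]; exact fb i⟩, ← (hz i).2.2]
    refine exists_congr fun a => forall₂_congr fun y hy => ?_
    rw [AlgEquiv.mul_apply, (wi i).1 y hy]
  have kq : ∀ i, ka 3 (q i) (g * w * tl ^ (-eb (e + η) (g * w)).val) = 0 ↔ i ≠ 0 := fun i => by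
    have wz : w ∈ Gz 3 := gz fun y hy => wV.2 y (Or.inl hy)
    rw [add_pw (kad (ov i).1) (gz ψ1) (inert_gz oL l3 tli), kin oL l3 (ov i).1 (lq i).symm tli,
      mul_zero, add_zero, kad (ov i).1 g (gz fun y hy => gV.2 y (Or.inl hy)) w wz,
      (ka_eq_zero (Nat.cast_ne_zero.2 (ov i).1.ne_zero) (rt_pow 3 _) wz (map_natCast _ _)).2
        ((wi i).2 _ (Or.inr (rt_pow 3 _))), add_zero, (hz i).2.1]
  have kk : ∀ i i', ka 3 (q i') (φ i * t i ^ (-eb (e + η) (φ i)).val) =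
      if i' = i then δ i else ka 3 (q i') (φ i) := fun i i' => by
    rw [add_pw (kad (ov i').1) (φz i) (inert_gz (ov i) (q3 i) (ti i))]
    split_ifs with c
    · subst c
      rw [eb_eq, Pi.add_apply, map_add, ηφ, ← eb_eq, add_sub_cancel, neg_mul,
        div_mul_cancel₀ _ (a0 i')]
      ring
    · rw [kin (ov i) (q3 i) (ov i').1 (fun e => c (p.inj e).symm) (ti i), mul_zero, add_zero]
  have := hδ _ _ (ka 3 l (g * w * tl ^ (-eb (e + η) (g * w)).val)) (fun i => v (some i)) (v none)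
    (fun z => (kl 0).1 z rfl) (fun z => (kq 0).1 z rfl) (fun i => by
      have := hv (some i)
      simp only [Fintype.sum_option, Option.elim, kk] at this
      refine Eq.trans ?_ this
      rw [add_comm]
      congr 1
      split_ifs with c
      · rw [c]
      · rw [(kl i).2 c, zero_mul]) (by
      have := hv none
      simp only [Fintype.sum_option, Option.elim] at this
      rw [← this, add_comm, Finset.sum_eq_single 0 (fun i _ c => by rw [(kq i).2 c, zero_mul])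
        fun c => absurd (Finset.mem_univ _) c])
  funext o
  rcases o with _ | i
  exacts [this.2, congrFun this.1 i]

end Vale.Agent.P014Y.Rd
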