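import Vale.Agent.P014Y.Rd.All0
import Vale.Agent.P014Y.Rd.Tw2

/-! # P014Y, block Rd: the export -/

set_option autoImplicit false

namespace Vale.Agent.P014Y.Rd

open P004K

theorem red3_all : RED3 := 
  red3_of (tw2 x_rc1 x_rc2 (ext x_rc1 x_rc2 x_rc3) (adj x_rc1) lin cbr)

end Vale.Agent.P014Y.Rd
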