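import Vale.Agent.P014Y.Rd.St3
import Vale.Agent.P014Y.F.Pt.Kd
import Vale.Agent.P004R.Lex

/-! # P014Y, route R, row FAC: facts on the frame -/

set_option autoImplicit false
set_option linter.all false

open NumberField Matrix
open scoped Pointwise PowerSeries NumberTheorySymbols

noncomputable section

namespace Vale.Agent.P014Y.Rd

open Vale.Agent.P022 (Qb GQ GK IsFrob)
open P004K P014U
open Vale.Agent.P022D.W (dec)
open Vale.Agent.P022E.GW (Ov Fb)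
open Vale.Agent.P022K.G2 (oz)
open F (Crv Fld)

namespace Fc

variable (e : Crv)

theorem rb_mul (g h : GQ) : rb e (g * h) = rb e g * rb e h := by
  rw [rb, map_mul, Matrix.map_mul]; rfl

theorem rb_one : rb e 1 = 1 := by
  rw [rb, map_one]; exact Matrix.map_one _ (map_zero _) (map_one _)

theorem cyc (g : GQ) (w : Qb) (h : w ^ 3 = 1) : g w = w ^ (rb e g).det.val := by
  have k := cyclotomicCharacter.spec 3 (n := 1) g.toRingEquiv w (by simpa using h)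
  have d : (rb e g).det = PadicInt.toZMod (e.r g).det := (RingHom.map_det _ _).symm
  have t : PadicInt.toZMod = (PadicInt.toZModPow (p := pp) 1 : _ →+* ZMod pp) :=
    ZMod.ringHom_eq_of_ker_eq _ _ (by
      rw [PadicInt.ker_toZMod, PadicInt.maximalIdeal_eq_span_p, ← pow_one (pp : ℤ_[pp])]
      exact (PadicInt.ker_toZModPow 1).symm)
  rw [d, Crv.r, X4M.TE.det_cyc, t]
  exact k

theorem det (g : GQ) : (rb e g).det = oz 3 g :=
  P022K.G2.pw_inj ((cyc e g _ P022K.G2.zt_pow).symm.trans (P022K.G2.oz_spec g))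

theorem eis (h : Eis e) {l : ℕ} (hl : l.Prime) (k : l ∉ e.S) : (3 : ℤ) ∣ e.a l - (1 + l) := by
  obtain ⟨P, o⟩ := P004R.Mu.ex_pl hl
  obtain ⟨φ, f⟩ := P022D.W.exists_phi hl o.2.1 o.2.2
  have t : (rb e φ).trace = e.a l := by
    rw [rb, ← AddMonoidHom.map_trace,
      show (e.r φ).trace = e.a l from (e.bad l hl k).2.2 φ ⟨P, o.2.1, o.2.2, f⟩, map_intCast]
  have d : (rb e φ).det = l := by
    rw [show (rb e φ).det = PadicInt.toZMod (e.r φ).det from (RingHom.map_det _ _).symm,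
      e.det_fb o (e.ne_pp k) f, map_natCast]
  obtain ⟨v, v0, hv⟩ := h
  have z : (rb e φ - 1).det = 0 := by
    rcases hv with hv | hv
    · exact exists_mulVec_eq_zero_iff.1 ⟨v, v0, by rw [sub_mulVec, hv φ trivial, one_mulVec, sub_self]⟩
    · exact exists_vecMul_eq_zero_iff.1 ⟨v, v0, by rw [vecMul_sub, hv φ trivial, vecMul_one, sub_self]⟩
  refine (ZMod.intCast_zmod_eq_zero_iff_dvd _ 3).1 ?_
  push_cast
  rw [← t, ← d]
  simp only [det_fin_two, trace_fin_two, Matrix.sub_apply, one_apply_eq, one_apply_ne (zero_ne_one' (Fin 2)),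
    one_apply_ne (zero_ne_one' (Fin 2)).symm] at z ⊢
  linear_combination -z

variable {e} (b : Fld e)

theorem spl {p : ℕ} (h : p ∈ e.S) {Q : Ideal (𝓞 Qb)} (o : Ov p Q) : dec Q ≤ GK b.j := fun g hg => by
  obtain ⟨t, -, k⟩ := P004S.ex_conj (e.ov p h) o
  simpa [mul_assoc] using b.Γ_conj (b.le p h (k g hg)) t

theorem kd : Kd b.j := by
  refine ⟨b.iq, b.upm, fun P o => spl b e.pm o, ?_, b.c, b.c_out, fun n ζ h => ?_⟩
  · obtain ⟨τ, t, k⟩ := b.ex_ker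
    refine ⟨τ, t, fun n y hy => (X4S.cyc_ep e.rep τ n 1 y hy ?_).trans (pow_one y)⟩
    rw [X4S.ep, e.mt_rp, k, Matrix.map_one _ PadicInt.coe_zero PadicInt.coe_one, det_one,
      Nat.cast_one, sub_self, norm_zero]
    exact (pow_pos X4S.ip_pos n).le
  · obtain ⟨φ, c⟩ := b.cc
    have m : ‖φ ζ‖ = 1 :=
      Complex.norm_eq_one_of_pow_eq_one (by rw [← map_pow, h, map_one]) (pow_ne_zero n three_ne_zero)
    exact eq_inv_of_mul_eq_one_left (φ.injective (by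
      rw [map_mul, c, mul_comm, Complex.mul_conj', m, map_one]; simp))

theorem typ {q : ℕ} {P : Ideal (𝓞 Qb)} (o : Ov q P) (h2 : q ≠ 2) (d : dec P ≤ GK b.j) :
    ¬ q ∣ b.δ' ∧ Typ b.K q (q - 1) := by
  have := Fact.mk o.1
  have nd : ¬ (q : ℤ) ∣ -(b.δ' : ℤ) := fun k => by
    obtain ⟨τ, t⟩ := P022E.GW.Tg.ex_gn' o
    exact one_ne_zero ((P004S.nu_tau o h2 (Int.squarefree_natAbs.1 (by simpa using b.adm.sq)) k
      t).symm.trans ((b.kd.gk τ).1 (d (P004S.inert_dec t.1))))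
  refine ⟨fun k => nd (dvd_neg.2 (Int.natCast_dvd_natCast.2 k)), ?_⟩
  obtain ⟨-, φ, -, f, m⟩ := P004R.Mu.ex_st o
  have a := P004R.Mu.nu_fb o h2 f nd
  rw [if_pos ((b.kd.gk φ).1 (d m))] at a
  obtain ⟨t, ht⟩ := ZMod.isSquare_of_jacobiSym_eq_one a
  obtain ⟨t, rfl⟩ := ZMod.intCast_surjective t
  have c : (q : ℤ) ∣ t ^ 2 + b.δ' := (ZMod.intCast_zmod_eq_zero_iff_dvd _ q).1 (by
    push_cast at ht ⊢
    linear_combination -ht)
  obtain ⟨ω, s, qd⟩ := Rc.qd b.j b.iq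
  refine P004R.Xt.typ qd b.pos b.th o.1 c fun k => ?_
  rcases (Nat.prime_iff_prime_int.1 o.1).dvd_or_dvd k with k | k
  · exact h2 ((Nat.prime_dvd_prime_iff_eq o.1 Nat.prime_two).1 (by exact_mod_cast k))
  · exact nd (dvd_neg.2 ((dvd_add_right (dvd_pow k two_ne_zero)).1 c))

theorem g3 (c : ℕ) : G3 (GK b.j) (e.S.toFinset ∪ c.primeFactors) (rb e) := by
  have two := Finset.mem_union_left c.primeFactors (List.mem_toFinset.2 e.two)
  have p : ∀ l ∈ e.S.toFinset ∪ c.primeFactors, l.Prime := fun l hl => (Finset.mem_union.1 hl).elim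
    (fun k => (e.ov l (List.mem_toFinset.1 k)).1) Nat.prime_of_mem_primeFactors
  have g := P004R.Lx.gd (R := ZMod 2) b.kd two p (χ := fun _ => 1) rfl
    (fun _ _ _ _ => (mul_one _).symm) ⟨⊤, isOpen_univ, fun _ _ => rfl⟩ fun _ _ _ => rfl
  refine ⟨⟨g.opn, g.idx, g.cx, two, p, rb_one e, fun g _ h _ => rb_mul e g h,
    ⟨_, e.rep.Kn_open 1, fun w _ m => e.tr_one.1 m⟩, ?_⟩,
    Finset.mem_union_left _ (List.mem_toFinset.2 e.pm)⟩
  rintro g - ⟨l, hl, P, o, i⟩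
  exact e.tr_one.1 (e.rep.Kn_uns 1 l P o (fun k => hl (Finset.mem_union_left _ k)) g i)

theorem tq (J : ℕ) : Tq (rq J) J :=
  ⟨Ideal.Quotient.mk_surjective, fun _ => Ideal.Quotient.eq_zero_iff_mem.trans Ideal.mem_span_singleton⟩

theorem eqv (J c n : ℕ) (x : GQ → ZMod n) : Nonempty (b.Z0 J c (fun g => (x g).val) ≃
    Z0 (GK b.j) (e.S.toFinset ∪ c.primeFactors) (r2 (rq J) (ch (rq J) x) (rb e)) (e.P 3)) := by
  have a : b.ab J (fun g => (x g).val) = r2 (rq J) (ch (rq J) x) (rb e) := funext fun g => by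
    rw [Fld.ab, r2, ch, rb, map_add, map_one, Matrix.map_map]; rfl
  rw [← a]
  refine ⟨⟨fun z => ⟨(z.1, 0), z.2.1.coc, z.2.1.out, z.2.1.lc, z.2.1.unr,
    fun _ g hg => (z.2.2 g hg.2).trans (P004F.Pr.ac_zero _).symm⟩,
    fun z => ⟨z.1.1, ⟨z.2.1, z.2.2.1, z.2.2.2.1, z.2.2.2.2.1⟩, fun g hg => ?_⟩, fun _ => rfl,
    fun z => Subtype.ext (Prod.ext rfl (Subsingleton.elim _ _))⟩⟩
  rw [z.2.2.2.2.2 () g ⟨b.le 3 e.pm hg, hg⟩, Subsingleton.elim z.1.2 0, P004F.Pr.ac_zero]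

open X4F.En (Gq)

theorem nq : Nq b.j e.S.toFinset (fun m => e.rep.Kn (m + 1)) (Gq e.rp) := by
  have h := e.rep
  refine ⟨fun m => ⟨h.Kn_open _, h.Kn_normal _, h.Kn_uns _⟩, fun m g u hu a => a.mul h hu,
    fun m g x a => a.conj x, fun m m' g l a => a.mono (by omega), fun A hA W hW => ?_⟩
  obtain ⟨u, hu, bu, fx⟩ := b.ex_big
  obtain ⟨N, N0, -, hN⟩ := Subgroup.exists_pow_mem_of_index_ne_zero (P004S.idx_ne hW) u
  refine ⟨u ^ N, pow_mem hu N, hN, fun n y hy => ?_, ?_⟩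
  · have k : u y = y := fx n y (hy.imp id fun ⟨a, ha, k⟩ => ⟨a, fun z => hA (z ▸ ha), k⟩)
    exact (MulAction.stabilizer GQ y).pow_mem k N
  obtain ⟨m, hm⟩ := bu.gq h N0.ne'
  refine ⟨m, fun g hg => (hm g ?_).imp fun i k => ⟨k.1, pow_mul u N i ▸ k.2⟩⟩
  obtain ⟨x, hx⟩ : ∃ x : ℤ_[pp], (x : ℚ_[pp]) = X4S.ep e.rp g := ⟨⟨_, (h.norm_ep g).le⟩, rfl⟩
  obtain ⟨ζ, hζ⟩ := HasEnoughRootsOfUnity.exists_primitiveRoot Qb (3 ^ 1)
  have a : ‖X4S.ep e.rp g - x.appr 1‖ ≤ (1 / pp : ℝ) ^ 1 := by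
    have := (PadicInt.norm_le_pow_iff_mem_span_pow _ 1).2 (x.appr_spec 1)
    rw [← hx, X4S.ip_pow]
    exact le_of_eq_of_le (by rw [PadicInt.norm_def]; rfl) this
  have e1 := X4S.cyc_ep h g 1 _ ζ hζ.pow_eq_one a
  rw [hg ζ hζ.pow_eq_one] at e1
  rw [hζ.pow_inj (x.appr_lt 1) (by norm_num) (e1.symm.trans (pow_one ζ).symm)] at a
  rwa [Nat.cast_one, pow_one] at a

theorem gp {m q : ℕ} (hq : q.Prime) (h : q ∉ e.S) (g : ∀ φ, IsFrob q φ → Gq e.rp m φ) :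
    ¬ (3 : ℤ) ^ (2 * m + 1) ∣ ((q : ℤ) + 1) ^ 2 - e.a q ^ 2 := fun d => by
  obtain ⟨P, o⟩ := P004R.Mu.ex_pl hq
  obtain ⟨φ, f⟩ := P022D.W.exists_phi hq o.2.1 o.2.2
  obtain ⟨g1, g2⟩ := g φ ⟨P, o.2.1, o.2.2, f⟩
  rw [(e.tr_fb o h f).1, (e.tr_fb o h f).2] at g1 g2
  have a := (Padic.norm_int_le_pow_iff_dvd (p := pp) (((q : ℤ) + 1) ^ 2 - e.a q ^ 2) (2 * m + 1)).2 d
  have c := mul_le_mul g1 g2 (pow_pos X4S.ip_pos m).le (norm_nonneg _)
  rw [← norm_mul, show (1 - (e.a q : ℚ_[pp]) + q) * (1 + e.a q + q) =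
    ((((q : ℤ) + 1) ^ 2 - e.a q ^ 2 : ℤ) : ℚ_[pp]) by push_cast; ring] at c
  have := c.trans a
  rw [← pow_add, ← X4S.ip_pow, pow_le_pow_iff_right_of_lt_one₀ X4S.ip_pos X4S.ip_lt] at this
  omega

end Fc

/-- **row FAC** -/
theorem fac : FAC := fun e b =>
  ⟨Fc.kd b, fun p h => ⟨(e.ov p (List.mem_toFinset.1 h)).1, fun _ o => Fc.spl b (List.mem_toFinset.1 h) o⟩,
    ⟨_, _, Fc.nq b, fun m => ⟨_, fun _ hq h g => Fc.gp hq h g⟩⟩, Fc.g3 b, Fc.det e,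
    fun _ _ o h d => Fc.typ b o h d, fun h l hl k => ⟨(e.bad l hl k).1, Fc.eis e h hl k⟩,
    fun J => ⟨Fc.tq J, Fc.eqv b J⟩⟩

end Vale.Agent.P014Y.Rd
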