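import Vale.Agent.P014Y.Rd.St2
import Vale.Agent.P014Y.Base
import Vale.Agent.P004F.Ra.Lv
import Vale.Agent.P004S.Lt
import Vale.Agent.P014U.Mu.Eis0

/-! # P014Y, route R: the two characters and their local types (helper14) -/

set_option autoImplicit false
set_option linter.all false

open NumberField PowerSeries

noncomputable section

namespace Vale.Agent.P014Y.Rd

open Vale.Agent.P022 P004K
open Vale.Agent.P027M.S (Inert)
open Vale.Agent.P022D.W (dec exists_phi phi_mem inP_le_dec)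
open Vale.Agent.P022E.GW (Ov Fb)
open Vale.Agent.P022K.G2 (In oz Gz mem_Gz mem_Gz' Gz_open Gz_normal oz_mul oz_one oz_ne inert_gz
  zt_pow)

namespace Gr

variable {R : Type} [CommRing R] {ρ : (ZMod 3)⟦X⟧ →+* R} {J : ℕ}

theorem pw (h : Tq ρ J) {m : ℕ} (l : J ≤ 3 ^ m) : (1 + tt ρ) ^ 3 ^ m = 1 := by
  haveI : CharP (ZMod 3)⟦X⟧ 3 := charP_of_injective_ringHom (f := C) C_injective 3
  have e : (1 + X : (ZMod 3)⟦X⟧) ^ 3 ^ m = 1 + X ^ 3 ^ m := by rw [add_pow_char_pow, one_pow]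
  have := congrArg ρ e
  rwa [map_pow, map_add, map_add, map_one, (h.ker _).2 (pow_dvd_pow _ l), add_zero] at this

theorem un {q : (ZMod 3)⟦X⟧} (h : constantCoeff q ≠ 0) : IsUnit (ρ q) :=
  (isUnit_iff_constantCoeff.2 h.isUnit).map ρ

theorem dv0 (k : ℕ) : tt ρ ∣ (1 + tt ρ) ^ k - 1 := by
  simpa only [add_sub_cancel_left, one_pow] using sub_dvd_pow_sub_pow (1 + tt ρ) 1 k

/-- the local factor divides the variable -/
theorem key {a : ZMod 3} (ha : a ≠ 0) (b : ZMod 3) {k : ℕ} (hk : ¬ 3 ∣ k) :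
    ρ (C a) * (1 + tt ρ) ^ k - ρ (C b) ∣ tt ρ := by
  by_cases e : a = b
  · subst e
    have u : IsUnit (ρ (C a * ∑ i ∈ Finset.range k, (1 + X) ^ i)) := un (by
      simp only [map_mul, constantCoeff_C, map_sum, map_pow, map_add, map_one, constantCoeff_X,
        add_zero, one_pow, Finset.sum_const, Finset.card_range, nsmul_eq_mul, mul_one]
      exact mul_ne_zero ha fun z => hk ((ZMod.natCast_eq_zero_iff k 3).1 z))
    have g := geom_sum_mul (1 + tt ρ) k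
    rw [add_sub_cancel_left] at g
    rw [← mul_sub_one, ← g, ← mul_assoc]
    simp only [map_mul, map_sum, map_pow, map_add, map_one] at u
    exact u.mul_left_dvd.2 dvd_rfl
  · have u : IsUnit (ρ (C a * (1 + X) ^ k - C b)) := un (by
      simp only [map_sub, map_mul, constantCoeff_C, map_pow, map_add, map_one, constantCoeff_X,
        add_zero, one_pow, mul_one]
      exact sub_ne_zero.2 e)
    simp only [map_sub, map_mul, map_pow, map_add, map_one] at u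
    exact u.dvd

theorem dec_oz {l : ℕ} {P : Ideal (𝓞 Qb)} (o : Ov l P) (e : l % 3 = 1) {g : GQ} (m : g ∈ dec P) :
    oz 3 g = 1 := by
  have n : l ≠ 3 := fun k => by simp [k] at e
  obtain ⟨φ, f⟩ := exists_phi o.1 o.2.1 o.2.2
  exact mem_Gz.1 (P004S.lt.dec_le o f Gz_open (mem_Gz'.2 (by
    rw [P014T.Dr.root_cong o (fun d => n ((Nat.prime_dvd_prime_iff_eq o.1 Nat.prime_three).1 d))
      f zt_pow, pow_eq_pow_mod l zt_pow, e, pow_one])) (fun i => inert_gz o n) m)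

variable {K : Type} [Field K] [NumberField K] {j : K →+* Qb} {T : Finset ℕ}

theorem idx (h : Iq K) : (GK j).index = 2 :=
  let ⟨_, k⟩ := P004R.Mu.ex_k
  P004F.Ra.gk_idx h k

/-- rank one data -/
theorem gd (h : Iq K) (two : 2 ∈ T) (thr : 3 ∈ T) (pr : ∀ l ∈ T, l.Prime) {χ : GQ → R}
    (one : χ 1 = 1) (mul : ∀ g ∈ GK j, ∀ g' ∈ GK j, χ (g * g') = χ g * χ g')
    (lc : ∃ W : Subgroup GQ, IsOpen (W : Set GQ) ∧ ∀ w ∈ W, χ w = 1)
    (unr : ∀ g ∈ GK j, g ∈ In T → χ g = 1) : G3 (GK j) T (r1 χ) :=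
  ⟨⟨H916.isOpen_GK j, idx h, P004F.Ra.gk_cx h, two, pr, by simp [r1, one],
    fun g a g' b => by simp [r1, mul g a g' b, smul_smul, mul_comm],
    lc.imp fun W k => ⟨k.1, fun w _ m => by simp [r1, k.2 w m]⟩,
    fun g a b => by simp [r1, unr g a b]⟩, thr⟩

variable {N : ℕ} {e : GQ → ZMod N}

theorem e1 (add : ∀ g ∈ GK j, ∀ h ∈ GK j, e (g * h) = e g + e h) : e 1 = 0 := by
  have := add 1 (one_mem _) 1 (one_mem _)
  rwa [one_mul, left_eq_add] at this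

theorem einv (add : ∀ g ∈ GK j, ∀ h ∈ GK j, e (g * h) = e g + e h) {g : GQ} (m : g ∈ GK j) :
    e g⁻¹ = -e g := by
  rw [eq_neg_iff_add_eq_zero, ← add _ (inv_mem m) _ m, inv_mul_cancel, e1 add]

theorem epow (add : ∀ g ∈ GK j, ∀ h ∈ GK j, e (g * h) = e g + e h) {g : GQ} (m : g ∈ GK j)
    (n : ℕ) : e (g ^ n) = n * e g := by
  induction n with
  | zero => rw [pow_zero, e1 add, Nat.cast_zero, zero_mul]
  | succ n i => rw [pow_succ, add _ (pow_mem m n) _ m, i, Nat.cast_succ, add_mul, one_mul]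

/-- the kernel -/
def kr (add : ∀ g ∈ GK j, ∀ h ∈ GK j, e (g * h) = e g + e h) : Subgroup GQ where
  carrier := {g | g ∈ GK j ∧ e g = 0}
  one_mem' := ⟨one_mem _, e1 add⟩
  mul_mem' a b := ⟨mul_mem a.1 b.1, by rw [add _ a.1 _ b.1, a.2, b.2, add_zero]⟩
  inv_mem' a := ⟨inv_mem a.1, by rw [einv add a.1, a.2, neg_zero]⟩

theorem ch0 {g : GQ} (h : e g = 0) : ch ρ e g = 1 := by rw [ch, h, ZMod.val_zero, pow_zero]

theorem tw0 {χ : GQ → R} {g : GQ} (h : oz 3 g = 1) : tw ρ χ g = χ g := by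
  rw [tw, h, map_one, map_one, one_mul]

theorem z3 (x y z : ZMod 3) (h : x * y = z) (a : y ≠ 0) (b : y ≠ 1) (c : z ≠ 0) (d : z ≠ 1) :
    x = 1 := by
  have k : ∀ u : ZMod 3, u = 0 ∨ u = 1 ∨ u = 2 := by decide
  rw [((k y).resolve_left a).resolve_left b, ((k z).resolve_left c).resolve_left d] at h
  revert x
  decide

end Gr

open Gr

/-- **row GDR** -/
theorem gdr (h1 : RC1) (h2 : RC2) : GDR := by
  intro K _ _ j c M e S h R _ ρ J hT hJ
  obtain ⟨m, hm⟩ := h.pow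
  have c0 : 0 < c := zero_lt_one.trans h.one
  have hN : 3 * M = 3 ^ (m + 2) := by rw [hm, pow_succ' 3 (m + 1)]
  have N1 : 1 < 3 * M := hN ▸ Nat.one_lt_pow (by omega) (by omega)
  haveI : NeZero (3 * M) := ⟨by omega⟩
  haveI : Fact (1 < 3 * M) := ⟨N1⟩
  have p : (1 + tt ρ) ^ (3 * M) = 1 := by rw [hN]; exact pw hT (hN ▸ hJ)
  obtain ⟨-, op, -, -, dih, -⟩ := h1 K j h.iq c c0
  haveI nr : (GK j).Normal := Subgroup.normal_of_index_eq_two (idx h.iq)
  have pr : ∀ l ∈ S ∪ c.primeFactors, l.Prime := fun l a => (Finset.mem_union.1 a).elim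
    (fun a => (h.spl l a).1) Nat.prime_of_mem_primeFactors
  have ur : ∀ {l Q}, Ov l Q → ¬ l ∣ c → ∀ g ∈ GK j, Inert Q g → e g = 0 := fun o n g a b =>
    h.ker g (P004F.Ra.unr_hc h2 h.iq c0 o n a b)
  have ad : ∀ x y : ZMod (3 * M), (1 + tt ρ) ^ (x + y).val =
      (1 + tt ρ) ^ x.val * (1 + tt ρ) ^ y.val := fun x y => by
    rw [ZMod.val_add, ← pow_eq_pow_mod _ p, pow_add]
  have mul : ∀ g ∈ GK j, ∀ g' ∈ GK j, ch ρ e (g * g') = ch ρ e g * ch ρ e g' := fun g a g' b => by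
    rw [ch, h.add g a g' b, ad, ch, ch]
  have cj : ∀ γ ∉ GK j, ∀ g ∈ GK j, e (γ * g * γ⁻¹) + e g = 0 := fun γ a g b => by
    rw [← h.add _ (nr.conj_mem g b γ) g b, h.ker _ (dih γ a g b)]
  have cz : ∀ γ g : GQ, oz 3 (γ * g * γ⁻¹) = oz 3 g := fun γ g => by
    rw [oz_mul, oz_mul, mul_right_comm, ← oz_mul, mul_inv_cancel, oz_one, one_mul]
  have two := Finset.mem_union_left c.primeFactors h.two
  have thr := Finset.mem_union_left c.primeFactors h.thr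
  have ui : ∀ g ∈ GK j, g ∈ In ((S ∪ c.primeFactors : Finset ℕ) : Set ℕ) →
      e g = 0 ∧ oz 3 g = 1 := fun g a ⟨l, n, Q, o, b⟩ =>
    ⟨ur o (fun d => n (Finset.mem_coe.2 (Finset.mem_union_right _
      (Nat.mem_primeFactors.2 ⟨o.1, d, c0.ne'⟩)))) g a b,
      mem_Gz.1 (inert_gz o (fun k => n (k ▸ Finset.mem_coe.2 thr)) b)⟩
  refine ⟨gd h.iq two thr pr (ch0 (e1 h.add)) mul ⟨_, op, fun w a => ch0 (h.ker w a)⟩
      fun g a b => ch0 (ui g a b).1,
    gd h.iq two thr pr ((tw0 oz_one).trans (ch0 (e1 h.add))) (fun g a g' b => ?_)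
      ⟨Hc j c ⊓ Gz 3, op.inter Gz_open, fun w a => (tw0 (mem_Gz.1 a.2)).trans (ch0 (h.ker w a.1))⟩
      fun g a b => (tw0 (ui g a b).2).trans (ch0 (ui g a b).1),
    fun l a Q o => ?_, fun γ a g b => ?_, kr h.add ⊓ Gz 3,
    (Subgroup.isOpen_mono (H₁ := Hc j c) (H₂ := kr h.add) (fun w a => ⟨a.1, h.ker w a⟩) op).inter Gz_open,
    ⟨fun w a γ => ⟨⟨nr.conj_mem w a.1.1 γ, ?_⟩, Gz_normal.conj_mem w a.2 γ⟩⟩, fun w a => a.1.1,
    fun w a => ⟨ch0 a.1.2, (tw0 (mem_Gz.1 a.2)).trans (ch0 a.1.2), mem_Gz.1 a.2⟩,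
    fun P o g a => ?_⟩
  · rw [tw, tw, tw, mul g a g' b, oz_mul, map_mul, map_mul, mul_mul_mul_comm]
  · have r1 : Rt ρ (ch ρ e) Q := fun g _ => dv0 _
    have r2 : l % 3 = 1 → Rt ρ (tw ρ (ch ρ e)) Q := fun k g b => by
      rw [tw0 (dec_oz o k b)]; exact dv0 _
    rcases Finset.mem_union.1 a with a | a
    · obtain ⟨-, n, s⟩ := h.spl l a
      obtain ⟨le, fr⟩ := s Q o
      have u := fun t (i : Inert Q t) => ur o n t (le (inP_le_dec i)) i
      have k : ∀ φ, Fb l Q φ → ¬ 3 ∣ (e φ).val := fun φ f d => by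
        have := (ZMod.isUnit_iff_coprime (e φ).val _).1 (by rw [ZMod.natCast_zmod_val]; exact fr φ f)
        exact absurd (Nat.eq_one_of_dvd_coprimes this d (Dvd.intro _ rfl)) (by decide)
      refine ⟨le, r1, r2, fun n3 => ⟨.inr ⟨fun t i => ch0 (u t i), fun φ f => ⟨?_, ?_⟩⟩,
        .inr ⟨fun t i => (tw0 (mem_Gz.1 (inert_gz o n3 i))).trans (ch0 (u t i)),
          fun φ f => ⟨?_, ?_⟩⟩⟩⟩
      · simpa only [map_one, one_mul, ch] using key (ρ := ρ) one_ne_zero 1 (k φ f)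
      · simpa only [map_one, one_mul, map_natCast, ch] using
          key (ρ := ρ) one_ne_zero l (k φ f)
      · simpa only [map_one, tw, ch] using key (ρ := ρ) (oz_ne φ) 1 (k φ f)
      · simpa only [map_natCast, tw, ch] using key (ρ := ρ) (oz_ne φ) l (k φ f)
    · obtain ⟨md, le, t, i, v⟩ := h.ram l Q o (Nat.dvd_of_mem_primeFactors a)
      have k : ch ρ e t - 1 ∣ tt ρ := by rw [ch, v, ZMod.val_one, pow_one, add_sub_cancel_left]
      exact ⟨le, r1, r2, fun n3 => ⟨.inl ⟨r1, t, i, k⟩, .inl ⟨r2 md, t, i, by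
        rwa [tw0 (mem_Gz.1 (inert_gz o n3 i))]⟩⟩⟩
  · have k : ch ρ e g * ch ρ e (γ * g * γ⁻¹) = 1 := by
      rw [ch, ch, ← ad, add_comm (e g), cj γ a g b, ZMod.val_zero, pow_zero]
    exact ⟨by rw [tw, cz, mul_left_comm, k, mul_one], by rw [tw, mul_assoc, k, mul_one]⟩
  · by_cases b : γ ∈ GK j
    · rw [h.add _ (mul_mem b a.1.1) _ (inv_mem b), h.add _ b _ a.1.1, einv h.add b, a.1.2,
        add_zero, add_neg_cancel]
    · simpa only [show e w = 0 from a.1.2, add_zero] using cj γ b w a.1.1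
  · obtain ⟨-, n, s⟩ := h.spl 3 h.thr
    obtain ⟨le, fr⟩ := s P o
    obtain ⟨φ, f⟩ := exists_phi o.1 o.2.1 o.2.2
    obtain ⟨t, i, v⟩ : ∃ t, Inert P t ∧ oz 3 t ≠ 1 := P014U.Mu.Ei.ram_p o
    obtain ⟨u, hu⟩ := (fr φ f).exists_left_inv
    have d := pow_mem (phi_mem o.1 o.2.1 f) (e g * u).val
    have ti := inP_le_dec i
    have z : g * (φ ^ (e g * u).val)⁻¹ ∈ kr h.add := ⟨mul_mem a (inv_mem (le d)), by
      rw [h.add _ a _ (inv_mem (le d)), einv h.add (le d), epow h.add (le (phi_mem o.1 o.2.1 f)),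
        ZMod.natCast_zmod_val, mul_assoc, hu, mul_one, add_neg_cancel]⟩
    by_cases b : oz 3 (g * (φ ^ (e g * u).val)⁻¹) = 1
    · exact ⟨_, d, z, mem_Gz.2 b⟩
    · refine ⟨t * φ ^ (e g * u).val, mul_mem ti d, ?_⟩
      rw [mul_inv_rev, ← mul_assoc]
      exact ⟨(kr h.add).mul_mem z ((kr h.add).inv_mem ⟨le ti, ur o n t (le ti) i⟩), mem_Gz.2 (z3 _ _ _
        (by rw [← oz_mul, inv_mul_cancel_right]) (oz_ne t) v (oz_ne _) b)⟩

end Vale.Agent.P014Y.Rd
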