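import Vale.Agent.P004R.Dbl0
import Vale.Agent.P004F.Pr.Rep

/-!
# P014Y, route R: linear systems over `k[T] / T ^ J` and its dual numbers, products of cocycles
-/

set_option autoImplicit false
set_option linter.all false

open PowerSeries Matrix TrivSqZeroExt NumberField

namespace Vale.Agent.P014Y.Rd.Ml

open P004R.Db (dual)

section lin

variable {k R n : Type} [Field k] [Finite k] [CommRing R] [Fintype n] [DecidableEq n]
  {ρ : k⟦X⟧ →+* R} {J : ℕ}

theorem low [Finite R] (hk : ∀ x, ρ x = 0 ↔ X ^ J ∣ x) (e : ℕ) :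
    ∀ (A : Matrix n n k⟦X⟧) (m : ℕ), X ^ e ∣ A.det → e + m ≤ J →
      Nat.card k ^ e ≤ Nat.card {y : n → R // A.map ρ *ᵥ y = 0 ∧ ∀ i, ρ X ^ m ∣ y i} := by
  induction e with
  | zero => exact fun A m _ _ => Nat.card_pos_iff.2 ⟨⟨⟨0, mulVec_zero _, fun _ => dvd_zero _⟩⟩,
      inferInstance⟩
  | succ e ih =>
  intro A m h hm
  obtain ⟨v, i, v1, h1⟩ : ∃ (v : n → k) (i : n), v i = 1 ∧ A.map constantCoeff *ᵥ v = 0 := by
    obtain ⟨v, hv, h1⟩ := exists_mulVec_eq_zero_iff.2 (show (A.map constantCoeff).det = 0 from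
      (RingHom.map_det _ A).symm.trans (X_dvd_iff.1 ((dvd_pow_self X e.succ_ne_zero).trans h)))
    obtain ⟨i, hi⟩ := Function.ne_iff.1 hv
    exact ⟨(v i)⁻¹ • v, i, inv_mul_cancel₀ hi, by rw [mulVec_smul, h1, smul_zero]⟩
  choose r hr using fun j => X_dvd_iff.2 (show constantCoeff ((A *ᵥ fun k => C (v k)) j) = 0 by
    simpa [mulVec, dotProduct] using congrFun h1 j)
  have d : X * (A.updateCol i r).det = A.det := by
    rw [← det_updateCol_smul, ← one_smul k⟦X⟧ A.det, ← map_one C, ← v1,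
      ← det_updateCol_sum A i fun k => C (v k)]
    congr 2; ext j : 1; simp [← hr, mulVec, dotProduct, mul_comm]
  have c := ih (A.updateCol i r) (m + 1) ((mul_dvd_mul_iff_left X_prime.ne_zero).1
    (by rwa [d, ← pow_succ'])) (by omega)
  obtain ⟨J, rfl⟩ : ∃ J', J = m + J' + 1 := ⟨J - m - 1, by omega⟩
  have z : ρ X * ρ X ^ (m + J) = 0 := by rw [← pow_succ', ← map_pow, hk]
  choose s hs using fun y : {y : n → R // (A.updateCol i r).map ρ *ᵥ y = 0 ∧
    ∀ i, ρ X ^ (m + 1) ∣ y i} => y.2.2 i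
  let t := fun p : _ × k => ρ X ^ m * s p.1 + ρ X ^ (m + J) * ρ (C p.2)
  have ht (p) : ρ X * t p = p.1.1 i := by
    rw [hs, mul_add, ← mul_assoc _ (ρ X ^ (m + J)), z]; ring
  rw [pow_succ]
  refine (Nat.mul_le_mul_right _ c).trans (le_trans (Nat.card_prod _ _).ge
    (Nat.card_le_card_of_injective
    (fun p : _ × k => ⟨fun j => Function.update p.1.1 i 0 j + ρ (C (v j)) * t p, ?_, fun j => ?_⟩)
    fun p q e => ?_))
  · funext j
    have a := congrFun p.1.2.1 j
    have b := congrArg ρ (hr j)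
    simp only [mulVec, dotProduct, map_apply, map_sum, map_mul, mul_add, Finset.sum_add_distrib,
      ← mul_assoc, ← Finset.sum_mul] at a b ⊢
    rw [b, mul_comm (ρ X), mul_assoc, ht, ← a, ← Finset.add_sum_erase _ _ (Finset.mem_univ i),
      ← Finset.add_sum_erase _ _ (Finset.mem_univ i), updateCol_self, Function.update_self, mul_zero,
      zero_add, add_comm]
    exact congrArg _ (Finset.sum_congr rfl fun k hk => by
      rw [updateCol_ne (Finset.ne_of_mem_erase hk), Function.update_of_ne (Finset.ne_of_mem_erase hk)])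
  · refine dvd_add ?_ ((dvd_add (dvd_mul_right _ _)
      ((pow_dvd_pow _ (Nat.le_add_right _ _)).mul_right _)).mul_left _)
    rcases eq_or_ne j i with rfl | c
    · simp
    · rw [Function.update_of_ne c]
      exact (pow_dvd_pow _ m.le_succ).trans (p.1.2.2 j)
  · have e1 := congrFun (congrArg Subtype.val e)
    have e2 : t p = t q := by simpa [v1] using e1 i
    have e3 : p.1 = q.1 := Subtype.ext (funext fun j => by
      rcases eq_or_ne j i with rfl | c
      · rw [← ht, ← ht, e2]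
      · simpa [e2, c] using e1 j)
    refine Prod.ext e3 ?_
    simp only [t, e3, add_right_inj] at e2
    rw [← sub_eq_zero, ← mul_sub, ← map_sub, ← map_pow, ← map_mul, hk, pow_succ,
      mul_dvd_mul_iff_left (pow_ne_zero _ X_prime.ne_zero), X_dvd_iff, ← map_sub,
      constantCoeff_C] at e2
    exact sub_eq_zero.1 e2

theorem down [Finite R] (hs : Function.Surjective ρ) (hk : ∀ x, ρ x = 0 ↔ X ^ J ∣ x)
    (Q : Matrix n n (DualNumber R)) {l : ℕ} (hl : 2 * l ≤ J)
    (h : Nat.card k ^ l ≤ Nat.card {x // Q.map fst *ᵥ x = 0}) :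
    Nat.card k ^ (2 * l) ≤ Nat.card {y // Q *ᵥ y = 0} := by
  have : Finite (DualNumber R) := inferInstanceAs (Finite (R × R))
  have m (A : Matrix n n R) : (A.map (Function.surjInv hs)).map ρ = A :=
    Matrix.ext fun _ _ => Function.surjInv_eq hs _
  generalize e0 : (Q.map fst).map (Function.surjInv hs) = A
  have d : X ^ l ∣ A.det := by
    rcases l with _ | l
    · simp
    by_contra c
    have := (P004F.Alg.cnt_ps ρ hs hk A).1 l c
    rw [← e0, m] at this
    exact (h.trans this).not_gt (Nat.pow_lt_pow_right Finite.one_lt_card l.lt_succ_self)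
  refine (low hk (2 * l) (fromBlocks A 0 ((Q.map snd).map (Function.surjInv hs)) A) 0 (by
    rw [det_fromBlocks_zero₁₂, two_mul, pow_add]; exact mul_dvd_mul d d) hl).trans
    (Nat.card_le_card_of_injective (fun y => ⟨fun j => (y.1 (.inl j), y.1 (.inr j)), (dual Q _).2 ?_⟩)
      fun y z e => Subtype.ext (funext fun j => ?_))
  · obtain ⟨y, this, -⟩ := y
    rw [fromBlocks_map, ← e0, m, m, Matrix.map_zero _ (map_zero ρ), fromBlocks_mulVec,
      zero_mulVec, add_zero] at this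
    exact ⟨funext fun j => congrFun this (.inl j), funext fun j => congrFun this (.inr j)⟩
  · have := fun j => congrFun (congrArg Subtype.val e) j
    cases j
    exacts [congrArg fst (this _), congrArg snd (this _)]

/-- the number of solutions is a power of the characteristic -/
theorem pw {p : ℕ} [hp : Fact p.Prime] {ρ : (ZMod p)⟦X⟧ →+* R} (hs : Function.Surjective ρ)
    (hk : ∀ x, ρ x = 0 ↔ X ^ J ∣ x) (A : Matrix n n R) :
    ∃ e, Nat.card {x // A *ᵥ x = 0} = p ^ e := by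
  have := AddSubgroup.card_addSubgroup_dvd_card A.mulVecLin.toAddMonoidHom.ker
  rw [Nat.card_fun, Nat.card_congr (P004F.Alg.ps_equiv ρ hs hk).some, Nat.card_fun, Nat.card_zmod,
    ← pow_mul] at this
  exact ((Nat.dvd_prime_pow hp.1).1 this).imp fun _ e => e.2

omit [Finite k] in
/-- a triangular form -/
theorem nf {ι : Type} {b : ι → Matrix (Fin 2) (Fin 2) k} {v : Fin 2 → k} (v0 : v ≠ 0)
    (h : (∀ g, b g *ᵥ v = v) ∨ ∀ g, v ᵥ* b g = v) : ∃ C C' : Matrix (Fin 2) (Fin 2) k, C * C' = 1 ∧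
      (∀ g, (C' * b g * C) 0 1 = 0) ∧ ((∀ g, (C' * b g * C) 1 1 = 1) ∨ ∀ g, (C' * b g * C) 0 0 = 1) := by
  obtain ⟨x, y, e⟩ : ∃ x y, x * v 1 - v 0 * y = 1 := by
    by_cases c : v 1 = 0
    · exact ⟨0, -(v 0)⁻¹, by
        rw [zero_mul, zero_sub, mul_neg, neg_neg, mul_inv_cancel₀ fun d => v0 (funext
          (Fin.forall_fin_two.2 ⟨d, c⟩))]⟩
    · exact ⟨(v 1)⁻¹, 0, by rw [mul_zero, sub_zero, inv_mul_cancel₀ c]⟩
  rcases h with h | h <;>
  simp only [funext_iff, Fin.forall_fin_two, mulVec, vecMul, dotProduct, Fin.sum_univ_two] at h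
  · refine ⟨!![x, v 0; y, v 1], !![v 1, -v 0; -y, x], ?_, fun g => ?_, .inl fun g => ?_⟩
    · rw [mul_fin_two, one_fin_two]; congr <;> first | ring1 | linear_combination e
    · simp [mul_apply, vecMul, dotProduct]
      linear_combination v 1 * (h g).1 - v 0 * (h g).2
    · simp [mul_apply, vecMul, dotProduct]
      linear_combination x * (h g).2 - y * (h g).1 + e
  · refine ⟨!![-y, -v 1; x, v 0], !![v 0, v 1; -x, -y], ?_, fun g => ?_, .inr fun g => ?_⟩
    · rw [mul_fin_two, one_fin_two]; congr <;> first | ring1 | linear_combination e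
    · simp [mul_apply, vecMul, dotProduct]
      linear_combination v 0 * (h g).2 - v 1 * (h g).1
    · simp [mul_apply, vecMul, dotProduct]
      linear_combination x * (h g).2 - y * (h g).1 + e

end lin

open Vale.Agent.P022 P004F.Pr Vale.Agent.P022K.G2
open Vale.Agent.P022D.W (dec)

variable {N N₁ N₂ : Type} [AddCommGroup N] [AddCommGroup N₁] [AddCommGroup N₂] {Γ : Subgroup GQ}
  {T : Finset ℕ} {P : Ideal (𝓞 Qb)}

/-- the cocycles which vanish at `P` -/
def Zc (Γ : Subgroup GQ) (T : Finset ℕ) (P : Ideal (𝓞 Qb)) (f : GQ → N → N) : Set (GQ → N) :=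
  {x | (∀ g ∈ Γ, ∀ h ∈ Γ, x (g * h) = x g + f g (x h)) ∧ (∀ g ∉ Γ, x g = 0) ∧
    (∃ W : Subgroup GQ, IsOpen (W : Set GQ) ∧ ∀ w ∈ W, x w = 0) ∧ (∀ g ∈ In T, x g = 0) ∧
    ∀ g ∈ Γ ⊓ dec P, x g = 0}

theorem zs {R n : Type} (M : Type) [CommRing R] [Fintype n] [AddCommGroup M] [Module R M]
    (a : GQ → Matrix n n R) :
    Nat.card (Zs M Γ T a (fun _ : Unit => P) fun _ _ => (0 : Matrix n Empty R)) =
      Nat.card (Zc Γ T P fun g (z : n → M) => ac (a g) z) :=
  Nat.card_congr ⟨fun x => ⟨x.1.1, x.2.1, x.2.2.1, x.2.2.2.1, x.2.2.2.2.1, fun g m =>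
    (x.2.2.2.2.2 () g m).trans (zero_ac _)⟩, fun x => ⟨(x.1, 0), x.2.1, x.2.2.1, x.2.2.2.1,
    x.2.2.2.2.1, fun _ g m => (x.2.2.2.2.2 g m).trans (zero_ac _).symm⟩,
    fun _ => Subtype.ext (Prod.ext rfl (Subsingleton.elim _ _)), fun _ => rfl⟩

theorem Zc.map {f : GQ → N → N} {f₁ : GQ → N₁ → N₁} (Φ : N →+ N₁)
    (e : ∀ g ∈ Γ, ∀ z, Φ (f g z) = f₁ g (Φ z)) {x : GQ → N} (h : x ∈ Zc Γ T P f) :
    (fun g => Φ (x g)) ∈ Zc Γ T P f₁ :=
  have z : ∀ {g}, x g = 0 → Φ (x g) = 0 := fun c => by rw [c, map_zero]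
  ⟨fun g a j b => by simp only [h.1 g a j b, map_add, e g a], fun g a => z (h.2.1 g a),
    h.2.2.1.imp fun _ c => ⟨c.1, fun w a => z (c.2 w a)⟩, fun g a => z (h.2.2.2.1 g a),
    fun g a => z (h.2.2.2.2 g a)⟩

/-- the cocycles of a product -/
theorem split {f : GQ → N → N} {f₁ : GQ → N₁ → N₁} {f₂ : GQ → N₂ → N₂} (Φ : N ≃+ N₁ × N₂)
    (e : ∀ g ∈ Γ, ∀ z, Φ (f g z) = (f₁ g (Φ z).1, f₂ g (Φ z).2)) :
    Nat.card (Zc Γ T P f) = Nat.card (Zc Γ T P f₁) * Nat.card (Zc Γ T P f₂) := by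
  rw [← Nat.card_prod]
  refine Nat.card_congr ⟨fun x => (⟨_, Zc.map ((AddMonoidHom.fst _ _).comp Φ.toAddMonoidHom)
    (fun g a z => congrArg Prod.fst (e g a z)) x.2⟩, ⟨_, Zc.map ((AddMonoidHom.snd _ _).comp
      Φ.toAddMonoidHom) (fun g a z => congrArg Prod.snd (e g a z)) x.2⟩),
    fun y => ⟨_, Zc.map (f := fun g z => (f₁ g z.1, f₂ g z.2)) Φ.symm.toAddMonoidHom
      (fun g a z => Φ.injective ?_) (x := fun g => (y.1.1 g, y.2.1 g)) ?_⟩,
    fun x => Subtype.ext (funext fun g => Φ.symm_apply_apply _),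
    fun y => Prod.ext (Subtype.ext (funext fun g => congrArg Prod.fst (Φ.apply_symm_apply _)))
      (Subtype.ext (funext fun g => congrArg Prod.snd (Φ.apply_symm_apply _)))⟩
  · simp [e g a]
  · obtain ⟨⟨x, x1, x2, ⟨W, o, x3⟩, x4, x5⟩, y, y1, y2, ⟨V, o', y3⟩, y4, y5⟩ := y
    exact ⟨fun g a j b => Prod.ext (x1 g a j b) (y1 g a j b), fun g a => Prod.ext (x2 g a) (y2 g a),
      ⟨W ⊓ V, o.inter o', fun g a => Prod.ext (x3 g a.1) (y3 g a.2)⟩,
      fun g a => Prod.ext (x4 g a) (y4 g a), fun g a => Prod.ext (x5 g a) (y5 g a)⟩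

end Vale.Agent.P014Y.Rd.Ml
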