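import Vale.Agent.P014Y.Rd.St2
import Vale.Agent.P014Y.Rd.Mul0
import Vale.Agent.P014Y.Pr.All
import Vale.Agent.P014Y.Base
import Vale.Agent.P014Y.Mu.Lv0
import Vale.Agent.P004R.Dbl

/-!
# P014Y, route R: the row `MUL`
-/

set_option autoImplicit false
set_option linter.all false

open NumberField Matrix TrivSqZeroExt
open scoped Pointwise PowerSeries

noncomputable section

namespace Vale.Agent.P014Y.Rd

open Vale.Agent.P022 P004F.Pr Ml
open Vale.Agent.P022D.W (dec)
open Vale.Agent.P022E.GW (Ov)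
open Vale.Agent.P022K.G2 (oz)
open P004R.Db (r1_one r1_mul)

theorem Ml.ne_pl {l : ℕ} {P Q : Ideal (𝓞 Qb)} (oP : Ov 3 P) (oQ : Ov l Q) (n : l ≠ 3) (g : GQ) :
    Q ≠ g • P := fun c => by
  have h2 : ((3 : ℕ) : 𝓞 Qb) ∈ Q := by
    rw [c, Ideal.mem_pointwise_smul_iff_inv_smul_mem, ← MulSemiringAction.toRingHom_apply,
      map_natCast]
    exact oP.2.2
  obtain ⟨x, y, c⟩ := (Nat.isCoprime_iff_coprime.2
    ((Nat.coprime_primes oQ.1 Nat.prime_three).2 n)).map (Int.castRingHom (𝓞 Qb))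
  rw [map_natCast, map_natCast] at c
  exact oQ.2.1.ne_top ((Ideal.eq_top_iff_one _).2
    (c ▸ add_mem (Q.mul_mem_left x oQ.2.2) (Q.mul_mem_left y h2)))

/-- **row MUL** -/
theorem mul : MUL := by
  intro R _ ρ J ⟨hs, hk⟩ J0 Γ T χ b P hχ hb ⟨v, v0, fv⟩ dt oP dP ⟨l, hl, l1, Q₀, oQ, dQ, rt⟩
  have := Finite.of_equiv _ (P004F.Alg.ps_equiv ρ hs hk).some.symm
  have : Finite (DualNumber R) := inferInstanceAs (Finite (R × R))
  let π : R →+* ZMod 3 := ρ.liftOfSurjective hs ⟨PowerSeries.constantCoeff, fun x hx =>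
    PowerSeries.X_dvd_iff.1 ((dvd_pow_self _ J0.ne').trans ((hk x).1 hx))⟩
  have pρ : ∀ x, π (ρ x) = PowerSeries.constantCoeff x := fun x =>
    ρ.liftOfRightInverse_comp_apply _ _ _ x
  have := π.domain_nontrivial
  have := IsLocalRing.of_surjective' ρ hs
  have : IsLocalRing (DualNumber R) := .of_isUnit_or_isUnit_one_sub_self fun x => by
    simpa only [isUnit_iff_isUnit_fst, fst_sub, fst_one] using
      IsLocalRing.isUnit_or_isUnit_one_sub_self x.fst
  obtain ⟨C, C', hC, k0, k1⟩ := nf (b := fun g : Γ => b g) v0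
    (fv.imp (fun h g => h g g.2) fun h g => h g g.2)
  have hC' := mul_eq_one_comm.1 hC
  obtain ⟨c, hc⟩ : ∃ c : GQ → Matrix (Fin 2) (Fin 2) (ZMod 3), ∀ g, c g = C' * b g * C :=
    ⟨_, fun _ => rfl⟩
  simp only [← hc, Subtype.forall] at k0 k1
  have cm (g) (hg : g ∈ Γ) (h) (hh : h ∈ Γ) : c (g * h) = c g * c h := by
    rw [hc, hc, hc, hb.mul g hg h hh]
    simp only [← mul_assoc]
    rw [mul_assoc _ C C', hC, mul_one]
  have cd (g) (hg : g ∈ Γ) : c g 0 0 * c g 1 1 = oz 3 g := by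
    have : (c g).det = oz 3 g := by
      rw [hc, det_mul, det_mul, mul_right_comm, ← det_mul, hC', det_one, one_mul, dt g hg]
    rwa [det_fin_two, k0 g hg, zero_mul, sub_zero] at this
  set τ := ρ.comp PowerSeries.C with hτ
  let a : GQ → Matrix (Fin 2) (Fin 2) (DualNumber R) := fun g =>
    !![inl (χ g * τ (c g 0 0)), 0; inr (χ g * τ (c g 1 0)), inl (χ g * τ (c g 1 1))]
  have a1 (g) (e : r1 χ g = 1) (e' : b g = 1) : a g = 1 := by
    have : c g = 1 := by rw [hc, e', mul_one, hC']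
    ext i j <;> fin_cases i <;> fin_cases j <;> simp [a, r1_one.1 e, this]
  have ha : Pr.Ge Γ T a := by
    obtain ⟨W, oW, w⟩ := hχ.lc
    obtain ⟨V, oV, v⟩ := hb.lc
    refine ⟨hb.opn, hb.idx, hb.cx, hb.thr, hb.pr, a1 1 hχ.one hb.one, fun g hg h hh => ?_,
      ⟨W ⊓ V, oW.inter oV, fun g hg m => a1 g (w g hg m.1) (v g hg m.2)⟩,
      fun g hg m => a1 g (hχ.unr g hg m) (hb.unr g hg m)⟩
    simp only [a, mul_fin_two, cm g hg h hh, r1_mul.1 (hχ.mul g hg h hh), mul_apply,
      Fin.sum_univ_two, k0 g hg, k0 h hh]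
    congr <;> ext <;> simp <;> ring
  obtain ⟨l3, -, om⟩ := Mu.Lv.dec_gz oQ l1
  obtain ⟨g, r, Q, u, w, hp, e⟩ := Pr.presS (π := π.comp (fstHom R R R).toRingHom)
    (P := fun _ : Unit => P) (b := fun _ _ => (0 : Matrix _ Empty _)) (N := (0 : Matrix Empty _ _))
    (by simp) ha (fun _ => ⟨3, hb.thr, oP⟩) (fun _ _ _ _ _ => rfl)
    (Pr.deg_one (fun _ _ => dP) fun _ _ _ _ => rfl)
    (fun _ _ _ _ _ => ⟨0, Subsingleton.elim _ _⟩) (fun _ => ⟨⊤, isOpen_univ, fun _ _ _ _ _ => rfl⟩)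
    (Subsingleton.elim _ _) (.inr ⟨l, hl, l3, Q₀, oQ, dQ, fun g hg => by
      have x : π (χ g) = 1 := by
        obtain ⟨y, e⟩ := rt g hg
        rw [sub_eq_iff_eq_add.1 e, map_add, map_mul, pρ, map_one]
        simp
      have y : c g 0 0 = 1 ∧ c g 1 1 = 1 := by
        have := (cd g (dQ hg)).trans (om g hg)
        rcases k1 with k | k <;> rw [k g (dQ hg)] at this ⊢ <;> simpa using this
      change (a g).map (π.comp (fstHom R R R).toRingHom) = 1
      ext i j
      fin_cases i <;> fin_cases j <;> simp [a, x, y], fun _ g _ => ne_pl oP oQ l3 g⟩)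
  obtain rfl : r = g := by simpa using e
  have pr (M : Type) [AddCommGroup M] [Module (DualNumber R) M] :
      Nat.card {y : Fin r → M // ac Q y = 0} =
        Nat.card (Zc Γ T P fun g (z : Fin 2 → M) => ac (a g) z) :=
    (Nat.card_congr (((Equiv.subtypeEquivRight fun y =>
      (and_iff_left (Subsingleton.elim _ _)).symm).trans (hp.bij M).equiv).trans
        (Equiv.subtypeEquivRight fun y => and_iff_left (Subsingleton.elim _ _)))).trans (zs M a)
  let _ : Module (DualNumber R) R := Module.compHom R (fstHom R R R).toRingHom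
  have sm (x : DualNumber R) (y : R) : x • y = x.fst * y := rfl
  have E0 : Nat.card {y // Q.map fst *ᵥ y = 0} = _ := pr R
  have c2 : C.map τ * C'.map τ = 1 := by
    rw [← Matrix.map_mul, hC, Matrix.map_one _ τ.map_zero τ.map_one]
  have E1 : Nat.card {y // Q *ᵥ y = 0} = Nat.card (Z0 Γ T (r2 ρ χ b) P) *
      Nat.card {y // Q.map fst *ᵥ y = 0} := (pr (DualNumber R)).trans (Eq.trans (split
    (f₁ := fun g (z : Fin 2 → R) => ac (r2 ρ χ b g) z)
    (f₂ := fun g (z : Fin 2 → R) => ac (a g) z)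
    ⟨⟨fun z => (C.map τ *ᵥ ![(z 0).fst, (z 1).snd], ![(z 0).snd, (z 1).fst]),
      fun w => ![((C'.map τ *ᵥ w.1) 0, w.2 0), (w.2 1, (C'.map τ *ᵥ w.1) 1)], fun z => funext fun i => by
        simp only [mulVec_mulVec, mul_eq_one_comm.1 c2, one_mulVec]
        fin_cases i <;> rfl,
      fun w => Prod.ext ((congrArg _ (funext fun i => by fin_cases i <;> rfl)).trans
        (show C.map τ *ᵥ C'.map τ *ᵥ w.1 = w.1 by rw [mulVec_mulVec, c2, one_mulVec]))
        (funext fun i => by fin_cases i <;> rfl)⟩, fun x y => Prod.ext (by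
          change _ = C.map τ *ᵥ _ + C.map τ *ᵥ _
          rw [← mulVec_add]; exact congrArg (C.map τ *ᵥ ·) (funext fun i => by fin_cases i <;> rfl))
        (funext fun i => by fin_cases i <;> rfl)⟩ (fun g hg z => Prod.ext (by
      have : b g * C = C * c g := by rw [hc, ← mul_assoc, ← mul_assoc, hC, one_mul]
      change C.map τ *ᵥ _ = (χ g • (b g).map τ) *ᵥ C.map τ *ᵥ _
      rw [smul_mulVec, mulVec_mulVec, ← Matrix.map_mul, this, Matrix.map_mul, ← mulVec_mulVec,
        ← mulVec_smul]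
      congr 1; ext i
      fin_cases i <;> simp [ac, a, mulVec, dotProduct, k0 g hg] <;> ring)
      (funext fun i => by fin_cases i <;> simp [ac, a, sm])))
    (congrArg₂ (· * ·) (zs R _).symm E0.symm))
  have E2 : Nat.card (Zr Γ T χ P) * Nat.card (Zr Γ T (tw ρ χ) P) =
      Nat.card {y // Q.map fst *ᵥ y = 0} := by
    let Φ : (Fin 2 → R) ≃+ (Fin 1 → R) × (Fin 1 → R) :=
      ⟨⟨fun z => (fun _ => z 0, fun _ => z 1), fun w => ![w.1 0, w.2 0],
        fun z => funext fun i => by fin_cases i <;> rfl, fun w => Prod.ext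
          (funext fun i => by fin_cases i; rfl) (funext fun i => by fin_cases i; rfl)⟩, fun _ _ => rfl⟩
    rw [E0, zs, zs]
    rcases k1 with k | k
    · rw [mul_comm]
      refine (split Φ fun g hg z => Prod.ext (funext fun i => ?_) (funext fun i => ?_)).symm <;>
      have := cd g hg <;> rw [k g hg, mul_one] at this <;>
      simp [Φ, ac, a, sm, r1, tw, k g hg, this, hτ, mul_comm, Fin.eq_zero i]
    · refine (split Φ fun g hg z => Prod.ext (funext fun i => ?_) (funext fun i => ?_)).symm <;>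
      have := cd g hg <;> rw [k g hg, one_mul] at this <;>
      simp [Φ, ac, a, sm, r1, tw, k g hg, this, hτ, mul_comm, Fin.eq_zero i]
  obtain ⟨n, hn⟩ := pw hs hk (Q.map fst)
  have n0 : 0 < 3 ^ n := by positivity
  have U := P004R.Db.up Q
  have D := fun h => down hs hk Q (l := n) h (by rw [Nat.card_zmod]; exact hn.ge)
  have F : 0 < Nat.card {y // Q *ᵥ y = 0} := Nat.card_pos_iff.2 ⟨⟨⟨0, mulVec_zero _⟩⟩, inferInstance⟩
  rw [Nat.card_zmod, two_mul, pow_add] at D
  rw [E1] at U D F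
  rw [E2.trans hn]
  rw [hn] at U D
  exact ⟨Nat.finite_of_card_ne_zero (left_ne_zero_of_mul F.ne'),
    Nat.le_of_mul_le_mul_right (by rwa [← sq]) n0, fun l h h' => Nat.le_of_mul_le_mul_right (D (by
      have := (Nat.pow_le_pow_iff_right (by norm_num)).1 h'
      omega)) n0⟩

end Vale.Agent.P014Y.Rd
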