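import Vale.Agent.P014Y.Rd.St3
import Vale.Agent.P014Y.St2

/-! # P014Y, route R: the case split for a reducible image (helper40) -/

set_option autoImplicit false
set_option linter.all false

open Matrix

noncomputable section

namespace Vale.Agent.P014Y.Rd

open Vale.Agent.P022 (Qb GQ)
open Vale.Agent.P014U
open L2 (W M2 aw am a1 bas ex_y wp_self)
open P004S (wp wp_smul_left wp_smul_right)
open P022K.G2 (oz)
open F (Crv Fld hq)
open Top (Irr)

section plane

variable [Pp] {G : Type} [Group G] {a : G →* M2} {θ θ' : G →* ZMod pp} {v : W}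

/-- a stable line with its two characters -/
structure Flg (a : G →* M2) (θ θ' : G →* ZMod pp) (v : W) : Prop where
  ne : v ≠ 0
  ev : ∀ g, a g *ᵥ v = θ g • v
  dt : ∀ g, (a g).det = θ g * θ' g

theorem ch_ne (θ : G →* ZMod pp) (g : G) : θ g ≠ 0 := ((Group.isUnit g).map θ).ne_zero

theorem ex_flg (a : G →* M2) (n : v ≠ 0) (h : ∀ g, ∃ t : ZMod pp, a g *ᵥ v = t • v) :
    ∃ θ θ', Flg a θ θ' v := by
  choose t ht using h
  let θ : G →* ZMod pp := ⟨⟨t, smul_left_injective _ n (by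
      show t 1 • v = _ • v
      rw [← ht, a1, one_smul])⟩, fun g k => smul_left_injective _ n (by
      show t (g * k) • v = (t g * t k) • v
      rw [← ht, am, ht, mulVec_smul, ht, smul_smul, mul_comm])⟩
  refine ⟨θ, ⟨⟨fun g => (a g).det * θ g⁻¹, by simp⟩, fun g k => ?_⟩, n, ht, fun g => ?_⟩
  · show (a (g * k)).det * θ (g * k)⁻¹ = (a g).det * θ g⁻¹ * ((a k).det * θ k⁻¹)
    rw [_root_.mul_inv_rev, map_mul, map_mul, det_mul]; ring
  · show _ = θ g * ((a g).det * θ g⁻¹)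
    rw [mul_left_comm, ← map_mul, mul_inv_cancel, map_one, mul_one]

/-- the quotient character -/
theorem Flg.qt (l : Flg a θ θ' v) (g : G) (u : W) : wp v (a g *ᵥ u) = θ' g * wp v u := by
  have e := aw (a := a) g v u
  rw [l.ev, wp_smul_left, L2.dt, l.dt, mul_assoc] at e
  exact mul_left_cancel₀ (ch_ne θ g) e

theorem Flg.tr (l : Flg a θ θ' v) (g : G) : (a g).trace = θ g + θ' g := by
  have e := l.ev g
  have d := l.dt g
  rw [det_fin_two] at d
  have e0 := congrFun e 0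
  have e1 := congrFun e 1
  simp only [mulVec, dotProduct, Fin.sum_univ_two, Pi.smul_apply, smul_eq_mul] at e0 e1
  rw [trace_fin_two]
  refine mul_left_cancel₀ (ch_ne θ g) ?_
  by_contra ne
  refine l.ne (funext (Fin.forall_fin_two.2 ⟨?_, ?_⟩))
  · refine (mul_eq_zero.1 ?_).resolve_left (sub_ne_zero.2 ne)
    linear_combination (θ g - a g 1 1) * e0 + a g 0 1 * e1 + v 0 * d
  · refine (mul_eq_zero.1 ?_).resolve_left (sub_ne_zero.2 ne)
    linear_combination a g 1 0 * e0 + (θ g - a g 0 0) * e1 + v 1 * d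

theorem dot_wp (v u : W) : ![-v 1, v 0] ⬝ᵥ u = wp v u := by
  simp only [wp, dotProduct, Fin.sum_univ_two, cons_val_zero, cons_val_one]; ring

theorem rot_ne (n : v ≠ 0) : (![-v 1, v 0] : W) ≠ 0 := fun e => n (funext (Fin.forall_fin_two.2
  ⟨by simpa using congrFun e 1, by simpa using congrFun e 0⟩))

/-- **a fixed vector or a fixed form iff one of the two characters is trivial** -/
theorem Flg.fv (l : Flg a θ θ' v) (Γ : Subgroup G) :
    (∃ u : W, u ≠ 0 ∧ ((∀ g ∈ Γ, a g *ᵥ u = u) ∨ ∀ g ∈ Γ, u ᵥ* a g = u)) ↔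
      (∀ g ∈ Γ, θ g = 1) ∨ ∀ g ∈ Γ, θ' g = 1 := by
  obtain ⟨y, hy⟩ := ex_y v l.ne
  refine ⟨fun ⟨u, n, h⟩ => ?_, fun h => h.elim
    (fun h => ⟨v, l.ne, .inl fun g m => by rw [l.ev, h g m, one_smul]⟩) fun h =>
    ⟨_, rot_ne l.ne, .inr fun g m => funext fun i => ?_⟩⟩
  · rcases h with h | h
    · by_cases z : wp v u = 0
      · refine .inl fun g m => smul_left_injective _ n ?_
        have e := bas v y hy u
        rw [z, zero_smul, add_zero] at e
        have e2 : a g *ᵥ u = θ g • u := by rw [e, mulVec_smul, l.ev, smul_comm]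
        exact (e2.symm.trans (h g m)).trans (one_smul _ _).symm
      · exact .inr fun g m => mul_right_cancel₀ z (by rw [← l.qt, h g m, one_mul])
    · have k : ∀ g ∈ Γ, ∀ x, u ⬝ᵥ (a g *ᵥ x) = u ⬝ᵥ x := fun g m x => by
        rw [dotProduct_mulVec, h g m]
      by_cases z : u ⬝ᵥ v = 0
      · have z' : u ⬝ᵥ y ≠ 0 := fun z' => n (dotProduct_eq_zero _ fun x => by
          rw [bas v y hy x, dotProduct_add, dotProduct_smul, dotProduct_smul, z, z']; simp)
        refine .inr fun g m => mul_right_cancel₀ z' ?_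
        have e := k g m y
        rw [bas v y hy (a g *ᵥ y), l.qt, hy, dotProduct_add, dotProduct_smul, dotProduct_smul, z] at e
        simpa using e
      · refine .inl fun g m => mul_right_cancel₀ z ?_
        have e := k g m v
        rw [l.ev, dotProduct_smul] at e
        simpa using e
  · have e := l.qt g (Pi.single i 1)
    rw [← dot_wp, ← dot_wp, dotProduct_mulVec, h g m, one_mul] at e
    simpa using e

/-- a fixed vector or a fixed form gives a stable line -/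
theorem st_of_fv (h : ∃ u : W, u ≠ 0 ∧ ((∀ g, a g *ᵥ u = u) ∨ ∀ g, u ᵥ* a g = u)) :
    ∃ v : W, v ≠ 0 ∧ ∀ g, ∃ t : ZMod pp, a g *ᵥ v = t • v := by
  obtain ⟨u, n, h | h⟩ := h
  · exact ⟨u, n, fun g => ⟨1, by rw [h, one_smul]⟩⟩
  · have k : ∀ x, wp ![u 1, -u 0] x = u ⬝ᵥ x := fun x => by
      simp only [wp, dotProduct, Fin.sum_univ_two, cons_val_zero, cons_val_one]; ring
    have n' : (![u 1, -u 0] : W) ≠ 0 := fun e => n (funext (Fin.forall_fin_two.2
      ⟨by simpa using congrFun e 1, by simpa using congrFun e 0⟩))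
    obtain ⟨y, hy⟩ := ex_y _ n'
    refine ⟨_, n', fun g => ⟨wp (a g *ᵥ ![u 1, -u 0]) y, ?_⟩⟩
    have e := bas _ y hy (a g *ᵥ ![u 1, -u 0])
    rwa [k, dotProduct_mulVec, h, ← k, wp_self, zero_smul, add_zero] at e

/-- **a reducible image has a stable line** -/
theorem flg_of {A B : ℤ} {h : P014U.Top.El A B} (n : ¬ Irr h) :
    ∃ θ θ' v, Flg (Cp.ab (hq h)) θ θ' v := by
  simp only [Irr, not_forall, not_exists, not_not, exists_prop] at n
  obtain ⟨v, n, k⟩ := n
  obtain ⟨θ, θ', l⟩ := ex_flg _ n k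
  exact ⟨θ, θ', v, l⟩

theorem Flg.not_irr {A B : ℤ} (h : P014U.Top.El A B) {θ θ' : GQ →* ZMod pp}
    (l : Flg (Cp.ab (hq h)) θ θ' v) : ¬ Irr h := fun i =>
  (i v l.ne).elim fun g k => k _ (l.ev g)

/-- the product of the two characters is cyclotomic -/
theorem Flg.om {A B : ℤ} (h : P014U.Top.El A B) {θ θ' : GQ →* ZMod pp}
    (l : Flg (Cp.ab (hq h)) θ θ' v) (g : GQ) : θ g * θ' g = oz pp g :=
  (l.dt g).symm.trans ((congrFun (Cp.dt_ab _) g).trans (X4S.Aq.om_oz g))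

end plane

variable {e : Crv} {θ θ' : GQ →* ZMod pp} {v : W}

theorem rb_eq (e : Crv) (g : GQ) : rb e g = Mu.rb e g := rfl

/-- **`Eis` iff the semisimple form is `1 + ω`** -/
theorem eis_iff (l : Flg (Mu.rb e) θ θ' v) : Eis e ↔ (∀ g, θ g = 1) ∨ ∀ g, θ' g = 1 :=
  (l.fv ⊤).trans (by simp)

theorem Eis.not_irr (h : Eis e) : ¬ Irr e.par.disc := by
  obtain ⟨u, n, k⟩ := h
  obtain ⟨v, n, k⟩ := st_of_fv (a := Mu.rb e)
    ⟨u, n, k.imp (fun k g => k g trivial) fun k g => k g trivial⟩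
  obtain ⟨θ, θ', l⟩ := ex_flg _ n k
  exact l.not_irr e.par.disc

/-- the other case: neither character is trivial, neither is cyclotomic -/
theorem not_eis (l : Flg (Mu.rb e) θ θ' v) (n : ¬ Eis e) : (∃ g, θ g = -1) ∧ (∃ g, θ' g = -1) ∧
    (∃ g, θ g ≠ oz 3 g) ∧ ∃ g, θ' g ≠ oz 3 g := by
  have k : ∀ x : ZMod 3, x ≠ 0 → x ≠ 1 → x = -1 := by decide
  rw [eis_iff l, not_or, not_forall, not_forall] at n
  obtain ⟨⟨g, m⟩, g', m'⟩ := n
  refine ⟨⟨g, k _ (ch_ne θ g) m⟩, ⟨g', k _ (ch_ne θ' g') m'⟩, ⟨g', fun z => m' ?_⟩, g, fun z => m ?_⟩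
  · exact mul_left_cancel₀ (ch_ne θ g') ((l.om e.par.disc g').trans (z.symm.trans (mul_one _).symm))
  · exact mul_right_cancel₀ (ch_ne θ' g) ((l.om e.par.disc g).trans (z.symm.trans (one_mul _).symm))

/-- **the split** -/
theorem cas (e : Crv) (n : ¬ Irr e.par.disc) : Eis e ∨ ∃ θ θ' v, Flg (Mu.rb e) θ θ' v ∧
    (∃ g, θ g ≠ 1) ∧ (∃ g, θ' g ≠ 1) ∧ ∀ g, θ g * θ' g = oz 3 g := by
  obtain ⟨θ, θ', v, l⟩ := flg_of n
  by_cases h : Eis e
  · exact .inl h
  · rw [eis_iff l, not_or, not_forall, not_forall] at h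
    exact .inr ⟨θ, θ', v, l, h.1, h.2, l.om e.par.disc⟩

/-- **the anchor for a reducible image from its two cases** -/
theorem an_of {C : ∀ e : Crv, Fld e → Prop} (r : RED3)
    (h : ∀ e : Crv, ¬ Irr e.par.disc → ¬ Eis e → ∃ T, ∀ b : Fld e, T ≤ b.δ' → C e b → b.Anc)
    (e : Crv) (n : ¬ Irr e.par.disc) : ∃ T, ∀ b : Fld e, T ≤ b.δ' → C e b → b.Anc := by
  by_cases k : Eis e
  · exact (r e k).imp fun T h b t _ => h b t
  · exact h e n k

end Vale.Agent.P014Y.Rd
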