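import Vale.Agent.P014Y.Rd.St
import Vale.Agent.P014Y.Base
import Vale.Agent.P014U.Gn
import Vale.Agent.P014U.G2.On0
import Vale.Agent.P022.H269.Nrm

/-!
# P014Y, route R: adjustment by inertia at the first primes (row `ADJ`; helper64)
-/

set_option autoImplicit false
set_option linter.all false

open NumberField IsDedekindDomain
open scoped Pointwise

noncomputable section

namespace Vale.Agent.P014Y.Rd

namespace Ad

open Vale.Agent.P022 (Qb GQ GK below)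
open P004K
open Vale.Agent.P027M.S (Inert)
open Vale.Agent.P022D.W (dec inP_le_dec)
open Vale.Agent.P022E.GW (Ov)
open Vale.Agent.P022K.G2

/-- the cubic character -/
theorem ex_cub {q : ℕ} [Fact q.Prime] (h : q % 3 = 1) : ∃ c : (ZMod q)ˣ → ZMod 3,
    (∀ u v, c (u * v) = c u + c v) ∧ ∀ u, c u = 0 ↔ ∃ a, u = a ^ 3 := by
  let e := zmodCyclicMulEquiv (G := (ZMod q)ˣ) inferInstance
  have d : 3 ∣ Nat.card (ZMod q)ˣ := by rw [Nat.card_eq_fintype_card, ZMod.card_units]; omega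
  haveI : NeZero (Nat.card (ZMod q)ˣ) := ⟨Nat.card_pos.ne'⟩
  refine ⟨fun u => ZMod.castHom d (ZMod 3) (e.symm u).toAdd, fun u v => by
    simp only [map_mul, toAdd_mul, map_add], fun u => ⟨fun z => ?_, ?_⟩⟩
  · beta_reduce at z
    rw [← ZMod.natCast_zmod_val (e.symm u).toAdd, map_natCast, ZMod.natCast_eq_zero_iff] at z
    obtain ⟨k, hk⟩ := z
    refine ⟨e (Multiplicative.ofAdd (k : ZMod _)), e.symm.injective ?_⟩
    rw [map_pow, e.symm_apply_apply, ← ofAdd_nsmul, ← ofAdd_toAdd (e.symm u),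
      ← ZMod.natCast_zmod_val (e.symm u).toAdd, hk, nsmul_eq_mul, Nat.cast_mul]
  · rintro ⟨a, rfl⟩
    beta_reduce
    rw [map_pow, toAdd_pow, map_nsmul, nsmul_eq_mul, ZMod.natCast_self, zero_mul]

theorem cb_iff {q : ℕ} [Fact q.Prime] {g : GQ} : Cb q g ↔ ∃ a, om0 q g = a ^ 3 := by
  refine ⟨fun ⟨a, h⟩ => ?_, fun ⟨a, h⟩ => ⟨(a : ZMod q).val, fun ζ hζ => ?_⟩⟩
  · have e : oz q g = (a : ZMod q) ^ 3 := pw_inj (by
      rw [← oz_spec, h _ zt_pow, ← Nat.cast_pow, pw_nat])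
    exact ⟨Units.mk0 a fun z => oz_ne g (by rw [e, z]; simp), Units.ext e⟩
  · obtain ⟨b, rfl⟩ := pw_ex hζ
    have e : oz q g = (((a : ZMod q).val ^ 3 : ℕ) : ZMod q) := by
      rw [Nat.cast_pow, ZMod.natCast_zmod_val, oz, h, Units.val_pow_eq_pow_val]
    rw [oz_pw, e, pw_mul, pw_nat, ← pow_mul, ← pow_mul, mul_comm]

theorem not_cub {q : ℕ} [Fact q.Prime] (h : q % 3 = 1) {P : Ideal (𝓞 Qb)} (o : Ov q P) {τ : GQ}
    (i : Inert P τ) (k : ka 3 q τ = 1) : ¬ ∃ a, om0 q τ = a ^ 3 := fun ⟨a, e⟩ => by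
  refine P014U.Gn.pow (l := q) ⟨i, k⟩ o (m := q / 3) (by rw [pp3]; omega) (zt_prim q) (oz_spec τ) ?_
  rw [ZMod.natCast_zmod_val, oz, e, Units.val_pow_eq_pow_val, ← pow_mul,
    show 3 * (q / 3) = q - 1 by omega]
  exact ZMod.pow_card_sub_one_eq_one a.ne_zero

/-- the matrix of signs is invertible -/
theorem had (S : AddSubgroup ((ZMod 3 × ZMod 3 × ZMod 3) × ZMod 3)) {c n : ZMod 3} (hc : c ≠ 0)
    (hn : n ≠ 0) (h0 : ((1, 1, c), n) ∈ S) (h1 : ((-1, 1, c), -n) ∈ S) (h2 : ((-1, -1, c), n) ∈ S)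
    (h3 : ((1, -1, c), -n) ∈ S) (v : (ZMod 3 × ZMod 3 × ZMod 3) × ZMod 3) : v ∈ S := by
  obtain ⟨⟨u, v, w⟩, y⟩ := v
  have sq : ∀ a : ZMod 3, a ≠ 0 → a * a = 1 := by decide
  have t : (3 : ZMod 3) = 0 := rfl
  let T := AddSubgroup.toZModSubmodule 3 S
  have := T.add_mem (T.add_mem (T.smul_mem (u + v + c * w + n * y) h0)
    (T.smul_mem (-u + v + c * w - n * y) h1)) (T.add_mem (T.smul_mem (-u - v + c * w + n * y) h2)
    (T.smul_mem (u - v + c * w - n * y) h3))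
  refine (congrArg (· ∈ S) ?_).mp this
  simp only [Prod.smul_mk, Prod.mk_add_mk, smul_eq_mul, Prod.mk.injEq]
  exact ⟨⟨by linear_combination u * t, by linear_combination v * t,
    by linear_combination 4 * w * sq c hc + w * t⟩, by linear_combination 4 * y * sq n hn + y * t⟩

variable {K : Type} [Field K] [NumberField K] {j : K →+* Qb} {γ g : GQ} {β : 𝓞 K}
  {l c : ℕ} {P Q : Ideal (𝓞 Qb)} {J : Ideal (𝓞 K)}

theorem fix_cj (h : Iq K) (hγ : γ ∉ GK j) (m : g ∈ GK j) (a : K) : g (γ (j a)) = γ (j a) := by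
  have := congrArg γ (P022.H20.conj_mem h.two hγ m a)
  rwa [← AlgEquiv.mul_apply, mul_inv_cancel_left] at this

theorem qa_fix (h : Iq K) (hγ : γ ∉ GK j) (m : g ∈ GK j) : g (qa j γ β) = qa j γ β := by
  rw [qa, map_div₀, m, fix_cj h hγ m]

theorem qa_inv (h : Iq K) (hγ : γ ∉ GK j) (m : g ∉ GK j) : g (qa j γ β) = (qa j γ β)⁻¹ := by
  have := congrArg γ (P022.H20.inv_mul_mem h.two hγ m β)
  rw [← AlgEquiv.mul_apply, mul_inv_cancel_left] at this
  rw [qa, map_div₀, this, inv_div, ← AlgEquiv.mul_apply, P022.H20.mul_mem' h.two m hγ]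

theorem j_ne (h : β ≠ 0) : j β ≠ 0 := (map_ne_zero j).2 fun e => h (RingOfIntegers.ext e)

theorem nat_below (o : Ov l P) (d : l ∣ c) : (c : 𝓞 K) ∈ below j P := by
  obtain ⟨k, rfl⟩ := d
  show RingOfIntegers.mapRingHom j _ ∈ P
  rw [map_natCast, Nat.cast_mul]
  exact P.mul_mem_right _ o.2.2

theorem not_le (o : Ov l P) (d : l ∣ c) (hJ : Cop c J) : ¬ J ≤ below j P := fun k =>
  (blw j o).isPrime.ne_top (top_le_iff.1 (hJ.2 ▸ sup_le k
    ((Ideal.span_singleton_le_iff_mem _).2 (nat_below o d))))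

theorem le_of_mem (o : Ov l P) (d : l ∣ c) (hJ : Cop c J) (e : below j Q * J = Ideal.span {β})
    (m : β ∈ below j P) : below j Q ≤ below j P :=
  ((blw j o).isPrime.mul_le.1 (e ▸ (Ideal.span_singleton_le_iff_mem _).2 m)).resolve_right
    (not_le o d hJ)

theorem ov_sm (o : Ov l P) (t : GQ) : Ov l (t • P) :=
  ⟨o.1, haveI := o.2.1; inferInstance, by
    rw [Ideal.mem_pointwise_smul_iff_inv_smul_mem,
      show t⁻¹ • (l : 𝓞 Qb) = l from map_natCast (MulSemiringAction.toRingHom GQ (𝓞 Qb) t⁻¹) l]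
    exact o.2.2⟩

theorem in_cj {τ : GQ} (f : Inert P τ) (g : GQ) : Inert (g • P) (g * τ * g⁻¹) := fun x => by
  rw [Ideal.mem_pointwise_smul_iff_inv_smul_mem, smul_sub, mul_smul, mul_smul, inv_smul_smul]
  exact f _

theorem ka_out (o : Ov l P) (hl : l ≠ 3) (i : Inert P g) (δ : GQ) (e : g (δ (j β)) = δ (j β))
    (m : β ∉ below j (δ⁻¹ • P)) : ka 3 (δ (j β)) g = 0 :=
  ka_int o hl (x := δ • RingOfIntegers.mapRingHom j β)
    (fun k => m (Ideal.mem_inv_pointwise_smul_iff.2 k)) i e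

/-- the other primes -/
theorem ka_oth (h : Iq K) (hγ : γ ∉ GK j) {q : ℕ} (o : Ov l P) (o' : Ov q Q) (hl : l ≠ 3)
    (ne : l ≠ q) (d : l ∣ c) (hJ : Cop c J) (e : below j Q * J = Ideal.span {β}) (b : β ≠ 0)
    (i : Inert P g) (m : g ∈ GK j) : ka 3 (qa j γ β) g = 0 := by
  have key : ∀ δ : GQ, β ∉ below j (δ • P) := fun δ k => by
    have k1 : RingOfIntegers.mapRingHom j (q : 𝓞 K) ∈ δ • P :=
      le_of_mem (ov_sm o δ) d hJ e k (nat_below o' dvd_rfl)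
    rw [map_natCast] at k1
    exact ne ((Nat.prime_dvd_prime_iff_eq o.1 o'.1).1 (by
      exact_mod_cast P004S.ov_dvd (ov_sm o δ) (a := q) (by exact_mod_cast k1)))
  rw [qa, ka_div (j_ne b) ((map_ne_zero γ).2 (j_ne b)) (inert_gz o hl i) (m _) (fix_cj h hγ m _),
    ka_out o hl i γ (fix_cj h hγ m _) (key _), sub_zero]
  exact ka_out o hl i 1 (m _) (key _)

/-- the prime itself -/
theorem ka_own (h : Iq K) (hγ : γ ∉ GK j) (o : Ov l Q) (hl : l ≠ 3) (d : l ∣ c) (hJ : Cop c J)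
    (e : below j Q * J = Ideal.span {β}) (b : β ≠ 0) (le : dec Q ≤ GK j) (i : Inert Q g) :
    ka 3 (qa j γ β) g = ka 3 l g := by
  have m := le (inP_le_dec i)
  have k : β ∉ below j (γ⁻¹ • Q) := fun k => by
    obtain ⟨t, ht⟩ := P022.H916.exists_smul j o.2.1 (ov_sm o γ⁻¹).2.1
      ((blw j o).isMaximal.eq_of_le (blw j (ov_sm o γ⁻¹)).isPrime.ne_top
        (le_of_mem (ov_sm o γ⁻¹) d hJ e k))
    refine hγ (((GK j).mul_mem_cancel_right t.2).1 (le fun x => ?_))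
    rw [mul_smul, ← Ideal.mem_inv_pointwise_smul_iff, ht, Ideal.smul_mem_pointwise_smul_iff]
  have v1 := P022.H269.ordv_eq_one (blw j o) (x := β)
    ((Ideal.span_singleton_le_iff_mem _).1 (e ▸ Ideal.mul_le_left)) fun k => not_le o d hJ (by
      have := (Ideal.span_singleton_le_iff_mem _).2 k
      rw [← e, ← Ideal.dvd_iff_le, sq] at this
      exact Ideal.dvd_iff_le.1 ((mul_dvd_mul_iff_left (blw j o).ne_bot).1 this))
  rw [qa, ka_div (j_ne b) ((map_ne_zero γ).2 (j_ne b)) (inert_gz o hl i) (m _) (fix_cj h hγ m _),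
    ka_out o hl i γ (fix_cj h hγ m _) k, sub_zero, P014U.G2.On.ka_ord o hl (v := blw j o) rfl le
      ((map_ne_zero j).1 (j_ne b)) i, v1, Int.cast_one, one_mul]

section

variable {x : GQ → ZMod 3} {s : GQ}

theorem x_cj (hx : Xc j c x) (m : g ∈ GK j) (ms : s ∈ GK j) : x (g * s * g⁻¹) = x s := by
  have := hx.add _ (mul_mem (mul_mem m ms) (inv_mem m)) _ m
  rw [inv_mul_cancel_right, hx.add _ m _ ms] at this
  linear_combination -this

theorem x_cj' (hx : Xc j c x) (ms : s ∈ GK j) (a : g * s * g⁻¹ * s ∈ Hc j c) :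
    x (g * s * g⁻¹) = -x s := by
  have d := hx.ker _ a
  rw [hx.add _ (((GK j).mul_mem_cancel_right ms).1 a.1) _ ms] at d
  exact eq_neg_of_add_eq_zero_left d

theorem a_cj (h : Iq K) (hγ : γ ∉ GK j) (b : qa j γ β ≠ 0) (m : g ∉ GK j) (ms : s ∈ GK j)
    (z : s ∈ Gz 3) : ka 3 (qa j γ β) (g * s * g⁻¹) = -(oz 3 g * ka 3 (qa j γ β) s) := by
  have m1 : g * s * g⁻¹ ∈ GK j := by
    have := P022.H20.conj_mem h.two (c := g⁻¹) (fun k => m ((GK j).inv_mem_iff.1 k)) ms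
    rwa [inv_inv, ← mul_assoc] at this
  rw [← ka_conj b g z (qa_fix h hγ ms), qa_inv h hγ m,
    ka_inv b (Gz_normal.conj_mem s z g) (qa_fix h hγ m1), neg_neg]

end

end Ad

open Vale.Agent.P022 (Qb GQ GK below)
open P004K Ad
open Vale.Agent.P027M.S (Inert)
open Vale.Agent.P022D.W (dec inP_le_dec)
open Vale.Agent.P022E.GW (Ov)
open Vale.Agent.P022K.G2

/-- **adjustment by inertia at the first primes** -/
theorem adj (r1 : RC1) : ADJ := by
  classical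
  intro K _ _ j hK γ hγ ι _ o q Q β J x ζ inj hζ hq hx g₀ m₀ z₀ z
  have iq := hK.iq
  have pr : ∀ i, Fact (q i).Prime := fun i => ⟨(hq i).1.1⟩
  obtain ⟨-, op, nr, -, dih, -⟩ := r1 K j iq (∏ i, q i) (Finset.prod_pos fun i _ => (hq i).1.1.pos)
  choose c ca ck using fun i => ex_cub (q := q i) (hq i).2.1
  have q3 : ∀ i, q i ≠ 3 := fun i e => by have := (hq i).2.1; omega
  have q0 : ∀ i, (q i : Qb) ≠ 0 := fun i => Nat.cast_ne_zero.2 (hq i).1.1.ne_zero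
  have dv : ∀ i, q i ∣ ∏ i, q i := fun i => Finset.dvd_prod_of_mem _ (Finset.mem_univ i)
  have b0 : ∀ i, β i ≠ 0 := fun i e => by
    have := (hq i).2.2.1
    rw [e, Ideal.span_singleton_zero, Ideal.mul_eq_bot] at this
    exact this.elim (below_ne j (hq i).1) (hq i).2.2.2.1.1
  have a0 : ∀ i, qa j γ (β i) ≠ 0 := fun i =>
    div_ne_zero (j_ne (b0 i)) ((map_ne_zero γ).2 (j_ne (b0 i)))
  have gk : ∀ {i Q' s}, Ov (q i) Q' → Inert Q' s → s ∈ GK j ⊓ Gz 3 := fun {i Q' s} a b =>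
    ⟨((hq i).2.2.2.2 Q' a).1 (inP_le_dec b), inert_gz a (q3 i) b⟩
  set T := Subgroup.closure {s | ∃ i Q', Ov (q i) Q' ∧ Inert Q' s}
  have le : T ≤ GK j ⊓ Gz 3 := (Subgroup.closure_le _).2 fun s ⟨i, Q', a, b⟩ => gk a b
  let f : GQ → (ι → ZMod 3 × ZMod 3 × ZMod 3) × ZMod 3 := fun g =>
    (fun i => (ka 3 (qa j γ (β i)) g, ka 3 (q i) g, c i (om0 (q i) g)), x g)
  have fa : ∀ g ∈ GK j ⊓ Gz 3, ∀ h ∈ GK j ⊓ Gz 3, f (g * h) = f g + f h := fun g a h b =>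
    Prod.ext (funext fun i => Prod.ext (ka_add (a0 i) a.2 (qa_fix iq hγ a.1) (qa_fix iq hγ b.1))
      (Prod.ext (ka_add (q0 i) a.2 (map_natCast g _) (map_natCast h _))
        ((congrArg (c i) (map_mul _ g h)).trans (ca i _ _)))) (hx.add g a.1 h b.1)
  have f1 : f 1 = 0 := by
    have := fa 1 (one_mem _) 1 (one_mem _)
    rwa [mul_one, left_eq_add] at this
  let S : AddSubgroup ((ι → ZMod 3 × ZMod 3 × ZMod 3) × ZMod 3) :=
    { carrier := {v | ∃ t ∈ T, f t = v}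
      add_mem' := by
        rintro _ _ ⟨s, a, rfl⟩ ⟨t, b, rfl⟩
        exact ⟨s * t, mul_mem a b, fa s (le a) t (le b)⟩
      zero_mem' := ⟨1, one_mem _, f1⟩
      neg_mem' := by
        rintro _ ⟨s, a, rfl⟩
        refine ⟨s⁻¹, inv_mem a, eq_neg_of_add_eq_zero_left ?_⟩
        rw [← fa _ (le (inv_mem a)) s (le a), inv_mul_cancel, f1] }
  let L := fun i : ι => (AddMonoidHom.single (fun _ : ι => ZMod 3 × ZMod 3 × ZMod 3) i).prodMap
    (AddMonoidHom.id (ZMod 3))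
  have key : ∀ {i Q' s}, Ov (q i) Q' → Inert Q' s → ∀ {u v w y}, ka 3 (qa j γ (β i)) s = u →
      ka 3 (q i) s = v → c i (om0 (q i) s) = w → x s = y → ((u, v, w), y) ∈ S.comap (L i) := by
    rintro i Q' s a b _ _ _ _ rfl rfl rfl rfl
    refine ⟨s, Subgroup.subset_closure ⟨i, Q', a, b⟩, Prod.ext (funext fun k => ?_) rfl⟩
    show _ = Pi.single (M := fun _ => ZMod 3 × ZMod 3 × ZMod 3) i _ k
    rcases eq_or_ne k i with rfl | ne
    · rw [Pi.single_eq_same]; rfl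
    have ne' : q i ≠ q k := fun e => ne (inj e).symm
    rw [Pi.single_eq_of_ne ne]
    refine Prod.ext (ka_oth iq hγ a (hq k).1 (q3 i) ne' (dv i) (hq k).2.2.2.1 (hq k).2.2.1 (b0 k) b
      (gk a b).1) (Prod.ext (ka_int a (q3 i) (x := q k) (p_notMem a ne') b (map_natCast s _))
        ((ck k _).2 ⟨1, ?_⟩))
    rw [one_pow]
    exact inert_gz (p := q k) a ne' b
  obtain ⟨g1, n1, p1⟩ := hK.pos
  obtain ⟨g3, n3, p3⟩ := hK.neg
  have o1 : oz 3 g1 = 1 := mem_Gz.1 (mem_Gz'.2 (p1 1 _ (by rw [pow_one]; exact zt_pow)))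
  have o3 : oz 3 g3 = -1 := pw_inj (by
    rw [← oz_spec, p3 1 _ (by rw [pow_one]; exact zt_pow)]
    exact inv_eq_of_mul_eq_one_right ((pow_succ' _ 2).symm.trans zt_pow))
  have m2 := P022.H20.mul_mem' iq.two n1 n3
  have o2 : oz 3 (g1 * g3) = -1 := by rw [oz_mul, o1, o3, one_mul]
  have all : ∀ i v, v ∈ S.comap (L i) := fun i => by
    obtain ⟨a, h3, e, hJ, hd⟩ := hq i
    obtain ⟨dc, t, ti, tx⟩ := hd _ a
    obtain ⟨-, ⟨τ, i1, k1⟩, tm⟩ := tam 3 _ _ a (q3 i)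
    obtain ⟨n, hn⟩ := tm (ZMod 3) (ZMod 3) x (fun g h a' b' => hx.add g (gk a a').1 h (gk a b').1)
      ⟨_, lv_of nr op, fun w m _ => hx.ker w m⟩
    have x0 : x τ ≠ 0 := fun k => by
      rw [hn τ i1, k1, map_one, one_smul] at k
      rw [hn t ti, k, smul_zero] at tx
      exact zero_ne_one tx
    have mτ := gk a i1
    have A := (ka_own iq hγ a (q3 i) (dv i) hJ e (b0 i) dc i1).trans k1
    have B : ∀ g : GQ, ka 3 (q i) (g * τ * g⁻¹) = oz 3 g := fun g => by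
      have := ka_conj (q0 i) g mτ.2 (map_natCast τ _)
      rwa [map_natCast, k1, mul_one] at this
    have C : ∀ g : GQ, c i (om0 (q i) (g * τ * g⁻¹)) = c i (om0 (q i) τ) := fun g => by
      rw [map_mul, map_mul, map_inv, mul_inv_cancel_comm]
    refine had _ (fun k => not_cub h3 a i1 k1 ((ck i _).1 k)) x0 (key a i1 A k1 rfl rfl)
      (key (ov_sm a g1) (in_cj i1 g1) ?_ ((B _).trans o1) (C _) (x_cj' hx mτ.1 (dih _ n1 _ mτ.1)))
      (key (ov_sm a _) (in_cj i1 (g1 * g3)) ?_ ((B _).trans o2) (C _) (x_cj hx m2 mτ.1))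
      (key (ov_sm a g3) (in_cj i1 g3) ?_ ((B _).trans o3) (C _) (x_cj' hx mτ.1 (dih _ n3 _ mτ.1)))
    · rw [a_cj iq hγ (a0 i) n1 mτ.1 mτ.2, o1, A, mul_one]
    · have := ka_conj (a0 i) (g1 * g3) mτ.2 (qa_fix iq hγ mτ.1)
      rwa [qa_fix iq hγ m2, o2, A, mul_one] at this
    · rw [a_cj iq hγ (a0 i) n3 mτ.1 mτ.2, o3, A, mul_one, neg_neg]
  have top : ∀ v, v ∈ S := fun v => by
    have := S.sum_mem (t := Finset.univ) fun i _ => all i (v.1 i, if i = o then v.2 else 0)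
    refine (congrArg (· ∈ S) (Prod.ext ?_ ?_)).mp this
    · rw [Prod.fst_sum]
      exact Finset.univ_sum_single v.1
    · rw [Prod.snd_sum]
      exact (Finset.sum_ite_eq' _ o fun _ => v.2).trans (if_pos (Finset.mem_univ o))
  obtain ⟨u, hu⟩ := pw_ex hζ.pow_eq_one
  have mg : g₀ ∈ GK j ⊓ Gz 3 := by
    obtain ⟨k, -, e⟩ := hζ.eq_pow_of_pow_eq_one (zt_pow (p := 3))
    exact ⟨m₀, mem_Gz'.2 (by rw [← e, map_pow, z₀])⟩
  obtain ⟨t, ht, e⟩ := top (-f g₀ + (fun i => (u * z i, if i = o then 1 else 0,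
    if i = o then 1 else 0), 1))
  have e1 := fa g₀ mg t (le ht)
  rw [e, add_neg_cancel_left] at e1
  have m := mul_mem mg (le ht)
  refine ⟨t, ht, congrArg Prod.snd e1, fun i => ?_⟩
  obtain ⟨e2, e3, e4⟩ : _ = u * z i ∧ _ = (if i = o then 1 else 0 : ZMod 3) ∧
      _ = (if i = o then 1 else 0 : ZMod 3) := by
    simpa only [f, Prod.mk.injEq] using congrFun (congrArg Prod.fst e1) i
  refine ⟨fun y hy => ?_, ?_, ?_⟩
  · rw [ka_law hy m.2 (qa_fix iq hγ m.1), e2, pw_mul, ← hu]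
  · rw [e3]; simp
  · rw [Ad.cb_iff, ← ck, e4]; simp

end Vale.Agent.P014Y.Rd
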