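import Vale.Agent.P014Y.Rd.St3

/-!
# P014Y, route R, row ALG: the two rank one groups
-/

set_option autoImplicit false
set_option linter.all false

open NumberField Matrix
open scoped Pointwise PowerSeries

noncomputable section

namespace Vale.Agent.P014Y.Rd

open Vale.Agent.P022 (Qb GQ GK)
open P004K
open Vale.Agent.P022D.W (dec)
open Vale.Agent.P022E.GW (Ov Fb)
open Vale.Agent.P022K.G2 (oz)

namespace Ag

variable {R : Type} [CommRing R] {ρ : (ZMod 3)⟦X⟧ →+* R} {Γ : Subgroup GQ} {S T : Finset ℕ}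

theorem ex_pl {l : ℕ} (hl : l.Prime) : ∃ P, Ov l P :=
  let ⟨P, h⟩ := P022.H916.exists_prime hl
  ⟨P, hl, h⟩

/-- more primes -/
theorem g3_mono {n : Type} [Fintype n] [DecidableEq n] {a : GQ → Matrix n n R} (h : G3 Γ S a)
    (le : S ⊆ T) (pr : ∀ l ∈ T, l.Prime) : G3 Γ T a :=
  ⟨⟨h.opn, h.idx, h.cx, le h.two, pr, h.one, h.mul, h.lc,
    fun g hg ⟨l, hl, k⟩ => h.unr g hg ⟨l, fun m => hl (le m), k⟩⟩, le h.thr⟩

/-- the residual characters -/
theorem g3_res {n : Type} [Fintype n] [DecidableEq n] {a : GQ → Matrix n n R} (h : G3 Γ T a)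
    (two : 2 ∈ S) (thr : 3 ∈ S) (pr : ∀ l ∈ S, l.Prime) :
    G3 Γ S (r1 fun _ => (1 : ZMod 3)) ∧ G3 Γ S (r1 (oz 3)) :=
  ⟨⟨⟨h.opn, h.idx, h.cx, two, pr, by simp [r1], fun _ _ _ _ => by simp [r1],
      ⟨⊤, isOpen_univ, fun _ _ _ => by simp [r1]⟩, fun _ _ _ => by simp [r1]⟩, thr⟩,
    ⟨⟨h.opn, h.idx, h.cx, two, pr, by simp [r1, P022K.G2.oz_one],
      fun g _ g' _ => by simp [r1, P022K.G2.oz_mul, smul_smul, mul_comm],
      ⟨_, P022K.G2.Gz_open (p := 3), fun w _ m => by simp [r1, P022K.G2.mem_Gz.1 m]⟩,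
      fun g _ ⟨l, hl, P, o, i⟩ => by
        simp [r1, P022K.G2.mem_Gz.1 (P022K.G2.inert_gz (p := 3) o (fun e => hl (e ▸ thr)) i)]⟩, thr⟩⟩

theorem ch_res {n : ℕ} (e : GQ → ZMod n) (g : GQ) : tt ρ ∣ ch ρ e g - ρ (PowerSeries.C 1) := by
  rw [map_one, map_one, ch]
  simpa using sub_one_dvd_pow_sub_one (1 + tt ρ) (e g).val

theorem tw_res {n : ℕ} (e : GQ → ZMod n) (g : GQ) :
    tt ρ ∣ tw ρ (ch ρ e) g - ρ (PowerSeries.C (oz 3 g)) := by
  have := ch_res (ρ := ρ) e g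
  rw [map_one, map_one] at this
  rw [tw, ← mul_sub_one]
  exact this.mul_left _

end Ag

open Ag in
/-- row ALG -/
theorem alg (gdr : GDR) (lex : LEX) (mu : MU) (loi : LOI) (du : DU) : ALG := by
  intro K _ _ j S k
  by_cases ex : ∃ (c M : ℕ) (e : GQ → ZMod (3 * M)), Lv j c M e S
  swap
  · exact ⟨0, fun c M e y => (ex ⟨c, M, e, y⟩).elim⟩
  obtain ⟨c₀, M₀, e₀, y₀⟩ := ex
  obtain ⟨ga, gb⟩ := g3_res (gdr K j c₀ M₀ e₀ S y₀ _ (rq 0) 0 ⟨Ideal.Quotient.mk_surjective, fun x => by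
    rw [Ideal.Quotient.eq_zero_iff_mem, Ideal.mem_span_singleton]⟩ (Nat.zero_le _)).1 y₀.two y₀.thr
    fun l hl => (y₀.spl l hl).1
  obtain ⟨A, hA⟩ := lex _ S _ ga k
  obtain ⟨B, hB⟩ := lex _ S _ gb k
  refine ⟨A * (B + 2) + B, fun c M e y hk P o sl R _ ρ J t JM => ?_⟩
  obtain ⟨g1, g2, lo, cj, W, w1, w2, w3, w4, w5⟩ := gdr K j c M e S y R ρ J t JM
  obtain ⟨f1, a1, a2, -⟩ := hA _ R ρ J _ P hk t g1 fun g _ => ch_res e g
  obtain ⟨f2, b1, -, b3⟩ := hB _ R ρ J _ P hk t g2 fun g _ => tw_res e g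
  have ki := mu K j c M e S y P o sl R ρ J t JM
  have bd := b1 1 ki
  rw [mul_one] at bd
  obtain ⟨γ, hγ⟩ : ∃ γ, γ ∉ GK j := by
    by_contra h
    push Not at h
    have := g1.idx
    rw [(Subgroup.eq_top_iff' _).2 h, Subgroup.index_top] at this
    omega
  have fin {χ : GQ → R} {α : GQ → ZMod 3} (ga : G3 (GK j) S (r1 α))
      (g : G3 (GK j) (S ∪ c.primeFactors) (r1 χ))
      (r : ∀ g ∈ GK j, tt ρ ∣ χ g - ρ (PowerSeries.C (α g))) (L : Finset ℕ) (hL : ∀ l ∈ L, l.Prime) :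
      Finite (Zr (GK j) (S ∪ c.primeFactors ∪ L) χ P) := by
    obtain ⟨C, hC⟩ := lex _ S _ ga (c.primeFactors ∪ L).card
    rw [Finset.union_assoc]
    refine (hC _ R ρ J χ P le_rfl t (g3_mono g (by
      rw [← Finset.union_assoc]; exact Finset.subset_union_left) fun l hl => ?_) r).1
    rw [← Finset.union_assoc] at hl
    exact (Finset.mem_union.1 hl).elim (g.pr l) (hL l)
  have c3 : ∀ q ∈ c.primeFactors, q % 3 = 1 := fun q hq =>
    let ⟨Q, oQ⟩ := ex_pl (Nat.prime_of_mem_primeFactors hq)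
    (y.ram q Q oQ (Nat.dvd_of_mem_primeFactors hq)).1
  refine ⟨f1, f2, ?_, fun J2 => ?_, fun R' _ ρ' J' t' J0 JM' =>
    b3 ki R' ρ' J' _ t' J0 (gdr K j c M e S y R' ρ' J' t' JM').2.1 fun g _ => tw_res e g⟩
  · rw [pow_add]
    refine Nat.mul_le_mul (a1 _ fun z g => ?_) bd
    rcases J.eq_zero_or_pos with rfl | J0
    · obtain ⟨x, h⟩ := t.sur (tt ρ ^ (B + 2) * z.1.1 g 0)
      exact h ▸ (t.ker x).2 (by simp)
    obtain ⟨q, hq⟩ := Nat.nonempty_primeFactors.2 y.one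
    obtain ⟨Q, oQ⟩ := ex_pl (Nat.prime_of_mem_primeFactors hq)
    have m := Finset.mem_union_right S hq
    have d := du R ρ J t J0 _ W _ ∅ _ _ P γ hγ g2 g1 o (fun l hl Q h => (lo l hl Q h).1)
      (fun g hg => (cj γ hγ g hg).2) w1 w2 w3 (fun w h => ⟨(w4 w h).2.1, (w4 w h).1, (w4 w h).2.2⟩)
      (w5 P o) (by simp) ⟨q, m, by have := c3 q hq; omega, by simp, Q, oQ,
        (lo q m Q oQ).2.2.1 (c3 q hq)⟩ f1 (fin gb g2 fun g _ => tw_res e g)
    rw [Finset.card_empty, mul_zero, pow_zero, one_mul] at d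
    have := a2 B (d.trans bd) _ ((loi R ρ J t _ _ _ P g1 fun l hl l3 Q h =>
      ⟨(lo l hl Q h).1, ((lo l hl Q h).2.2.2 l3).1⟩).1 z) g
    rw [pow_add, mul_assoc]
    exact this
  · obtain ⟨Q, oQ⟩ := ex_pl Nat.prime_two
    have d := du R ρ J t (by omega) _ W _ ((S ∪ c.primeFactors).filter fun p => p % 3 = 1) _ _ P γ hγ
      g1 g2 o (fun l hl Q h => (lo l hl Q h).1) (fun g hg => (cj γ hγ g hg).1) w1 w2 w3 w4 (w5 P o)
      (fun l hl => ⟨(Finset.mem_filter.1 hl).1, (Finset.mem_filter.1 hl).2,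
        fun Q h => (lo l (Finset.mem_filter.1 hl).1 Q h).2.1⟩)
      ⟨2, g1.two, by omega, by simp, Q, oQ, (lo 2 g1.two Q oQ).2.1⟩ f2
      (fin ga g1 fun g _ => ch_res e g)
    have i := (loi R ρ J t _ _ _ P g2 fun l hl l3 Q h =>
      ⟨(lo l hl Q h).1, ((lo l hl Q h).2.2.2 l3).2⟩).2 J2 ki f2
    have dj : Disjoint S c.primeFactors := Finset.disjoint_left.2 fun p hp h =>
      (y.spl p hp).2.1 (Nat.dvd_of_mem_primeFactors h)
    rw [Finset.filter_union, Finset.filter_true_of_mem c3, Finset.card_union_of_disjoint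
      (dj.mono_left (Finset.filter_subset _ _))] at d
    rw [Finset.erase_union_distrib, Finset.erase_eq_of_notMem (s := c.primeFactors)
      (fun h => by have := c3 3 h; omega), Finset.card_union_of_disjoint
      (dj.mono_left (Finset.erase_subset _ _))] at i
    refine (Nat.mul_le_mul_left _ i).trans (le_of_eq_of_le ?_ (Nat.mul_le_mul_left _ d))
    ring

end Vale.Agent.P014Y.Rd
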