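import Vale.Agent.P014Y.Rd.St

/-!
# P014Y, route R: the row `ART` (reciprocity for ring class characters)
-/

set_option autoImplicit false
set_option linter.all false

open NumberField

noncomputable section

namespace Vale.Agent.P014Y.Rd

open Vale.Agent.P022 (Qb GQ GK below)
open Vale.Agent.P004K (Cop Ar Hc RC2)
open Vale.Agent.P022D.W (dec)
open Vale.Agent.P022E.GW (Ov Fb)

theorem art (r2 : RC2) (cub : CUB) : ART := by
  intro K _ _ j iq c r x a I ι _ l m Q φ c0 a0 hx hd hL hQ e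
  obtain ⟨a1, -, a3, -, a5, -, a7⟩ := r2 K j iq (c ^ r) (pow_pos c0 r)
  have cm : ∀ (n : ℕ) (A B : Ideal (𝓞 K)), Cop n A → Cop n B → Cop n (A * B) := fun n A B h h' =>
    ⟨mul_ne_zero h.1 h'.1, Ideal.isCoprime_iff_sup_eq.1
      ((Ideal.isCoprime_iff_sup_eq.2 h.2).mul_left (Ideal.isCoprime_iff_sup_eq.2 h'.2))⟩
  have c1 : ∀ n : ℕ, Cop n (1 : Ideal (𝓞 K)) := fun n => by
    rw [Ideal.one_eq_top]
    exact ⟨top_ne_bot, top_sup_eq _⟩
  have nm : ∀ i k, ((c ^ k : ℕ) : 𝓞 Qb) ∉ Q i := fun i k h => (hQ i).2.2.2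
    ((hQ i).1.1.dvd_of_dvd_pow (n := k) (by
      exact_mod_cast P004S.ov_dvd (hQ i).1 (a := (c ^ k : ℕ)) (by exact_mod_cast h)))
  have n0 : ∀ i, below j (Q i) ≠ ⊥ := fun i z => (hQ i).1.1.ne_zero (by
    simpa [z] using P022.H20.l_mem_below j (hQ i).1.2.2)
  have cb : ∀ i k, Cop (c ^ k) (below j (Q i)) := fun i k => ⟨n0 i, by
    refine ((P022.H20.below_prime j (hQ i).1.2.1).isMaximal (n0 i)).out.2 _
      (lt_of_le_of_ne le_sup_left fun h => nm i k ?_)
    have := h.ge (Ideal.mem_sup_right (Ideal.mem_span_singleton_self _))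
    rwa [P022.H20.mem_below, map_natCast] at this⟩
  obtain ⟨t, b, I', t0, e1, e2⟩ := cub K j iq c r a I _ c0 a0 hd hL e
    (Finset.prod_induction _ _ (cm c) (c1 c) fun i _ => by
      induction m i with
      | zero => rw [pow_zero]; exact c1 c
      | succ n h => rw [pow_succ]; exact cm c _ _ h (pow_one c ▸ cb i 1))
  let T : Ideal (𝓞 K) → ZMod 3 → Prop := fun A v =>
    Cop (c ^ r) A ∧ ∃ g, Ar j (c ^ r) A g ∧ x g = v
  have tm : ∀ A B u v, T A u → T B v → T (A * B) (u + v) := by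
    rintro A B _ _ ⟨h, g, k, rfl⟩ ⟨h', g', k', rfl⟩
    exact ⟨cm _ _ _ h h', _, a3 A B g g' h h' k k', hx.add g k.1 g' k'.1⟩
  have t1 : T 1 0 := by
    obtain ⟨g, k⟩ := a1 1 (c1 _)
    exact ⟨c1 _, g, k, hx.ker g ((a5 _ g (c1 _) k).2 ⟨1, 0, by simp⟩)⟩
  have tp : ∀ A v (n : ℕ), T A v → T (A ^ n) (n * v) := fun A v n h => by
    induction n with
    | zero => simpa using t1
    | succ n k => rw [pow_succ, Nat.cast_succ, add_one_mul]; exact tm _ _ _ _ k h
  have tb : ∀ i, T (below j (Q i)) (x (φ i)) := fun i => by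
    obtain ⟨o, d, f, -⟩ := hQ i
    have g := d (P022D.W.phi_mem o.1 o.2.1 f)
    refine ⟨cb i r, φ i, ?_, rfl⟩
    have := a7 (Q i) o.2.1 (fun z => o.1.ne_zero (by simpa [z] using o.2.2)) (nm i r) _ g 1
      fun y => by rw [pow_one, P022.H20.norm_of_frob_mem iq.two o.1 j o.2.1 o.2.2 f g]; exact f y
    rwa [pow_one] at this
  have ts : ∀ s : Finset ι, T (∏ i ∈ s, below j (Q i) ^ m i) (∑ i ∈ s, (m i : ZMod 3) * x (φ i)) := by
    classical
    intro s
    induction s using Finset.induction_on with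
    | empty => simpa using t1
    | insert i s n k => rw [Finset.prod_insert n, Finset.sum_insert n]; exact tm _ _ _ _ (tp _ _ _ (tb i)) k
  have mI : 1 + (c : 𝓞 K) ^ r * b ∈ I' := (e2.le.trans (Ideal.mul_le_left.trans
    (Ideal.pow_le_self three_ne_zero))) (Ideal.mem_span_singleton_self _)
  have cI : Cop (c ^ r) I' := ⟨fun z => by
      rw [z, Ideal.mem_bot] at mI
      rw [mI] at e1
      exact mul_ne_zero (pow_ne_zero 3 t0) (RingOfIntegers.coe_ne_zero_iff.2 a0) e1.symm,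
    Ideal.isCoprime_iff_sup_eq.1 (Ideal.isCoprime_iff_exists.2 ⟨_, mI, -(c ^ r * b),
      Ideal.mem_span_singleton.2 ⟨-b, by push_cast; ring⟩, by ring⟩)⟩
  obtain ⟨g, k⟩ := a1 I' cI
  obtain ⟨h, s, k', v⟩ := tm _ _ _ _ (tp I' _ 3 ⟨cI, g, k, rfl⟩) (ts Finset.univ)
  rw [hx.ker s ((a5 _ s h k').2 ⟨1, b, by rw [← e2]; push_cast; rfl⟩),
    show ((3 : ℕ) : ZMod 3) = 0 from rfl, zero_mul, zero_add] at v
  exact v.symm

end Vale.Agent.P014Y.Rd
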