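import Vale.Agent.P014Y.Rd.St

/-!
# P014Y, route R: split primes generate the class group
-/

set_option autoImplicit false
set_option linter.all false

open NumberField Module
open scoped nonZeroDivisors

noncomputable section

namespace Vale.Agent.P014Y.Rd

open Vale.Agent.P022 (Qb GQ GK below)
open P022.H20 hiding Qb
open P004K
open Vale.Agent.P022D.W (dec)
open Vale.Agent.P022E.GW (Ov Fb)

namespace Bx

variable {K : Type} [Field K] [NumberField K] {j : K →+* Qb} {l : ℕ} {P : Ideal (𝓞 Qb)}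

theorem fb_dec (o : Ov l P) {φ : GQ} (f : Fb l P φ) : φ ∈ dec P := fun x =>
  ⟨fun h => o.2.1.mem_of_pow_mem l (by simpa using P.sub_mem h (f x)), fun h => by
    simpa using P.add_mem (f x) (P.pow_mem_of_mem h l o.1.pos)⟩

theorem nm (hK : finrank ℚ K = 2) (o : Ov l P) (d : dec P ≤ GK j) :
    Ideal.absNorm (below j P) = l :=
  let ⟨_, f⟩ := P022D.W.exists_phi o.1 o.2.1 o.2.2
  norm_of_frob_mem hK o.1 j o.2.1 o.2.2 f (d (fb_dec o f))

theorem ne (j : K →+* Qb) (o : Ov l P) : below j P ≠ ⊥ := ne_bot_of_mem o.1 (l_mem_below j o.2.2)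

theorem above (j : K →+* Qb) {v : Ideal (𝓞 K)} (hv : v.IsPrime) (h0 : v ≠ ⊥) :
    ∃ l P, Ov l P ∧ below j P = v := by
  letI : Algebra K Qb := j.toAlgebra
  letI : Algebra (𝓞 K) (𝓞 Qb) := (RingOfIntegers.mapRingHom j).toAlgebra
  haveI : Algebra.IsIntegral (𝓞 K) (𝓞 Qb) := ⟨fun x => IsIntegral.tower_top (R := ℤ)
    (RingOfIntegers.isIntegral x)⟩
  obtain ⟨P, hP, h⟩ := Ideal.exists_ideal_over_prime_of_isIntegral_of_isDomain (S := 𝓞 Qb) v (by
    rw [(RingHom.injective_iff_ker_eq_bot _).1 fun a b e => RingOfIntegers.ext (j.injective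
      (congrArg (fun z : 𝓞 Qb => (z : Qb)) e))]
    exact bot_le)
  have := hv.isMaximal h0
  obtain ⟨l, -, -, m, hl, -⟩ := Ideal.exists_prime_and_absNorm_eq_pow v
  refine ⟨l, P, ⟨hl, hP, ?_⟩, h⟩
  rw [← h] at m
  simpa using m

/-- a prime outside the discriminant is principal or split -/
theorem dich (hK : finrank ℚ K = 2) (o : Ov l P) (hD : ¬ (l : ℤ) ∣ discr K) :
    below j P = Ideal.span {(l : 𝓞 K)} ∨ dec P ≤ GK j := by
  rcases norm_or_span hK o.1 (below_prime j o.2.1) (l_mem_below j o.2.2) with h | h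
  · refine Or.inr fun g hg => by_contra fun k => below_ne hK o.1 hD
      (fun e => k (mem_GK.2 e.symm)) o.2.1 o.2.2 h (Ideal.ext fun x => ?_)
    rw [mem_below, mem_below, ← smul_map, hg]
  · exact Or.inl h

open Classical in
/-- the class -/
def cl (I : Ideal (𝓞 K)) : ClassGroup (𝓞 K) :=
  if h : I ≠ ⊥ then ClassGroup.mk0 ⟨I, mem_nonZeroDivisors_of_ne_zero h⟩ else 1

theorem cl_mul {I J : Ideal (𝓞 K)} (h : I ≠ ⊥) (k : J ≠ ⊥) : cl (I * J) = cl I * cl J := by
  rw [cl, cl, cl, dif_pos h, dif_pos k, dif_pos (show I * J ≠ ⊥ from mul_ne_zero h k),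
    ← map_mul]
  rfl

theorem cl_one {I : Ideal (𝓞 K)} (h : I ≠ ⊥) : cl I = 1 ↔ ∃ β, I = Ideal.span {β} := by
  rw [cl, dif_pos h, ClassGroup.mk0_eq_one_iff]
  exact ⟨fun k => k.1, fun k => ⟨k⟩⟩

theorem cl_sp (a : 𝓞 K) : cl (Ideal.span {a}) = 1 := by
  by_cases h : Ideal.span {a} = ⊥
  · rw [cl, dif_neg (not_not.2 h)]
  · exact (cl_one h).2 ⟨a, rfl⟩

theorem cl_pow {I : Ideal (𝓞 K)} (h : I ≠ ⊥) (n : ℕ) : cl (I ^ n) = cl I ^ n := by
  induction n with
  | zero => rw [pow_zero, pow_zero, Ideal.one_eq_top, ← Ideal.span_singleton_one, cl_sp]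
  | succ n ih => rw [pow_succ, pow_succ, cl_mul (pow_ne_zero _ h) h, ih]

theorem cl_prod (B : Finset ℕ) (p : ℕ → Ideal (𝓞 K)) (h : ∀ b ∈ B, p b ≠ ⊥) :
    cl (∏ b ∈ B, p b) = ∏ b ∈ B, cl (p b) := by
  induction B using Finset.induction_on with
  | empty => rw [Finset.prod_empty, Finset.prod_empty, Ideal.one_eq_top,
      ← Ideal.span_singleton_one, cl_sp]
  | insert a s ha ih =>
    have k := fun b hb => h b (Finset.mem_insert_of_mem hb)
    rw [Finset.prod_insert ha, Finset.prod_insert ha, cl_mul (h a (Finset.mem_insert_self _ _))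
      (Finset.prod_ne_zero_iff.2 k), ih k]

/-- representatives which are prime to `D` -/
theorem rep {D : ℤ} (hD : D ≠ 0) (c : ClassGroup (𝓞 K)) : ∃ J : Ideal (𝓞 K), J ≠ ⊥ ∧ cl J = c ∧
    J ⊔ Ideal.span {(D : 𝓞 K)} = ⊤ := by
  obtain ⟨⟨I, hI⟩, e⟩ := ClassGroup.mk0_surjective c⁻¹
  have h0 : I ≠ ⊥ := nonZeroDivisors.ne_zero hI
  have d0 : Ideal.span {((2 * D : ℤ) : 𝓞 K)} ≠ ⊥ := by
    rw [Ne, Ideal.span_singleton_eq_bot, Int.cast_eq_zero]; omega
  obtain ⟨a, ha⟩ := IsDedekindDomain.exists_sup_span_eq Ideal.mul_le_left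
    (mul_ne_zero h0 d0)
  obtain ⟨J, hJ⟩ := Ideal.dvd_iff_le.2 (le_sup_right.trans ha.le)
  rw [hJ, ← Ideal.mul_sup] at ha
  have t := mul_left_cancel₀ h0 (ha.trans (Ideal.mul_top I).symm)
  have j0 : J ≠ ⊥ := by
    rintro rfl
    rw [sup_bot_eq, Ideal.span_singleton_eq_top] at t
    have := (isUnit_of_mul_isUnit_left (by simpa using t : IsUnit ((2 : 𝓞 K) * D))).map
      (Algebra.norm ℤ)
    rw [show (2 : 𝓞 K) = algebraMap ℤ _ 2 by simp, Algebra.norm_algebraMap, isUnit_pow_iff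
      finrank_pos.ne'] at this
    exact absurd (Int.isUnit_iff.1 this) (by decide)
  refine ⟨J, j0, ?_, top_le_iff.1 (t.ge.trans ?_)⟩
  · have := cl_sp a
    rw [hJ, cl_mul h0 j0, cl, dif_pos h0, e] at this
    exact (inv_mul_eq_one.1 this).symm
  · rw [sup_comm]
    exact sup_le_sup_left (Ideal.span_singleton_le_span_singleton.2 (by simp)) _

end Bx

open Bx in
theorem bsx : BSX := by
  classical
  intro K _ _ j q S P h3 hS
  choose J j0 jc jd using rep (K := K) (discr_ne_zero K)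
  let n := ∏ c, Ideal.absNorm (J c)
  have n0 : n ≠ 0 := Finset.prod_ne_zero_iff.2 fun c _ => mt Ideal.absNorm_eq_zero_iff.1 (j0 c)
  let E : ℕ → Prop := fun l => ∃ Q, Ov l Q ∧ dec Q ≤ GK j
  let B := S ∪ n.primeFactors.filter E
  let P' : ℕ → Ideal (𝓞 Qb) := fun l => if l ∈ S then P l else if h : E l then h.choose else ⊥
  have ov : ∀ b ∈ B, Ov b (P' b) ∧ dec (P' b) ≤ GK j := fun b hb => by
    by_cases k : b ∈ S
    · simpa only [P', if_pos k] using hS b k
    · have e := (Finset.mem_filter.1 ((Finset.mem_union.1 hb).resolve_left k)).2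
      simpa only [P', if_neg k, dif_pos e] using e.choose_spec
  let H : Subgroup (ClassGroup (𝓞 K)) :=
    { carrier := {c | ∃ μ : ℕ → ℕ, c = ∏ b ∈ B, cl (below j (P' b)) ^ μ b}
      one_mem' := ⟨0, by simp⟩
      mul_mem' := by
        rintro _ _ ⟨μ, rfl⟩ ⟨ν, rfl⟩
        exact ⟨μ + ν, by simp only [Pi.add_apply, pow_add, Finset.prod_mul_distrib]⟩
      inv_mem' := by
        rintro _ ⟨μ, rfl⟩
        refine ⟨fun b => μ b * (Nat.card (ClassGroup (𝓞 K)) - 1), ?_⟩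
        simp only [pow_mul, Finset.prod_pow]
        rw [inv_eq_iff_mul_eq_one, mul_pow_sub_one Nat.card_pos.ne', pow_card_eq_one'] }
  have hb : ∀ b ∈ B, cl (below j (P' b)) ∈ H := fun b hb => ⟨Pi.single b 1, by
    rw [Finset.prod_eq_single_of_mem b hb fun c _ k => by simp [k]]
    simp⟩
  have pr : ∀ c (v : Ideal (𝓞 K)), Prime v → v ∣ J c → cl v ∈ H := fun c v hv d => by
    obtain ⟨l, Q, o, rfl⟩ := above j (Ideal.isPrime_of_prime hv) hv.ne_zero
    have m := l_mem_below j o.2.2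
    have hD : ¬ (l : ℤ) ∣ discr K := fun ⟨k, e⟩ => (below_prime j o.2.1).ne_top <| by
      rw [eq_top_iff, ← jd c, sup_le_iff, Ideal.span_singleton_le_iff_mem, e]
      exact ⟨Ideal.le_of_dvd d, by simpa using Ideal.mul_mem_right _ _ m⟩
    rcases dich (j := j) q.two o hD with e | e
    · rw [e, cl_sp]; exact H.one_mem
    · have a := nm q.two o e
      have lb : l ∈ B := Finset.mem_union_right _ (Finset.mem_filter.2
        ⟨Nat.mem_primeFactors.2 ⟨o.1, (a ▸ map_dvd Ideal.absNorm d).trans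
          (Finset.dvd_prod_of_mem _ (Finset.mem_univ c)), n0⟩, Q, o, e⟩)
      by_cases k : below j Q = below j (P' l)
      · rw [k]; exact hb l lb
      · have := cl_sp (l : 𝓞 K)
        rw [← mul_eq_span q.two o.1 a (nm q.two (ov l lb).1 (ov l lb).2) k,
          cl_mul (ne j o) (ne j (ov l lb).1)] at this
        rw [eq_inv_of_mul_eq_one_left this]
        exact H.inv_mem (hb l lb)
  have al : ∀ c (I : Ideal (𝓞 K)), I ∣ J c → cl I ∈ H := fun c I => by
    induction I using UniqueFactorizationMonoid.induction_on_prime with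
    | h₁ => exact fun d => absurd (zero_dvd_iff.1 d) (j0 c)
    | h₂ x u => intro; rw [Ideal.isUnit_iff.1 u, ← Ideal.span_singleton_one, cl_sp]; exact H.one_mem
    | h₃ a p a0 hp ih =>
      intro d
      rw [cl_mul hp.ne_zero a0]
      exact H.mul_mem (pr c p hp (dvd_of_mul_right_dvd d)) (ih (dvd_of_mul_left_dvd d))
  refine ⟨B, P', Finset.subset_union_left, fun p hp => if_pos hp,
    Finset.mem_union_left _ h3, ov, fun I h0 => ?_⟩
  obtain ⟨μ, e⟩ := al (cl I)⁻¹ _ dvd_rfl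
  have z := fun b hb => pow_ne_zero (μ b) (ne j (ov b hb).1)
  refine ⟨μ, (cl_one (mul_ne_zero h0 (Finset.prod_ne_zero_iff.2 z))).1 ?_⟩
  rw [cl_mul h0 (Finset.prod_ne_zero_iff.2 z), cl_prod _ _ z,
    Finset.prod_congr rfl fun b hb => cl_pow (ne j (ov b hb).1) _, ← e, jc, mul_inv_cancel]

end Vale.Agent.P014Y.Rd
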