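import Vale.Agent.P014Y.Rd.St
import Vale.Agent.P004K.Rc.R3

/-!
# P014Y, route R: the rank of the class group of conductor nine (row CLS)
-/

set_option autoImplicit false
set_option linter.all false

open NumberField Module

noncomputable section

namespace Vale.Agent.P014Y.Rd

open Vale.Agent.P022 (Qb GQ GK)
open P004K P004K.Rc

namespace Cls

/-- a finite abelian group with a nonzero element of order three -/
theorem ab {A : Type} [AddCommGroup A] [Finite A] {g₀ : A} (h0 : g₀ ≠ 0) (h3 : 3 • g₀ = 0) :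
    ∃ (d : ℕ) (x : A →+ (Fin (d + 1) → ZMod 3)) (h : Fin d → A), Function.Surjective x ∧
      (∀ i, 3 • h i = 0) ∧ ∀ g, 3 • g = 0 →
        ∃ (n : ℕ) (m : Fin d → ℕ), g + n • g₀ + ∑ i, m i • h i = 0 := by
  have : Fact (Nat.Prime 3) := ⟨Nat.prime_three⟩
  let f : A →+ A := nsmulAddMonoidHom 3
  letI : Module (ZMod 3) f.ker := AddCommGroup.zmodModule fun a => Subtype.ext a.2
  letI : Module (ZMod 3) (A ⧸ f.range) := AddCommGroup.zmodModule fun a => by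
    obtain ⟨a, rfl⟩ := QuotientAddGroup.mk_surjective a
    exact (QuotientAddGroup.eq_zero_iff (3 • a)).2 ⟨a, rfl⟩
  have e1 : Nat.card (A ⧸ f.range) = Nat.card f.ker := AddSubgroup.index_range
  rw [natCard_eq_pow_finrank (K := ZMod 3), natCard_eq_pow_finrank (K := ZMod 3) (V := f.ker),
    Nat.card_zmod] at e1
  have e2 := Nat.pow_right_injective (by norm_num) e1
  let v : f.ker := ⟨g₀, h3⟩
  have e3 := (Submodule.span (ZMod 3) {v}).finrank_quotient_add_finrank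
  rw [finrank_span_singleton (fun k : v = 0 => h0 (congrArg Subtype.val k)), ← e2] at e3
  let b := finBasis (ZMod 3) (f.ker ⧸ Submodule.span (ZMod 3) {v})
  choose h hh using fun i => (Submodule.span (ZMod 3) {v}).mkQ_surjective (b i)
  let c := (finBasisOfFinrankEq (ZMod 3) _ e3.symm).equivFun
  refine ⟨_, c.toAddMonoidHom.comp (QuotientAddGroup.mk' _), fun i => h i,
    c.surjective.comp QuotientAddGroup.mk_surjective, fun i => (h i).2, fun g hg => ?_⟩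
  let w : f.ker := ⟨g, hg⟩
  let m := b.repr ((Submodule.span (ZMod 3) {v}).mkQ (-w))
  have e4 : -w - ∑ i, m i • h i ∈ Submodule.span (ZMod 3) {v} := by
    refine (Submodule.ker_mkQ _).le (LinearMap.mem_ker.2 ?_)
    rw [map_sub, map_sum, sub_eq_zero]
    simp only [map_smul, hh]
    exact (b.sum_repr _).symm
  obtain ⟨n, e5⟩ := Submodule.mem_span_singleton.1 e4
  have k : ∀ (z : ZMod 3) (u : f.ker), z • u = z.val • u := fun z u => by
    rw [← Nat.cast_smul_eq_nsmul (ZMod 3), ZMod.natCast_zmod_val]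
  have e6 : w + n.val • v + ∑ i, (m i).val • h i = 0 := by
    simp only [← k]
    rw [e5]
    abel
  exact ⟨n.val, fun i => (m i).val, by simpa using congrArg Subtype.val e6⟩

/-- the quotient as an additive group -/
theorem grp {G : Type} [Group G] (Γ N : Subgroup G)
    (hc : ∀ g ∈ Γ, ∀ h ∈ Γ, g * h * g⁻¹ * h⁻¹ ∈ N) [Finite (Γ ⧸ N.subgroupOf Γ)] :
    ∃ (A : Type) (_ : AddCommGroup A) (_ : Finite A) (π : G → A),
      (∀ g ∈ Γ, ∀ h ∈ Γ, π (g * h) = π g + π h) ∧ (∀ g ∈ Γ, π g = 0 ↔ g ∈ N) ∧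
      ∀ a, ∃ g ∈ Γ, π g = a := by
  classical
  have h : ∀ a b : Γ, a * b * a⁻¹ * b⁻¹ ∈ N.subgroupOf Γ := fun a b => hc a a.2 b b.2
  have : (N.subgroupOf Γ).Normal := ⟨fun a ha b => by simpa using mul_mem (h b a) ha⟩
  letI : CommGroup (Γ ⧸ N.subgroupOf Γ) := { QuotientGroup.Quotient.group (N.subgroupOf Γ) with
    mul_comm := fun a b => by
      obtain ⟨a, rfl⟩ := QuotientGroup.mk_surjective a
      obtain ⟨b, rfl⟩ := QuotientGroup.mk_surjective b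
      exact QuotientGroup.eq.2 (by simpa [mul_assoc] using h b⁻¹ a⁻¹) }
  refine ⟨Additive (Γ ⧸ N.subgroupOf Γ), inferInstance, inferInstance,
    fun g => if k : g ∈ Γ then Additive.ofMul (QuotientGroup.mk ⟨g, k⟩) else 0,
    fun g hg h hh => ?_, fun g hg => ?_, fun a => ?_⟩
  · simp only [dif_pos hg, dif_pos hh, dif_pos (mul_mem hg hh)]
    rfl
  · simp only [dif_pos hg]
    exact QuotientGroup.eq_one_iff (N := N.subgroupOf Γ) ⟨g, hg⟩
  · obtain ⟨g, e⟩ := QuotientGroup.mk_surjective a.toMul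
    exact ⟨g, g.2, by simp only [dif_pos g.2]; exact congrArg Additive.ofMul e⟩

/-- the Artin map as a relation -/
theorem art (h1 : RC1) (h2 : RC2) {K : Type} [Field K] [NumberField K] (j : K →+* Qb) (hK : Iq K)
    {c : ℕ} (hc : 0 < c) : ∃ (A : Type) (_ : AddCommGroup A) (_ : Finite A) (π : GQ → A)
      (T : Ideal (𝓞 K) → A → Prop), (∀ g ∈ GK j, ∀ h ∈ GK j, π (g * h) = π g + π h) ∧
      (∀ g ∈ Hc j c, π g = 0) ∧ (∀ a, ∃ g ∈ GK j, π g = a) ∧ (∀ I, Cop c I → ∃ a, T I a) ∧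
      (∀ a, ∃ I, T I a) ∧ (∀ I I' a a', T I a → T I' a' → T (I * I') (a + a')) ∧
      (∀ I a n, T I a → T (I ^ n) (n • a)) ∧
      (∀ (d : ℕ) (I : Fin d → Ideal (𝓞 K)) (a : Fin d → A), (∀ i, T (I i) (a i)) →
        T (∏ i, I i) (∑ i, a i)) ∧
      ∀ I a, T I a → I ≠ ⊥ ∧ (a = 0 ↔ ∃ x, Rc c x ∧ I = Ideal.span {x}) := by
  obtain ⟨-, op, -, cm, -⟩ := h1 K j hK c hc
  obtain ⟨r1, r2, r3, -, r5, -⟩ := h2 K j hK c hc
  have := Subgroup.quotient_finite_of_isOpen ((Hc j c).subgroupOf (GK j))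
    (op.preimage continuous_subtype_val)
  obtain ⟨A, _, _, π, p1, p2, p3⟩ := grp (GK j) (Hc j c) cm
  let T : Ideal (𝓞 K) → A → Prop := fun I a => Cop c I ∧ ∃ g, Ar j c I g ∧ π g = a
  have t1 : ∀ I I' a a', T I a → T I' a' → T (I * I') (a + a') := by
    rintro I I' _ _ ⟨k, g, e, rfl⟩ ⟨k', g', e', rfl⟩
    exact ⟨cop_mul k k', g * g', r3 I I' g g' k k' e e', p1 g e.1 g' e'.1⟩
  have t2 : ∀ I a, T I a → I ≠ ⊥ ∧ (a = 0 ↔ ∃ x, Rc c x ∧ I = Ideal.span {x}) := by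
    rintro I _ ⟨k, g, e, rfl⟩
    refine ⟨k.1, ((p2 g e.1).trans (r5 I g k e)).trans ⟨?_, ?_⟩⟩
    · rintro ⟨n, a, e⟩
      exact ⟨_, ⟨n, a, rfl⟩, e⟩
    · rintro ⟨_, ⟨n, a, rfl⟩, e⟩
      exact ⟨n, a, e⟩
  have t3 : ∀ I, Cop c I → ∃ a, T I a := fun I k => let ⟨g, e⟩ := r1 I k; ⟨_, k, g, e, rfl⟩
  have t0 : T 1 0 := by
    obtain ⟨a, e⟩ := t3 ⊤ cop_top
    rw [((t2 _ _ e).2).2 ⟨1, by simpa using Rc.int (O := 𝓞 K) c 1, by simp⟩] at e
    rwa [Ideal.one_eq_top]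
  refine ⟨A, inferInstance, inferInstance, π, T, p1, fun g hg => (p2 g hg.1).2 hg, p3, t3,
    fun a => ?_, t1, fun I a n e => ?_, fun d I a e => ?_, t2⟩
  · obtain ⟨g, hg, rfl⟩ := p3 a
    obtain ⟨I, k, e⟩ := r2 g hg 1 one_pos
    exact ⟨I, cop_dvd k, g, e, rfl⟩
  · induction n with
    | zero => simpa only [pow_zero, zero_nsmul] using t0
    | succ n ih => simpa only [pow_succ, succ_nsmul] using t1 _ _ _ _ ih e
  · induction d with
    | zero => simpa only [Finset.univ_eq_empty, Finset.prod_empty, Finset.sum_empty] using t0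
    | succ d ih =>
      rw [Fin.prod_univ_succ, Fin.sum_univ_succ]
      exact t1 _ _ _ _ (e 0) (ih _ _ fun i => e i.succ)

end Cls

theorem cls (h1 : RC1) (h2 : RC2) (cub : CUB) : CLS := fun K _ _ j kd => by
  obtain ⟨A, _, _, π, T, p1, p2, p3, t1, t2, t3, t4, t5, t6⟩ :=
    Cls.art h1 h2 j kd.iq (c := 9) (by norm_num)
  obtain ⟨ω, s, q⟩ := qd j kd.iq
  have w0 : (1 + 3 * ω : 𝓞 K) ≠ 0 := fun e =>
    one_ne_zero (q.ext (u := 1) (v := 3) (u' := 0) (v' := 0) (by simpa using e)).1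
  obtain ⟨g₀, e0⟩ := t1 (Ideal.span {1 + 3 * ω}) (cop_of (mt Ideal.span_singleton_eq_bot.1 w0)
    (Ideal.mul_mem_right (1 - 3 * ω) _ (Ideal.mem_span_singleton_self _)) (b := ω ^ 2)
    (by push_cast; ring))
  have n0 : g₀ ≠ 0 := fun e => by
    obtain ⟨x, hx, e1⟩ := (t6 _ _ e0).2.1 e
    have := (q.rc_iff (c := 9) (u := 1) (v := 3)).1 (by simpa using rc_span kd.upm e1 hx)
    omega
  have n3 : 3 • g₀ = 0 := (t6 _ _ (t4 _ _ 3 e0)).2.2 ⟨_, ⟨1, ω + 3 * ω ^ 2 + 3 * ω ^ 3, by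
    push_cast; ring⟩, Ideal.span_singleton_pow _ _⟩
  obtain ⟨d, x, h, x1, h3, sp⟩ := Cls.ab n0 n3
  choose I hI using fun i => t2 (h i)
  choose a ha using fun i => (t6 _ _ (t4 _ _ 3 (hI i))).2.1 (h3 i)
  refine ⟨d, fun i g => x (π g) i, a, fun i => ⟨fun g hg g' hg' => ?_, fun g hg => ?_⟩,
    fun u => ?_, fun i => ⟨fun e => ?_, I i, (ha i).2.symm⟩, ?_⟩
  · simp only [p1 g hg g' hg', map_add, Pi.add_apply]
  · simp only [p2 g hg, map_zero, Pi.zero_apply]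
  · obtain ⟨y, rfl⟩ := x1 u
    obtain ⟨g, hg, rfl⟩ := p3 y
    exact ⟨g, hg, fun _ => rfl⟩
  · exact (t6 _ _ (t4 _ _ 3 (hI i))).1 (by rw [(ha i).2, e, Ideal.span_singleton_eq_bot])
  rintro b ⟨b0, ⟨J, hJ⟩, lc⟩
  obtain ⟨t, b', J', t0, e1, e2⟩ := cub K j kd.iq 3 2 b J ⊤ (by norm_num) b0
    (fun l P o k => by
      obtain rfl := (Nat.prime_dvd_prime_iff_eq o.1 Nat.prime_three).1 k
      exact kd.spl P o) lc (by rw [hJ, Ideal.mul_top]) cop_top
  rw [Ideal.mul_top] at e2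
  have u0 : (1 + (3 : ℕ) ^ 2 * b' : 𝓞 K) ≠ 0 := fun e => by
    rw [e] at e1
    exact mul_ne_zero (pow_ne_zero 3 t0) (by exact_mod_cast b0) e1.symm
  obtain ⟨g, eg⟩ := t1 J' (cop_of
    (fun e => u0 (Ideal.span_singleton_eq_bot.1 (by rw [e2, e]; simp)))
    (Ideal.pow_le_self three_ne_zero (e2 ▸ Ideal.mem_span_singleton_self _)) (b := -b')
    (by push_cast; ring))
  obtain ⟨n, m, e3⟩ := sp g ((t6 _ _ (t4 _ _ 3 eg)).2.2 ⟨_, ⟨1, b', by push_cast; ring⟩, e2.symm⟩)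
  obtain ⟨β, -, e4⟩ := (t6 _ _ (t3 _ _ _ _ (t3 _ _ _ _ eg (t4 _ _ n e0))
    (t5 d _ _ fun i => t4 _ _ (m i) (hI i)))).2.1 e3
  have e5 : Ideal.span {(1 + (3 : ℕ) ^ 2 * b') * ((1 + 3 * ω) ^ n) ^ 3 * ∏ i, a i ^ m i} =
      Ideal.span {β ^ 3} := by
    rw [← Ideal.span_singleton_pow β, ← e4, ← Ideal.span_singleton_mul_span_singleton,
      ← Ideal.span_singleton_mul_span_singleton, ← Ideal.prod_span_singleton, e2, mul_pow, mul_pow,
      ← Finset.prod_pow]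
    simp only [← Ideal.span_singleton_pow, ← (ha _).2, ← pow_mul, mul_comm]
  obtain ⟨u, e6⟩ := Ideal.span_singleton_eq_span_singleton.1 e5
  have e7 := congrArg (algebraMap (𝓞 K) K) e6
  have w1 : (algebraMap (𝓞 K) K (1 + 3 * ω)) ^ n ≠ 0 :=
    pow_ne_zero _ ((map_ne_zero_iff _ RingOfIntegers.coe_injective).2 w0)
  rw [map_mul, map_mul, map_mul, map_pow, map_pow, map_pow, map_prod] at e7
  simp only [map_pow] at e7
  have e8 : algebraMap (𝓞 K) K (1 + (3 : ℕ) ^ 2 * b') = t ^ 3 * b := e1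
  rw [e8] at e7
  refine ⟨m, algebraMap (𝓞 K) K u * algebraMap (𝓞 K) K β /
    (t * (algebraMap (𝓞 K) K (1 + 3 * ω)) ^ n), ?_⟩
  rw [div_pow, eq_div_iff (pow_ne_zero _ (mul_ne_zero t0 w1)), mul_pow, mul_pow, ← e7]
  rcases kd.upm u with rfl | rfl <;> simp <;> ring

end Vale.Agent.P014Y.Rd
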