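import Vale.Agent.P014Y.Rd.St
import Vale.Agent.P004R.Cnf

/-!
# P014Y, route R: the index formula for the elliptic units
-/

set_option autoImplicit false
set_option linter.all false

open ZMod Finset UpperHalfPlane NumberField Filter Topology
open NumberField.Units (torsion torsionOrder regulator)
open scoped Real

noncomputable section

namespace Vale.Agent.P014Y.Rd

open Vale.Agent.P022 (Qb GQ GK)
open P027H P027M.M P004K
open Vale.Agent.P022K.G2 (Tv Nz)
open P004R.Cf (SS Iv Dt ze_st lim res ex_T)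

namespace Cf

theorem prod_Fa {β : Type} [CommMonoid β] (f : ℕ → β) (M : ℕ) :
    ∏ k ∈ Fa M, f k = ∏ i ∈ range M, (f (3 * i + 1) * f (3 * i + 2)) := by
  rw [Fa, prod_filter]
  induction M with
  | zero => rfl
  | succ n ih =>
    rw [show 3 * (n + 1) = 3 * n + 1 + 1 + 1 by ring, prod_range_succ, prod_range_succ,
      prod_range_succ, ih, prod_range_succ, if_neg (by omega), if_pos (by omega), if_pos (by omega),
      mul_one, mul_assoc]

theorem prod_cst {β : Type} [CommMonoid β] (x : β) (M : ℕ) : ∏ _k ∈ Fa M, x = x ^ (2 * M) := by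
  rw [prod_Fa, prod_const, card_range, ← pow_two, ← pow_mul]

theorem prod_fa {M : ℕ} [NeZero (3 * M)] (f : ZMod (3 * M) → ℝ) : ∏ k ∈ Fa M, f k =
    ∏ a ∈ univ.filter fun a => castHom (dvd_mul_right 3 M) (ZMod 3) a ≠ 0, f a := by
  refine prod_bij' (fun k _ => (k : ZMod (3 * M))) (fun a _ => a.val) (fun k hk => ?_)
    (fun a ha => ?_) (fun k hk => ?_) (fun a _ => natCast_zmod_val a) fun _ _ => rfl
  · rw [mem_filter, map_natCast]
    exact ⟨mem_univ _, fun z => (mem_filter.1 hk).2 ((natCast_eq_zero_iff _ _).1 z)⟩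
  · rw [mem_filter, ← natCast_zmod_val a, map_natCast] at ha
    exact mem_filter.2 ⟨mem_range.2 a.val_lt, fun z => ha.2 ((natCast_eq_zero_iff _ _).2 z)⟩
  · exact val_cast_of_lt (mem_range.1 (mem_filter.1 hk).1)

theorem prod_unit {M : ℕ} [NeZero (3 * M)] (f : ZMod (3 * M) → ℝ) (η : (ZMod (3 * M))ˣ) :
    ∏ k ∈ Fa M, f (k * η) = ∏ k ∈ Fa M, f k := by
  rw [prod_fa f, prod_fa fun a : ZMod (3 * M) => f (a * η)]
  refine prod_equiv η.mulRight (fun a => ?_) fun _ _ => rfl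
  simp only [mem_filter, Units.mulRight_apply, map_mul, mem_univ, true_and, ne_eq,
    (η.isUnit.map (castHom (dvd_mul_right 3 M) (ZMod 3))).mul_left_eq_zero]

theorem prod_one_sub {M : ℕ} [NeZero (3 * M)] :
    ∏ k ∈ Fa M, ‖1 - stdAddChar (-(k : ZMod (3 * M)))‖ = 3 := by
  have M0 : 0 < M := Nat.pos_of_mul_pos_left (NeZero.pos (3 * M))
  have h := (Complex.isPrimitiveRoot_exp (3 * M) (by omega)).inv
  set ζ := (Complex.exp (2 * π * Complex.I / (3 * M : ℕ)))⁻¹ with hζ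
  have a : ∀ k : ℕ, stdAddChar (-(k : ZMod (3 * M))) = ζ ^ k := fun k => by
    rw [← Int.cast_natCast, ← Int.cast_neg, stdAddChar_coe, hζ, inv_pow, ← Complex.exp_nat_mul,
      ← Complex.exp_neg]
    congr 1
    push_cast
    ring
  have k : ∀ r : ℕ, ∏ i ∈ range M, (1 - ζ ^ (3 * i + r)) = 1 - (ζ ^ M) ^ r := fun r => by
    have := congrArg (Polynomial.eval 1) (X_pow_sub_C_eq_prod (h.pow (by omega) rfl) M0
      (show (ζ ^ r) ^ M = (ζ ^ M) ^ r from pow_right_comm _ _ _))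
    simp only [Polynomial.eval_prod, Polynomial.eval_sub, Polynomial.eval_pow,
      Polynomial.eval_X, Polynomial.eval_C, one_pow] at this
    rw [this]
    exact prod_congr rfl fun i _ => by rw [pow_add, pow_mul]
  have t := (h.pow (by omega) (mul_comm _ _)).geom_sum_eq_zero (by decide : 1 < 3)
  have u := (h.pow (by omega) (mul_comm _ _)).pow_eq_one
  simp only [sum_range_succ, sum_range_zero] at t
  simp only [a]
  rw [← norm_prod, prod_Fa (fun k => 1 - ζ ^ k), prod_mul_distrib, k, k,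
    show (1 - (ζ ^ M) ^ 1) * (1 - (ζ ^ M) ^ 2) = 3 by linear_combination u - t]
  simp

theorem val3 {x h a o n : ℕ} (h0 : h ≠ 0) (ha : ¬ 3 ∣ a) (ho : ¬ 3 ∣ o)
    (e : x ^ 2 * a = (h * 3 ^ n) ^ 2 * o) : x ≠ 0 ∧ padicValNat 3 x = padicValNat 3 h + n := by
  have o0 : o ≠ 0 := fun z => ho (z ▸ dvd_zero 3)
  have a0 : a ≠ 0 := fun z => ha (z ▸ dvd_zero 3)
  have x0 : x ≠ 0 := by
    rintro rfl
    exact absurd e (by rw [zero_pow two_ne_zero, zero_mul]; positivity)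
  have k := congrArg (padicValNat 3) e
  rw [padicValNat.mul (by positivity) a0, padicValNat.mul (by positivity) o0,
    padicValNat.pow, padicValNat.pow, padicValNat.mul h0 (by positivity),
    padicValNat.prime_pow, padicValNat.eq_zero_of_not_dvd ha,
    padicValNat.eq_zero_of_not_dvd ho] at k
  exact ⟨x0, by omega⟩

theorem arith {x h h' c M : ℕ} {a b D : ℤ} {R R' r r' P : ℝ} (h0 : R ≠ 0) (hc : 0 < c) (hD : D ≠ 0)
    (e3 : 3 * x * R = R' * (3 ^ 2 * P))
    (e4 : r = r' * ((π / (12 * (c * √|(D : ℝ)| / 2))) ^ (2 * M) * P))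
    (e5 : r * (2 * √|(a : ℝ)|) = (2 * π) ^ (3 * M) * R * h)
    (e6 : r' * (2 * √|(b : ℝ)|) = (2 * π) ^ M * R' * h') :
    (x * h') ^ 2 * a.natAbs =
      (h * 3 ^ (2 * M + 1)) ^ 2 * (((4 * c) ^ 2 * D.natAbs) ^ (2 * M) * b.natAbs) := by
  have k : ∀ n : ℤ, (n.natAbs : ℝ) = √|(n : ℝ)| ^ 2 := fun n => by
    rw [Real.sq_sqrt (abs_nonneg _), Nat.cast_natAbs, Int.cast_abs]
  have n : 0 < √|(D : ℝ)| := Real.sqrt_pos.2 (abs_pos.2 (Int.cast_ne_zero.2 hD))
  have e : r * (3 ^ (2 * M) * (4 * c * √|(D : ℝ)|) ^ (2 * M)) = r' * ((2 * π) ^ M) ^ 2 * P := by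
    rw [e4, ← pow_mul, mul_comm M 2, ← mul_pow, show π / (12 * (c * √|(D : ℝ)| / 2)) =
      2 * π / (3 * (4 * c * √|(D : ℝ)|)) by field_simp; norm_num, div_pow]
    field_simp
  have f : x * h' * √|(a : ℝ)| =
      h * (3 * 3 ^ (2 * M)) * ((4 * c * √|(D : ℝ)|) ^ (2 * M) * √|(b : ℝ)|) := by
    refine mul_left_cancel₀ (show 3 * R * ((2 * π) ^ M) ^ 3 ≠ 0 by positivity) ?_
    rw [mul_comm 3 M, pow_mul] at e5
    generalize (4 * c * √|(D : ℝ)|) ^ (2 * M) = Z, (2 * π) ^ M = Y, (3 : ℝ) ^ (2 * M) = X,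
      √|(a : ℝ)| = a, √|(b : ℝ)| = b at *
    linear_combination (h' * a * Y ^ 3) * e3 - (9 * P * a * Y ^ 2) * e6 - (18 * a * b) * e +
      (9 * X * b * Z) * e5
  refine Nat.cast_injective (R := ℝ) ?_
  push_cast
  rw [k, k, k, ← mul_pow, f, ← mul_pow, pow_right_comm _ 2 (2 * M)]
  generalize (4 * c * √|(D : ℝ)|) ^ (2 * M) = Z
  ring

theorem nd_c {K : Type} [Field K] [NumberField K] {j : K →+* Qb} {c M : ℕ} {e : GQ → ZMod (3 * M)}
    (y : Ly j c M e) : ¬ 3 ∣ c := fun a => by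
  have := (Ideal.span_singleton_prime three_ne_zero).2 Int.prime_three
  obtain ⟨P, h1, h2⟩ := Ideal.exists_ideal_over_prime_of_isIntegral_of_isDomain (S := 𝓞 Qb)
    (Ideal.span {(3 : ℤ)}) (by
      rw [(RingHom.injective_iff_ker_eq_bot _).1 (algebraMap ℤ (𝓞 Qb)).injective_int]
      exact bot_le)
  have : (3 : ℤ) ∈ P.comap (algebraMap ℤ (𝓞 Qb)) := h2 ▸ Ideal.mem_span_singleton_self _
  exact absurd (y.ram 3 P ⟨Nat.prime_three, h1, this⟩ a).1 (by decide)

theorem nd_abs {a : ℤ} (h : ¬ 3 ∣ a) : ¬ 3 ∣ a.natAbs := fun z => h (Int.natCast_dvd.2 z)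

end Cf

open Cf in
/-- **CNF** -/
theorem cnf (hr : REG) (ha : LFA) (hb : LFB) (h1 : P004K.RC1) : CNF := by
  intro K _ _ j c M e y F H _ _ _ _ _ jH φ σ l p oK oF oH P s us R t u hu
  have M0 : 0 < M := by
    obtain ⟨m, rfl⟩ := p.pow
    positivity
  have : NeZero (3 * M) := ⟨by omega⟩
  have oc := nd_c y
  have cp : 0 < c := y.one.le
  have d : Dt (GK j) (Hc j c) R e φ :=
    ⟨t, fun g _ u hu => (h1 K j y.iq c cp).2.2.1.conj_mem u hu g, y.add, y.ker, l.mem⟩
  obtain ⟨T, hT⟩ := ex_T h1 j y.iq cp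
  obtain ⟨ε, hε⟩ := l.gen
  have ne : ∀ k ∈ Fa M, (k : ZMod (3 * M)) ≠ 0 := fun k hk a =>
    (mem_filter.1 hk).2 ((dvd_mul_right 3 M).trans ((natCast_eq_zero_iff _ _).1 a))
  set G : GQ → ℂ := fun g => Gl (T (g (jc j c))) with hG
  set L : GQ → ℂ := fun g => (2 * Real.log ‖io (g (s : Qb))‖ : ℝ) with hL
  have iG : Iv (GK j) (Hc j c) G := fun y _ u _ m => by
    simp only [hG, AlgEquiv.mul_apply, show u (jc j c) = jc j c from m.2]
  have iL : Iv (GK j) (Hc j c) L := fun y _ u _ m => by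
    simp only [hL, AlgEquiv.mul_apply,
      show u (s : Qb) = s from congrArg (fun x : 𝓞 Qb => (x : Qb)) (us.fix u m)]
  have s0 : (s : Qb) ≠ 0 := fun a => (us.unit 1 (one_mem _)).1 (by
    rw [one_smul, RingOfIntegers.coe_eq_zero_iff.1 a]
    exact P.zero_mem)
  have ac : ∀ (i : ℕ) x, jH ((σ ^ i) x) = (φ ^ i) (jH x) := fun i => by
    induction i with
    | zero => exact fun _ => rfl
    | succ i ih => intro x; rw [pow_succ, pow_succ, AlgEquiv.mul_apply, ih, l.act]; rfl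
  have lg : ∀ g : GQ, ((2 * Real.log ‖io (g (∏ r ∈ R with e r = 0, r (s : Qb)))‖ : ℝ) : ℂ) =
      ∑ r ∈ R with e r = 0, L (g * r) := fun g => by
    rw [map_prod, map_prod, norm_prod, Real.log_prod fun r _ => by simpa using s0, mul_sum,
      Complex.ofReal_sum]
    rfl
  set w := InfinitePlace.mk ((io : Qb →+* ℂ).comp jH) with hw
  have lw : ∀ i : ℕ, ((2 * Real.log (w ((σ ^ i) (u : 𝓞 H))) : ℝ) : ℂ) =
      ∑ r ∈ R with e r = 0, L (φ * (φ ^ i * r)) - ∑ r ∈ R with e r = 0, L (φ ^ i * r) := fun i => by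
    have a := congrArg (fun x => Real.log ‖io ((φ ^ i) x)‖) hu
    have n : ‖io ((φ ^ i) (∏ r ∈ R with e r = 0, r (s : Qb)))‖ ≠ 0 := by
      simpa only [norm_ne_zero_iff, map_ne_zero, Finset.prod_ne_zero_iff] using fun _ _ => s0
    simp only [map_mul, norm_mul] at a
    rw [Real.log_mul (by simp [-AlgEquiv.coe_pow]) n, ← ac, ← AlgEquiv.mul_apply, ← pow_succ, pow_succ'] at a
    simp only [← mul_assoc]
    rw [← lg, ← lg, ← a, mul_add, Complex.ofReal_add, add_sub_cancel_right]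
    rfl
  have e1 : ∀ k ∈ Fa M, ‖Lg σ M w (u : 𝓞 H) k‖ =
      ‖1 - stdAddChar (-(k : ZMod (3 * M)))‖ ^ 2 * ‖SS R e G (k * ↑ε⁻¹)‖ := fun k hk => by
    simp only [Lg, ze_st, lw, Int.cast_mul, Int.cast_natCast]
    rw [d.lg iL iG (hε ▸ ε.inv_mul) (ne k hk) (C := (6 * Real.log 3 : ℝ)) fun g hg => by
      simp only [hL, hG, us.lg g (t.mem g hg) _ _ (hT g) (hT (g * φ)), Complex.ofReal_add,
        Complex.ofReal_sub], norm_neg, norm_mul, norm_pow]
  have dK := Real.sqrt_pos.2 (abs_pos.2 (Int.cast_ne_zero.2 (discr_ne_zero K) : (discr K : ℝ) ≠ 0))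
  have c0 : (0 : ℝ) < c := Nat.cast_pos.2 cp
  have e2 := tendsto_nhds_unique (tendsto_sub_one_mul_dedekindZeta_nhdsGT H)
    (((tendsto_sub_one_mul_dedekindZeta_nhdsGT F).mul (tendsto_finsetProd (Fa M) fun k hk =>
      lim (A := c * √|(discr K : ℝ)| / 2) (by positivity) R _ (d.zero (a := k)
        (hε ▸ ε.mul_left_eq_zero.not.2 (ne k hk))) fun g => T (g (jc j c)))).congr'
      (eventually_mem_nhdsWithin.mono fun x hx => by
        beta_reduce
        rw [ha K j c M e y F H jH φ σ l x hx, mul_assoc]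
        refine congrArg (fun z => _ * (_ * z)) (prod_congr rfl fun k hk => ?_)
        rw [hb K j c M e y R t _ (fun g _ => hT g) _ (mem_filter.1 hk).2 x hx]
        simp only [ze_st, Int.cast_mul, Int.cast_natCast, natCast_zmod_val]))
  have e3 := hr F H σ M p w u
  rw [norm_prod, prod_congr rfl e1, prod_mul_distrib, prod_pow,
    prod_one_sub, prod_unit fun a => ‖SS R e G a‖] at e3
  have e4 := congrArg norm e2
  rw [norm_mul, norm_prod, Complex.norm_real, Complex.norm_real] at e4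
  simp only [norm_mul, norm_neg, Complex.norm_real, prod_mul_distrib, prod_cst] at e4
  rw [Real.norm_of_nonneg (dedekindZeta_residue_pos H).le,
    Real.norm_of_nonneg (dedekindZeta_residue_pos F).le, Real.norm_of_nonneg (by positivity)] at e4
  have := p.cx
  have := isTotallyComplex_of_algebra F H
  have e5 := res H (n := 3 * M) (by rw [p.deg]; ring) p.tor
  have inj := Units.map_injective (f := (algebraMap (𝓞 F) (𝓞 H) : 𝓞 F →* 𝓞 H))
    (FaithfulSMul.algebraMap_injective (𝓞 F) (𝓞 H))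
  have e6 := res F p.deg' fun v hv => (p.tor _ ((Units.map (algebraMap (𝓞 F) (𝓞 H) :
    𝓞 F →* 𝓞 H)).isOfFinOrder hv)).imp (fun a => inj (a.trans (map_one _).symm)) fun a =>
      inj (a.trans (Units.ext (by simp)))
  have q := Nat.prime_three
  have o4 : ¬ 3 ∣ ((4 * c) ^ 2 * (discr K).natAbs) ^ (2 * M) * (discr F).natAbs := fun z =>
    ((q.dvd_mul.1 z).resolve_right (nd_abs oF) |> q.dvd_of_dvd_pow |> q.dvd_mul.1).elim
      (fun z => ((q.dvd_mul.1 (q.dvd_of_dvd_pow z)).elim (by decide) oc)) (nd_abs oK)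
  exact (val3 (classNumber_ne_zero H) (nd_abs oH) o4 (arith (Units.regulator_ne_zero H) cp
      (discr_ne_zero K) e3 e4 e5 e6)).imp_left left_ne_zero_of_mul

end Vale.Agent.P014Y.Rd
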