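import Vale.Agent.P014Y.Rd.St
import Vale.Agent.P022D.Loc2.Dec
import Vale.Agent.P022.H916.Fld

/-!
# P014Y, route R: the row `CUB` (local cubes are congruent to one up to a cube)
-/

set_option autoImplicit false
set_option linter.all false

open NumberField IsDedekindDomain
open scoped Pointwise

noncomputable section

namespace Vale.Agent.P014Y.Rd

open Vale.Agent.P022 (Qb GQ GK below)
open Vale.Agent.P022D.W (dec)
open Vale.Agent.P022E.GW (Ov Fb)
open Vale.Agent.P022D.Loc2 (PP PP_prime p_mem_PP jj range_jj io_jj norm_int)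

namespace Cu

/-- an embedding which induces `P` -/
theorem emb {l : ℕ} [Fact l.Prime] {P : Ideal (𝓞 Qb)} (o : Ov l P) :
    ∃ ι : Qb →+* PadicAlgCl l, (∀ x : 𝓞 Qb, x ∈ P ↔ ‖ι x‖ < 1) ∧ (∀ x : 𝓞 Qb, ‖ι x‖ ≤ 1) ∧
      ∀ z, (∀ g ∈ dec P, g z = z) → ι z ∈ Set.range (algebraMap ℚ_[l] (PadicAlgCl l)) := by
  have key : ∀ R : Ideal (𝓞 Qb), Ov l R → ∀ x : 𝓞 ℚ, x ∈ below (algebraMap ℚ Qb) R ↔
      (l : ℤ) ∣ Rat.ringOfIntegersEquiv x := fun R hR x => by
    obtain ⟨z, rfl⟩ := Rat.ringOfIntegersEquiv.symm.surjective x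
    rw [RingEquiv.apply_symm_apply, eq_intCast]
    show RingOfIntegers.mapRingHom _ (z : 𝓞 ℚ) ∈ R ↔ _
    rw [map_intCast]
    refine ⟨P004S.ov_dvd hR, fun ⟨k, hk⟩ => ?_⟩
    rw [hk, Int.cast_mul, Int.cast_natCast]
    exact Ideal.mul_mem_right _ _ hR.2.2
  obtain ⟨⟨g, -⟩, rfl⟩ := P022.H916.exists_smul (algebraMap ℚ Qb) (PP_prime l) o.2.1
    (Ideal.ext fun x => (key _ ⟨o.1, PP_prime l, p_mem_PP l⟩ x).trans (key P o x).symm)
  refine ⟨(P022D.Loc2.io l).toRingHom.comp (g⁻¹ : GQ).toRingEquiv.toRingHom, fun x => ?_,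
    fun x => norm_int l (g⁻¹ • x), fun z hz => ?_⟩
  · rw [Ideal.mem_pointwise_smul_iff_inv_smul_mem]
    rfl
  · refine (InfiniteGalois.mem_range_algebraMap_iff_fixed (k := ℚ_[l]) _).2 fun σ => ?_
    have h1 := hz (g * jj l σ * g⁻¹) fun x => by
      simp only [Ideal.mem_pointwise_smul_iff_inv_smul_mem]
      rw [mul_smul, mul_smul, inv_smul_smul]
      exact (range_jj l _).2 ⟨σ, rfl⟩ _
    have h2 : jj l σ (g⁻¹ z) = g⁻¹ z := by
      conv_rhs => rw [← h1, ← AlgEquiv.mul_apply, mul_assoc, inv_mul_cancel_left]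
      rfl
    exact (io_jj l σ _).symm.trans (congrArg (P022D.Loc2.io l) h2)

variable {K : Type} [Field K] [NumberField K] (j : K →+* Qb)

/-- a local cube is a cube modulo the powers of the prime -/
theorem loc {l : ℕ} {P : Ideal (𝓞 Qb)} (o : Ov l P) {a : 𝓞 K} {y : Qb} (e : y ^ 3 = j a)
    (f : ∀ g ∈ dec P, g y = y) (M : ℕ) : ∃ u : 𝓞 K, a - u ^ 3 ∈ below j P ^ M := by
  have := Fact.mk o.1
  obtain ⟨ι, i1, i2, i3⟩ := emb o
  obtain ⟨z, hz⟩ := i3 y f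
  have k1 : ∀ x : 𝓞 K, x ∈ below j P ↔ ‖ι (j x)‖ < 1 := fun x =>
    i1 (RingOfIntegers.mapRingHom j x)
  have k2 : ∀ x : 𝓞 K, ‖ι (j x)‖ ≤ 1 := fun x => i2 (RingOfIntegers.mapRingHom j x)
  have z1 : ‖z‖ ≤ 1 := by
    rw [← PadicAlgCl.norm_extends l, hz, ← pow_le_one_iff_of_nonneg (norm_nonneg _) three_ne_zero,
      ← norm_pow, ← map_pow, e]
    exact k2 a
  let z' : ℤ_[l] := ⟨z, z1⟩
  obtain ⟨w, hw⟩ := (Ideal.mem_span_singleton.1 (PadicInt.appr_spec M z')).trans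
    (sub_dvd_pow_sub_pow _ _ 3)
  have hw' : z ^ 3 - (z'.appr M : ℚ_[l]) ^ 3 = (l : ℚ_[l]) ^ M * w := by
    exact_mod_cast congrArg ((↑) : ℤ_[l] → ℚ_[l]) hw
  have l0 : (l : K) ^ M ≠ 0 := pow_ne_zero _ (Nat.cast_ne_zero.2 o.1.ne_zero)
  have l1 : (l : PadicAlgCl l) ^ M ≠ 0 := pow_ne_zero _ (Nat.cast_ne_zero.2 o.1.ne_zero)
  have q1 : ‖ι (j (((a : K) - (z'.appr M : K) ^ 3) / l ^ M))‖ ≤ 1 := by
    have : ι (j (((a : K) - (z'.appr M : K) ^ 3) / l ^ M)) = algebraMap ℚ_[l] _ w := by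
      have := congrArg (algebraMap ℚ_[l] (PadicAlgCl l)) hw'
      simp only [map_sub, map_pow, map_mul, map_natCast, hz] at this
      simp only [map_sub, map_pow, map_div₀, map_natCast, ← e]
      rw [this, mul_div_cancel_left₀ _ l1]
    rw [this, PadicAlgCl.norm_extends]
    exact w.norm_le_one
  have p := P022.H20.below_prime j o.2.1
  have lm := P022.H20.l_mem_below j o.2.2
  obtain ⟨n, d, h⟩ := (⟨below j P, p, fun z => o.1.ne_zero (by
    simpa [z] using lm)⟩ : HeightOneSpectrum (𝓞 K)).exists_primeCompl_mul_eq_or_mul_eq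
      (((a : K) - (z'.appr M : K) ^ 3) / l ^ M)
  have fin : ∀ s t : 𝓞 K, s ∉ below j P →
      ((a : K) - (z'.appr M : K) ^ 3) / l ^ M * algebraMap _ K s = algebraMap _ K t →
      a - (z'.appr M : 𝓞 K) ^ 3 ∈ below j P ^ M := fun s t m h => by
    refine (Ideal.IsPrime.mul_mem_pow (below j P) (a := s) ?_).resolve_left m
    rw [show s * (a - (z'.appr M : 𝓞 K) ^ 3) = (l : 𝓞 K) ^ M * t from
      RingOfIntegers.coe_injective (by
        simp only [map_mul, map_sub, map_pow, map_natCast, ← h]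
        field_simp)]
    exact Ideal.mul_mem_right _ _ (Ideal.pow_mem_pow lm M)
  refine ⟨z'.appr M, h.elim (fin d n d.2) fun h => fin n d (fun m => d.2 ((k1 d).2 ?_)) h⟩
  rw [show ((d : 𝓞 K) : K) = _ from h.symm, map_mul, map_mul, norm_mul]
  exact mul_lt_one_of_nonneg_of_lt_one_right q1 (norm_nonneg _) ((k1 n).1 m)

/-- from the prime powers to all ideals -/
theorem crt {R : Type} [CommRing R] [IsDedekindDomain R] (a : R) (C : Ideal R) :
    C ≠ ⊥ → (∀ p : Ideal R, p.IsPrime → C ≤ p → ∀ M : ℕ, ∃ u, a - u ^ 3 ∈ p ^ M) →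
    ∃ u, a - u ^ 3 ∈ C := by
  induction C using UniqueFactorizationMonoid.induction_on_coprime with
  | h0 => exact fun h => absurd rfl h
  | h1 h => exact fun _ _ => ⟨0, by rw [Ideal.isUnit_iff.1 h]; trivial⟩
  | hpr i h =>
    intro _ k
    rcases i with _ | i
    · exact ⟨0, by rw [pow_zero, Ideal.one_eq_top]; trivial⟩
    · exact k _ (Ideal.isPrime_of_prime h) (Ideal.pow_le_self i.succ_ne_zero) _
  | @hcp x y h h1 h2 =>
    intro n k
    have c : IsCoprime x y := Ideal.isCoprime_iff_sup_eq.2 (Ideal.isUnit_iff.1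
      (h (Ideal.dvd_iff_le.2 le_sup_left) (Ideal.dvd_iff_le.2 le_sup_right)))
    obtain ⟨u, hu⟩ := h1 (left_ne_zero_of_mul n) fun p q m => k p q (Ideal.mul_le_left.trans m)
    obtain ⟨v, hv⟩ := h2 (right_ne_zero_of_mul n) fun p q m => k p q (Ideal.mul_le_right.trans m)
    obtain ⟨s, hs, t, ht, e⟩ := Ideal.isCoprime_iff_exists.1 c
    have g : ∀ (I : Ideal R) (u v : R), a - u ^ 3 ∈ I → u - v ∈ I → a - v ^ 3 ∈ I :=
      fun I u v h h' => by
        rw [← sub_add_sub_cancel a (u ^ 3)]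
        exact I.add_mem h (I.mem_of_dvd (sub_dvd_pow_sub_pow u v 3) h')
    rw [Ideal.mul_eq_inf_of_isCoprime c]
    refine ⟨u * t + v * s, g x u _ hu ?_, g y v _ hv ?_⟩
    · rw [show u - (u * t + v * s) = (u - v) * s by linear_combination (-u) * e]
      exact x.mul_mem_left _ hs
    · rw [show v - (u * t + v * s) = (v - u) * t by linear_combination (-v) * e]
      exact y.mul_mem_left _ ht

/-- a representative of the class which is prime to `C` -/
theorem rep {R : Type} [CommRing R] [IsDedekindDomain R] (nf : ¬ IsField R) {I C : Ideal R}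
    (i : I ≠ ⊥) (c : C ≠ ⊥) : ∃ (α β : R) (I₁ : Ideal R), α ≠ 0 ∧ β ≠ 0 ∧
      Ideal.span {β} * I = Ideal.span {α} * I₁ ∧ IsCoprime I₁ C := by
  obtain ⟨α, m, α0⟩ := Submodule.exists_mem_ne_zero_of_ne_bot i
  obtain ⟨I', e⟩ := Ideal.dvd_span_singleton.2 m
  have n : I' ≠ 0 := fun z => α0 (by simpa [z] using e)
  obtain ⟨p, p0, pm⟩ := Ring.exists_maximal_of_not_isField nf
  obtain ⟨β, h⟩ := exists_sup_span_eq (I := I' * (C * p)) (J := I') Ideal.mul_le_left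
    (mul_ne_zero n (mul_ne_zero c p0))
  obtain ⟨I₁, e'⟩ := Ideal.dvd_iff_le.2 (le_sup_right.trans h.le)
  have k : C * p ⊔ I₁ = ⊤ := mul_left_cancel₀ n (by
    rw [Ideal.mul_sup, ← e', h, Ideal.mul_top])
  refine ⟨α, β, I₁, α0, fun z => pm.ne_top (top_unique ?_), by rw [e, e']; ring,
    (Ideal.isCoprime_iff_sup_eq.2 k).of_mul_left_left.symm⟩
  rw [z, Ideal.span_singleton_zero] at e'
  rw [(mul_eq_zero.1 e'.symm).resolve_left n] at k
  exact k.ge.trans (sup_le Ideal.mul_le_right bot_le)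

end Cu

theorem cub : CUB := by
  intro K _ _ j _ c r a I J c0 a0 hd hL e hJ
  have i0 : I ≠ ⊥ := fun z => a0 (by simpa [z] using e)
  have c1 : (c : 𝓞 K) ≠ 0 := Nat.cast_ne_zero.2 c0.ne'
  obtain ⟨α, β, I₁, α0, β0, h, hc⟩ := Cu.rep (RingOfIntegers.not_isField K) i0
    (Ideal.span_singleton_eq_bot.not.2 c1)
  have e1 : Ideal.span {β ^ 3 * a} = Ideal.span {α ^ 3} * (I₁ ^ 3 * J) := by
    rw [← Ideal.span_singleton_mul_span_singleton, e, ← Ideal.span_singleton_pow,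
      ← Ideal.span_singleton_pow, ← mul_assoc, ← mul_pow, h, mul_pow, mul_assoc]
  obtain ⟨a₁, e2⟩ := Ideal.mem_span_singleton.1 ((e1.le.trans Ideal.mul_le_left)
    (Ideal.mem_span_singleton_self _))
  have e3 : Ideal.span {a₁} = I₁ ^ 3 * J := mul_left_cancel₀
    (Ideal.span_singleton_eq_bot.not.2 (pow_ne_zero 3 α0)) (by
      rw [← e1, e2, Ideal.span_singleton_mul_span_singleton])
  have α1 : (α : K) ≠ 0 := RingOfIntegers.coe_ne_zero_iff.2 α0
  have e4 : (a₁ : K) = ((β : K) / α) ^ 3 * a := by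
    have := congrArg (algebraMap (𝓞 K) K) e2
    simp only [map_mul, map_pow] at this
    rw [div_pow, div_mul_eq_mul_div, eq_div_iff (pow_ne_zero 3 α1), mul_comm]
    exact this.symm
  obtain ⟨u, hu⟩ := Cu.crt a₁ (Ideal.span {(c : 𝓞 K) ^ r})
    (Ideal.span_singleton_eq_bot.not.2 (pow_ne_zero r c1)) fun p q m M => by
      have m := q.mem_of_pow_mem r ((Ideal.span_singleton_le_iff_mem _).1 m)
      obtain ⟨P, hP, rfl⟩ := P022.H916.exists_above j p q
      have : ∃ l ∈ c.primeFactorsList, (l : 𝓞 K) ∈ below j P := by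
        rw [← Nat.prod_primeFactorsList c0.ne', Nat.cast_list_prod, ← Multiset.prod_coe] at m
        obtain ⟨_, a, b⟩ := (q.multiset_prod_mem_iff_exists_mem _).1 m
        obtain ⟨l, l1, rfl⟩ := List.mem_map.1 (Multiset.mem_coe.1 a)
        exact ⟨l, l1, b⟩
      obtain ⟨l, l1, l2⟩ := this
      have o : Ov l P := ⟨Nat.prime_of_mem_primeFactorsList l1, hP, by
        rwa [P022.H20.mem_below, map_natCast] at l2⟩
      have d := Nat.dvd_of_mem_primeFactorsList l1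
      obtain ⟨y, y1, y2⟩ := hL l P o d
      exact Cu.loc j o (y := j (β / α) * y) (by rw [e4, mul_pow, y1, map_mul, map_pow])
        (fun g m => by rw [map_mul, hd l P o d m, y2 g m]) M
  obtain ⟨p, q, e5⟩ : IsCoprime a₁ ((c : 𝓞 K) ^ r) := by
    refine IsCoprime.pow_right ((Ideal.isCoprime_span_singleton_iff _ _).1 ?_)
    rw [e3]
    exact hc.pow_left.mul_left (Ideal.isCoprime_iff_sup_eq.2 hJ.2)
  obtain ⟨v, hv⟩ := Ideal.mem_span_singleton.1 hu
  obtain ⟨w, w0, b, hb⟩ : ∃ w : 𝓞 K, w ≠ 0 ∧ (c : 𝓞 K) ^ r ∣ w ^ 3 * a₁ - 1 := by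
    have h3 : (c : 𝓞 K) ^ r ∣ p * u ^ 2 * u - 1 := ⟨-q - p * v, by linear_combination e5 - p * hv⟩
    have h4 : (c : 𝓞 K) ^ r ∣ (p * u ^ 2) ^ 3 * a₁ - 1 := by
      rw [show (p * u ^ 2) ^ 3 * a₁ - 1 = (p * u ^ 2) ^ 3 * (a₁ - u ^ 3) +
        ((p * u ^ 2 * u) ^ 3 - 1 ^ 3) by ring]
      exact dvd_add (Dvd.dvd.mul_left ⟨v, hv⟩ _) (h3.trans (sub_dvd_pow_sub_pow _ _ 3))
    by_cases z : p * u ^ 2 = 0
    · rw [z, zero_mul, zero_sub, dvd_neg] at h3
      exact ⟨1, one_ne_zero, h3.trans (one_dvd _)⟩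
    · exact ⟨_, z, h4⟩
  have e6 : 1 + (c : 𝓞 K) ^ r * b = w ^ 3 * a₁ := by linear_combination -hb
  refine ⟨w * (β / α), b, Ideal.span {w} * I₁, mul_ne_zero (RingOfIntegers.coe_ne_zero_iff.2 w0)
    (div_ne_zero (RingOfIntegers.coe_ne_zero_iff.2 β0) α1), ?_, ?_⟩
  · rw [e6, mul_pow, mul_assoc, ← e4]
    simp only [map_mul, map_pow]
  · rw [e6, ← Ideal.span_singleton_mul_span_singleton, e3, mul_pow, Ideal.span_singleton_pow,
      mul_assoc]

end Vale.Agent.P014Y.Rd
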