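import Vale.Agent.P014Y.F.Rec.St

/-! # P014Y, route R: reciprocity at places of degree one (row) -/

set_option autoImplicit false
set_option linter.all false

noncomputable section

namespace Vale.Agent.P014Y.Rd

open NumberField
open Vale.Agent.P022 Vale.Agent.P022K.G2 Vale.Agent.P014U
open Vale.Agent.P022D.W (dec)
open Vale.Agent.P022.H443 (inP)
open Vale.Agent.P022E.GW (Ov Fb)
open scoped Pointwise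
open F.Rc (Co Ur)

/-- **reciprocity at places of degree one**; `b` is unramified there -/
def RECS [Pp] : Prop := ∀ N : ℕ, ∃ w : ℕ → GQ → ℕ,
  (∀ l P τ, Ov l P → l ≠ pp → Gn l P τ → ¬ pp ∣ w l τ) ∧
  ∀ (Γ : Subgroup GQ) (A M M' : Type) [AddCommGroup A] [AddCommGroup M] [AddCommGroup M']
    (B : M →+ M' →+ A) (ρ : GQ → M →+ M) (σ : GQ → M' →+ M') (a : GQ → M) (b : GQ → M')
    (ι : Type) [Fintype ι] (l : ι → ℕ) (P : ι → Ideal (𝓞 Qb)) (φ τ : ι → GQ),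
    IsOpen (Γ : Set GQ) → Γ.index = 2 → (∀ v, Γ ⊓ P022K.G2.St (P022K.G2.ip v) = ⊥) →
    (∀ x : A, pp ^ N • x = 0) → Co Γ ρ a → Co Γ σ b →
    (∀ g ∈ Γ, ∀ k, F.Rc.Cy N g k → ∀ x y, B (ρ g x) (σ g y) = k • B x y) →
    (∀ i, Ov (l i) (P i) ∧ l i ≠ pp ∧ pp ^ N ∣ l i - 1 ∧ Fb (l i) (P i) (φ i) ∧
      Gn (l i) (P i) (τ i) ∧ dec (P i) ≤ Γ ∧ (∀ g ∈ dec (P i), (∀ x, ρ g x = x) ∧ ∀ y, σ g y = y) ∧
      ∀ g ∈ inP (P i), b g = 0) →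
    (∀ i i', ∀ g ∈ Γ, P i' = g • P i → i = i') →
    (∀ p Q, Ov p Q → (∀ i, ∀ g ∈ Γ, Q ≠ g • P i) → ∃ g ∈ Γ,
      F.Rc.Tv (Γ ⊓ dec (g • Q)) ρ a ∨ F.Rc.Tv (Γ ⊓ dec (g • Q)) σ b ∨
      (p ≠ pp ∧ Ur (Γ ⊓ inP (g • Q)) ρ a ∧ Ur (Γ ⊓ inP (g • Q)) σ b)) →
    ∑ i, w (l i) (τ i) • B (a (τ i)) (b (φ i)) = 0

end Vale.Agent.P014Y.Rd
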