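import Vale.Agent.P014Y.Rd.Ort
import Vale.Agent.P014Y.Rd.St1
import Vale.Agent.P014Y.Base
import Vale.Agent.P022K.Cheb.Main
import Vale.Agent.P022E.GW.Hyp
import Vale.Agent.P022E.GW.TauG

/-! # P014Y, route R: duality (row `DU`, helper16) -/

set_option autoImplicit false
set_option linter.all false

open NumberField PowerSeries
open scoped Pointwise

noncomputable section

namespace Vale.Agent.P014Y.Rd

open Vale.Agent.P022 Vale.Agent.P022K.G2
open Vale.Agent.P027M.S (Inert)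
open Vale.Agent.P022D.W (dec)
open Vale.Agent.P022.H443 (inP)
open Vale.Agent.P022E.GW (Ov Fb)
open P004F.Pr (ac)
open P014U (Gn ex_gn)

namespace Du

theorem pick {Y X : Type} [Nonempty X] (G : Y → ℕ → X → Prop) (s : Finset Y)
    (h : ∀ y ∈ s, ∀ E : Finset ℕ, ∃ l ∉ E, ∃ x, G y l x) : ∃ (L : Finset ℕ) (x : ℕ → X),
    (∀ l ∈ L, ∃ y, G y l (x l)) ∧ ∀ y ∈ s, ∃ l ∈ L, G y l (x l) := by
  classical
  induction s using Finset.induction_on with
  | empty => exact ⟨∅, fun _ => Classical.arbitrary X, by simp, by simp⟩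
  | insert y s _ ih =>
    obtain ⟨L, x, a, b⟩ := ih fun y m => h y (Finset.mem_insert_of_mem m)
    obtain ⟨l, n, x₀, g⟩ := h y (Finset.mem_insert_self _ _) L
    have u : ∀ q ∈ L, Function.update x l x₀ q = x q := fun q m =>
      Function.update_of_ne (ne_of_mem_of_not_mem m n) _ _
    refine ⟨insert l L, Function.update x l x₀, Finset.forall_mem_insert .. |>.2
      ⟨⟨y, by simpa using g⟩, fun q m => u q m ▸ a q m⟩, Finset.forall_mem_insert .. |>.2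
      ⟨⟨l, Finset.mem_insert_self _ _, by simpa using g⟩, fun y m => ?_⟩⟩
    obtain ⟨q, k, e⟩ := b y m
    exact ⟨q, Finset.mem_insert_of_mem k, u q k ▸ e⟩

variable {l : ℕ} {P Q : Ideal (𝓞 Qb)} {g h φ : GQ} {Γ W : Subgroup GQ} {T : Finset ℕ}

theorem ov_sm (o : Ov l P) (t : GQ) : Ov l (t • P) :=
  ⟨o.1, haveI := o.2.1; inferInstance, by
    rw [mem_smul,
      show t⁻¹ • (l : 𝓞 Qb) = l from map_natCast (MulSemiringAction.toRingHom GQ (𝓞 Qb) t⁻¹) l]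
    exact o.2.2⟩

theorem fb_sm (f : Fb l P φ) (t : GQ) : Fb l (t • P) (t * φ * t⁻¹) := fun x => by
  rw [mem_smul, smul_sub, mul_smul, mul_smul, inv_smul_smul, smul_pow']
  exact f _

theorem dec_sm {t : GQ} (h : g ∈ dec P) : t * g * t⁻¹ ∈ dec (t • P) := fun x => by
  rw [mem_smul, mem_smul, mul_smul, mul_smul, inv_smul_smul]
  exact h _

theorem in_sm {t : GQ} (h : Inert P g) : Inert (t • P) (t * g * t⁻¹) := fun x => by
  rw [mem_smul, smul_sub, mul_smul, mul_smul, inv_smul_smul]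
  exact h _

theorem in_dec (h : Inert P g) : g ∈ dec P := fun x =>
  ⟨fun m => by simpa using sub_mem m (h x), fun m => by simpa using add_mem (h x) m⟩

theorem stab (h : g • P = P) : g ∈ dec P := fun x => by
  conv_lhs => rw [← h, mem_smul, inv_smul_smul]

theorem ov_eq {l' : ℕ} (o : Ov l P) (o' : Ov l' P) : l = l' :=
  (Nat.prime_dvd_prime_iff_eq o.1 o'.1).1 (by
    exact_mod_cast P004S.ov_dvd o (a := l') (by exact_mod_cast o'.2.2))

/-- primes which split completely in the field of `W` -/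
structure Gs (W : Subgroup GQ) (l : ℕ) (Q : Ideal (𝓞 Qb)) (φ : GQ) : Prop where
  ov : Ov l Q
  fb : Fb l Q φ
  md : l % 3 = 1
  le : ∀ Q, Ov l Q → dec Q ≤ W

theorem ex_gs (o : IsOpen (W : Set GQ)) (n : W.Normal) (t : ∀ w ∈ W, oz 3 w = 1) {O : Set GQ}
    (oO : IsOpen O) (m : g ∈ O) (s : O ⊆ W) (E : Finset ℕ) :
    ∃ l ∉ E, ∃ Q, ∃ φ ∈ O, Gs W l Q φ := by
  obtain ⟨B, -, hB⟩ := P022E.GW.Hy.ex_ram o
  obtain ⟨l, φ, a, b, ⟨Q, q1, q2, f⟩, d⟩ := P022K.Cheb.exists_fr oO m (insert 3 (E ∪ B))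
  simp only [Finset.mem_insert, Finset.mem_union, not_or] at b
  have ov : Ov l Q := ⟨a, q1, q2⟩
  refine ⟨l, b.2.1, Q, φ, d, ov, f, ?_, fun Q' o' g k => ?_⟩
  · let ζ : 𝓞 Qb := ⟨zt 3, (zt_prim 3).isIntegral three_pos⟩
    have k : ζ ^ 3 = 1 := RingOfIntegers.ext zt_pow
    have e : φ (zt 3) = zt 3 ^ l := congrArg Subtype.val (P022E.GW.Unr.root_inj q1
      (p_notMem ov b.1) (by rw [← smul_pow', k, smul_one])
      (by rw [← pow_mul, mul_comm, pow_mul, k, one_pow]) (f ζ))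
    rw [mem_Gz'.1 (mem_Gz.2 (t φ (s d))), ← pw_nat] at e
    rw [← ZMod.val_natCast, ← pw_inj (p := 3) (a := 1) (b := l) ((pow_one _).trans e)]
    rfl
  · obtain ⟨c, rfl⟩ := P022E.GW.Tg.trans ov o'
    obtain ⟨j, i, u, hi, hu, rfl⟩ := P022D.W.dec_gen a o'.2.1 o'.2.2 (fb_sm f c) k W o
    exact mul_mem (mul_mem hu (pow_mem (n.conj_mem _ (s d) c) j)) (hB l b.2.2 _ o' i hi)

variable {R : Type} [CommRing R] {χ : GQ → R}

/-- the values of a cocycle -/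
abbrev vl (z : Zr Γ T χ P) (g : GQ) : R := z.1.1 g 0

theorem co (z : Zr Γ T χ P) (a : g ∈ Γ) (b : h ∈ Γ) : vl z (g * h) = vl z g + χ g * vl z h := by
  simpa [ac, r1] using congrFun (z.2.1 g a h b) 0

theorem lc (z : Zr Γ T χ P) : ∃ V : Subgroup GQ, IsOpen (V : Set GQ) ∧ ∀ w ∈ V, vl z w = 0 :=
  z.2.2.2.1.imp fun _ h => ⟨h.1, fun w m => congrFun (h.2 w m) 0⟩

theorem un (z : Zr Γ T χ P) (m : g ∈ In T) : vl z g = 0 := congrFun (z.2.2.2.2.1 g m) 0

theorem st (z : Zr Γ T χ P) (a : g ∈ Γ) (b : g ∈ dec P) : vl z g = 0 := by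
  simpa [ac] using congrFun (z.2.2.2.2.2 () g ⟨a, b⟩) 0

theorem ex0 (z : Zr Γ T χ P) (h : ∀ g ∈ Γ, vl z g = 0) : z = 0 :=
  Subtype.ext (Prod.ext (funext fun g => (em (g ∈ Γ)).elim
    (fun m => funext fun i => Subsingleton.elim 0 i ▸ h g m) (z.2.2.1 g)) (Subsingleton.elim _ _))

theorem mu (G : G3 Γ T (r1 χ)) (a : g ∈ Γ) (b : h ∈ Γ) : χ (g * h) = χ g * χ h := by
  simpa [r1, mul_comm] using congrFun (congrFun (G.mul g a h b) 0) 0

theorem ur (G : G3 Γ T (r1 χ)) (a : g ∈ Γ) (b : g ∈ In T) : χ g = 1 := by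
  simpa [r1] using congrFun (congrFun (G.unr g a b) 0) 0

theorem cj (z : Zr Γ T χ P) (a : g ∈ Γ) (b : h ∈ Γ) (c : χ (h * g * h⁻¹) = 1) :
    vl z (h * g * h⁻¹) = χ h * vl z g := by
  have := co z (mul_mem (mul_mem b a) (inv_mem b)) b
  rw [inv_mul_cancel_right, co z b a, c] at this
  linear_combination -this

theorem tm (ρ : (ZMod 3)⟦X⟧ →+* R) (z : Zr Γ T χ P) (o : Ov l Q) (n : l ≠ 3) {τ : GQ}
    (t : Gn l Q τ) (d : ∀ g ∈ dec Q, g ∈ Γ ∧ χ g = 1) (e : vl z τ = 0) (i : Inert Q g) :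
    vl z g = 0 := by
  let := AddCommGroup.zmodModule (Or.three ρ)
  obtain ⟨V, oV, hV⟩ := lc z
  obtain ⟨V', a, b⟩ := ex_lv oV V.one_mem
  obtain ⟨m, hm⟩ := (tam 3 l Q o n).2.2 (ZMod 3) R (vl z) (fun g h a b => by
    rw [co z (d g (in_dec a)).1 (d h (in_dec b)).1, (d g (in_dec a)).2, one_mul])
    ⟨V', a, fun w m _ => hV w (b m)⟩
  have := hm τ t.1
  rw [e, show ka 3 l τ = 1 from t.2, map_one, one_smul] at this
  rw [hm g i, ← this, smul_zero]

end Du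

open Du in
/-- **DU** -/
theorem du (recs : RECS) (du1 : DU1) (ort : ORT) : DU := by
  intro R _ ρ J tq J0 Γ W T U χ χ' P γ hγ G G' oP sp cy oW nW lW tW gen hU hl fin' fin
  classical
  have N : Γ.Normal := Subgroup.normal_of_index_eq_two G.idx
  have out : ∀ t ∉ Γ, t * γ⁻¹ ∈ Γ ∧ γ⁻¹ * t⁻¹ ∈ Γ := fun t m => by
    simp [Subgroup.mul_mem_iff_of_index_two G.idx, m, hγ]
  have cn : Continuous fun g : GQ => γ * g * γ⁻¹ := by fun_prop
  have := Fintype.ofFinite (Zr Γ T χ' P)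
  obtain ⟨L, x, x1, x2⟩ := pick (fun (y : Zr Γ T χ' P) l (x : Ideal (𝓞 Qb) × GQ) =>
    l ∉ T ∧ Gs W l x.1 x.2 ∧ vl y (γ * x.2 * γ⁻¹) ≠ 0) (Finset.univ.erase 0) fun y m E => by
    obtain ⟨w, w1, w2⟩ : ∃ w ∈ W, vl y w ≠ 0 := by
      by_contra! c
      refine Finset.ne_of_mem_erase m (ex0 y fun g a => ?_)
      obtain ⟨d, d1, d2⟩ := gen g a
      rw [← inv_mul_cancel_right g d, co y (lW d2) (sp 3 G.thr P oP d1), c _ d2,
        st y (sp 3 G.thr P oP d1) d1, mul_zero, add_zero]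
    obtain ⟨V, oV, hV⟩ := lc y
    obtain ⟨l, a, Q, φ, b, c⟩ := ex_gs oW nW (fun w m => (tW w m).2.2)
      (O := W ∩ {g | w⁻¹ * (γ * g * γ⁻¹) ∈ V}) (g := γ⁻¹ * w * γ⁻¹⁻¹)
      (oW.inter (oV.preimage (continuous_const.mul cn)))
      ⟨nW.conj_mem _ w1 _, by simp [mul_assoc, one_mem]⟩ Set.inter_subset_left (E ∪ T)
    rw [Finset.mem_union, not_or] at a
    refine ⟨l, a.1, (Q, φ), a.2, c, ?_⟩
    rwa [← mul_inv_cancel_left w (γ * φ * γ⁻¹), co y (lW w1)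
      (lW (mul_mem (inv_mem w1) (nW.conj_mem _ b.1 _))), hV _ b.2, mul_zero, add_zero]
  have xT : ∀ l ∈ L, l ∉ T := fun l m => (x1 l m).elim fun _ h => h.1
  have xG : ∀ l ∈ L, Gs W l (x l).1 (x l).2 := fun l m => (x1 l m).elim fun _ h => h.2.1
  let c (e : Bool) : GQ := bif e then γ else 1
  let Pl (i : L × Bool) := c i.2 • (x i.1).1
  have o (i : L × Bool) : Ov i.1 (Pl i) := ov_sm (xG _ i.1.2).ov _
  have ne (i : L × Bool) : i.1.1 ≠ 3 := fun e => xT _ i.1.2 (e ▸ G.thr)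
  have dW (i : L × Bool) : dec (Pl i) ≤ W := (xG _ i.1.2).le _ (o i)
  have pl : ∀ l ∈ L, ∀ Q, Ov l Q → ∃ i, ∃ h ∈ Γ, Q = h • Pl i := fun l m Q q => by
    obtain ⟨t, rfl⟩ := P022E.GW.Tg.trans (xG l m).ov q
    by_cases k : t ∈ Γ
    · exact ⟨(⟨l, m⟩, false), t, k, by simp [Pl, c]⟩
    · exact ⟨(⟨l, m⟩, true), _, (out t k).1, by simp [Pl, c, mul_smul]⟩
  choose τ hτ using fun i => ex_gn (o i) (ne i)
  obtain ⟨w, w1, w2⟩ := recs 1
  let f : Zr Γ (T ∪ L) χ P →+ (L × Bool → R) := .mk' (fun z i => vl z (τ i)) fun _ _ => rfl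
  let f' : Zr Γ T χ' P →+ (L × Bool → R) :=
    .mk' (fun y i => vl y (γ * (c i.2 * (x i.1).2 * (c i.2)⁻¹) * γ⁻¹)) fun _ _ => rfl
  have key : ∀ z, ∀ y ∈ Y0 Γ T χ' P, ∑ i, w i.1 (τ i) • (f z i * f' y i) = 0 := fun z y hy => by
    obtain ⟨V, oV, hV⟩ := lc z
    obtain ⟨V', oV', hV'⟩ := lc y
    refine w2 Γ R R R AddMonoidHom.mul (fun g => .mulLeft (χ g))
      (fun g => .mulLeft (χ' (γ * g * γ⁻¹))) (vl z) (fun g => vl y (γ * g * γ⁻¹)) (L × Bool)
      (fun i => i.1) Pl (fun i => c i.2 * (x i.1).2 * (c i.2)⁻¹) τ G.opn G.idx G.cx (Or.three ρ)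
      ⟨fun g a h b x => ?_, fun g a h b => co z a b, W ⊓ V, oW.inter oV, fun g _ m =>
        ⟨fun x => by simp [(tW g m.1).1], hV g m.2⟩⟩
      ⟨fun g a h b x => ?_, fun g a h b => ?_, W ⊓ V'.comap (MulAut.conj γ).toMonoidHom,
        oW.inter (oV'.preimage cn), fun g _ m =>
        ⟨fun x => by simp [(tW _ (nW.conj_mem _ m.1 γ)).2.1], hV' _ m.2⟩⟩
      (fun g a k e x y => ?_) (fun i => ⟨o i, ne i, ?_, fb_sm (xG _ i.1.2).fb _, hτ i,
        (dW i).trans lW, fun g m => ⟨fun x => by simp [(tW g (dW i m)).1], fun x => by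
          simp [(tW _ (nW.conj_mem _ (dW i m) γ)).2.1]⟩,
        fun g m => un y ⟨_, xT _ i.1.2, _, ov_sm (o i) γ, in_sm m⟩⟩) ?_ fun p Q q n => ?_
    · simp [mu G a b, mul_assoc]
    · rw [← conj_mul, mu G' (N.conj_mem _ a γ) (N.conj_mem _ b γ)]
      exact mul_assoc _ _ _
    · rw [← conj_mul]
      exact co y (N.conj_mem _ a γ) (N.conj_mem _ b γ)
    · have : oz 3 g = k := pw_inj (by rw [← oz_spec, pw_nat]; exact e _ zt_pow)
      have t := cy g a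
      rw [this, map_natCast, map_natCast] at t
      show χ g * x * (χ' _ * y) = k • (x * y)
      rw [nsmul_eq_mul, ← t]
      ring
    · have := (xG _ i.1.2).md
      show 3 ∣ _
      omega
    · rintro ⟨⟨l, m⟩, e⟩ ⟨⟨l', m'⟩, e'⟩ g a k
      obtain rfl : l = l' := ov_eq (ov_sm (o (⟨l, m⟩, e)) g) (k ▸ o (⟨l', m'⟩, e'))
      have d : (c e')⁻¹ * g * c e ∈ Γ := lW ((xG l m).le _ (xG l m).ov (stab (by
        rw [mul_smul, mul_smul, inv_smul_eq_iff]
        exact k.symm)))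
      cases e <;> cases e' <;>
        simp [c, Subgroup.mul_mem_iff_of_index_two G.idx, a, hγ] at d ⊢
    have pL : p ∉ L := fun m => by
      obtain ⟨i, h, a, e⟩ := pl p m Q q
      exact n i h a e
    by_cases p3 : p = 3
    · subst p3
      obtain ⟨t, rfl⟩ := P022E.GW.Tg.trans oP q
      by_cases k : t ∈ Γ
      · exact ⟨t⁻¹, inv_mem k, .inl ⟨0, fun g m => by
          simpa using st z m.1 (inv_smul_smul t P ▸ m.2)⟩⟩
      · refine ⟨_, (out t k).2, .inr (.inl ⟨0, fun g m => ?_⟩)⟩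
        simpa using st y (N.conj_mem _ m.1 γ) (by simpa [mul_smul] using dec_sm (t := γ) m.2)
    refine ⟨1, one_mem _, .inr ?_⟩
    rw [one_smul]
    by_cases pT : p ∈ T
    · obtain ⟨m, hm⟩ := hy p pT p3 _ (ov_sm q γ)
      exact .inl ⟨m, fun g k => (hm _ (dec_sm k.2)).trans (sub_one_mul _ _)⟩
    · exact .inr ⟨p3, fun g k => ⟨fun x => by simp [ur G k.1 ⟨p, pT, Q, q, k.2⟩],
        un z ⟨p, by simp [pT, pL], Q, q, k.2⟩⟩, fun g k => ⟨fun x => by
          simp [ur G' (N.conj_mem _ k.1 γ) ⟨p, pT, _, ov_sm q γ, in_sm k.2⟩],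
        un y ⟨p, pT, _, ov_sm q γ, in_sm k.2⟩⟩⟩
  let B : AddSubgroup (L × Bool → R) := ⨅ z, (AddMonoidHom.mk'
    (fun y : L × Bool → R => ∑ i, w i.1 (τ i) • (f z i * y i)) fun a b => by
      simp only [Pi.add_apply, mul_add, smul_add, Finset.sum_add_distrib]).ker
  obtain ⟨fR, h3⟩ := ort R ρ J tq _ (fun i => w i.1 (τ i)) f.range B
    (fun i => w1 _ _ _ (o i) (ne i) (hτ i)) (by
      rintro _ ⟨z, rfl⟩ y m
      exact AddSubgroup.mem_iInf.1 m z)
  have h4 := Nat.card_le_card_of_injective (fun y : Y0 Γ T χ' P =>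
    (⟨f' y, AddSubgroup.mem_iInf.2 fun z => key z y y.2⟩ : B)) fun y y' e => Subtype.ext (by
      by_contra n
      obtain ⟨l, m, -, -, k⟩ := x2 (y.1 - y'.1) (by simpa [sub_eq_zero] using n)
      have := congrFun ((map_sub f' y.1 y'.1).trans (sub_eq_zero.2 (congrArg Subtype.val e)))
        (⟨l, m⟩, false)
      exact k (by simpa [f', c] using this))
  have pr : ∀ l ∈ L, l.Prime := fun l m => (xG l m).ov.1
  have h1 := du1 R ρ J tq J0 Γ (T ∪ L) U L χ P ⟨⟨G.opn, G.idx, G.cx, Finset.mem_union_left _ G.two,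
      fun l m => (Finset.mem_union.1 m).elim (G.pr l) (pr l), G.one, G.mul, G.lc,
      fun g a ⟨l, n, k⟩ => G.unr g a ⟨l, fun m => n (Finset.mem_union_left _ m), k⟩⟩,
      Finset.mem_union_left _ G.thr⟩ oP (sp 3 G.thr P oP)
    (Finset.disjoint_left.2 fun l a b => xT l b (hU l a).1)
    (fun l m => (Finset.mem_union.1 m).elim (fun m => ⟨Finset.mem_union_left _ (hU l m).1,
      (hU l m).2.1, fun Q q => ⟨sp l (hU l m).1 Q q, (hU l m).2.2 Q q⟩⟩) fun m =>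
      ⟨Finset.mem_union_right _ m, (xG l m).md, fun Q q => ⟨((xG l m).le Q q).trans lW,
        fun g k => by simp [(tW g ((xG l m).le Q q k)).1]⟩⟩)
    (fun l m Q q g k => (tW g ((xG l m).le Q q k)).1) (by
      obtain ⟨l, a, b, c, Q, q, r⟩ := hl
      exact ⟨l, Finset.mem_union_left _ a, b, fun m => (Finset.mem_union.1 m).elim c (xT l · a), Q,
        q, sp l a Q q, r⟩)
  have f0 := fin ∅ (by simp)
  rw [Finset.union_empty] at f0
  have h2 := Nat.card_le_card_of_injective (fun z : f.ker => (⟨z.1.1, z.1.2.1, z.1.2.2.1,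
    z.1.2.2.2.1, fun g ⟨l, n, Q, q, k⟩ => funext fun j => Subsingleton.elim 0 j ▸ (by
      by_cases m : l ∈ L
      · obtain ⟨i, h, a, rfl⟩ := pl l m Q q
        have k' := P022E.GW.Tg.inert_conj k
        have := cj z.1 (lW (dW i (in_dec k'))) a (tW _ (nW.conj_mem _ (dW i (in_dec k')) h)).1
        rw [tm ρ z.1 (o i) (ne i) (hτ i) (fun g m => ⟨lW (dW i m), (tW g (dW i m)).1⟩)
          (congrFun z.2 i) k'] at this
        simpa [mul_assoc] using this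
      · exact un z.1 ⟨l, by simpa [m] using n, Q, q, k⟩), z.1.2.2.2.2.2⟩ : Zr Γ T χ P))
    fun z z' e => Subtype.ext (Subtype.ext (congrArg (fun u : Zr Γ T χ P => u.1) e))
  rw [f.ker.card_eq_card_quotient_mul_card_addSubgroup,
    Nat.card_congr (QuotientAddGroup.quotientKerEquivRange f).toEquiv] at h1
  rw [Fintype.card_prod, Fintype.card_coe, Fintype.card_bool, mul_comm L.card] at h3
  refine Nat.le_of_mul_le_mul_left (h1.trans' ?_ |>.trans (Nat.mul_le_mul_left _ h2))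
    (Nat.card_pos (α := f.range))
  rw [mul_left_comm]
  exact Nat.mul_le_mul_left _ ((Nat.mul_le_mul_left _ h4).trans h3)

end Vale.Agent.P014Y.Rd
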