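import Vale.Agent.P014Y.Rd.St2
import Vale.Agent.P014Y.F.Cn.Gen
import Vale.Agent.P014Y.F.Pn.Pn
import Vale.Agent.P014Y.Base

/-!
# P014Y, route R: the row `DU1` (helper93)
-/

set_option autoImplicit false
set_option linter.all false

open NumberField Matrix
open scoped Pointwise PowerSeries Classical

noncomputable section

namespace Vale.Agent.P014Y.Rd

open Vale.Agent.P022 Vale.Agent.P022K Vale.Agent.P014U
open Vale.Agent.P022D.W (dec inP_le_dec)
open Vale.Agent.P022E.GW (Ov Fb)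
open Vale.Agent.P004F (M2 Cc Nt)
open Vale.Agent.P004F.Pr (ac)
open Vale.Agent.P004F.Lt (zero_ac)

namespace D1

variable {R : Type} [CommRing R]

/-- a square system whose local relations have entries in ideals -/
theorem cnt [Finite R] {ι : Type} [Fintype ι] {g r : ℕ} (Q : Matrix (Fin r) (Fin g) R)
    (N : ι → Matrix (Fin 2) (Fin g) R) (S : ι → Ideal R) (c : ι → ℕ)
    (e : r + 2 * Fintype.card ι = g) (hN : ∀ i j k, N i j k ∈ S i)
    (hc : ∀ i, c i * Nat.card (S i) ≤ Nat.card R) :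
    (∏ i, c i) ^ 2 ≤ Nat.card {y | Q *ᵥ y = 0 ∧ ∀ i, N i *ᵥ y = 0} := by
  let f : (Fin g → R) →+ (Fin r → R) × ∀ i, Fin 2 → S i := .mk' (fun y => (Q *ᵥ y, fun i j =>
    ⟨(N i *ᵥ y) j, (S i).sum_mem (t := .univ) fun k _ => (S i).mul_mem_right (y k) (hN i j k)⟩)) fun x y =>
      Prod.ext (mulVec_add Q x y) (funext₂ fun i j => Subtype.ext (congrFun (mulVec_add (N i) x y) j))
  have k0 : Nat.card f.ker = Nat.card {y | Q *ᵥ y = 0 ∧ ∀ i, N i *ᵥ y = 0} :=
    Nat.card_congr (Equiv.subtypeEquivRight fun y => Prod.ext_iff.trans (and_congr_right' (by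
      simp only [funext_iff, Subtype.ext_iff]; rfl)))
  have k1 := f.ker.card_mul_index
  have k2 := AddSubgroup.card_le_card_addGroup f.range
  rw [← AddSubgroup.index_ker, Nat.card_prod, Nat.card_pi, Nat.card_pi] at k2
  rw [k0, Nat.card_pi] at k1
  simp only [Nat.card_pi, Finset.prod_const, Finset.card_univ, Fintype.card_fin] at k1 k2
  refine Nat.le_of_mul_le_mul_right (le_trans ?_ (k1.ge.trans (Nat.mul_le_mul_left _ k2)))
    (mul_pos (pow_pos Nat.card_pos _) (Finset.prod_pos fun _ _ => pow_pos Nat.card_pos _))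
  rw [← e, pow_add, mul_left_comm, Finset.prod_pow, ← mul_pow, ← Finset.prod_mul_distrib, pow_mul']
  exact Nat.mul_le_mul_left _ (Nat.pow_le_pow_left (Finset.prod_le_pow_card _ _ _ fun i _ => hc i) 2)

theorem nt (S : Ideal R) {u v : R} {q : ℕ} (hu : u - 1 ∈ S) (hv : v - 1 ∈ S) (hq : (q : R) = 1)
    (j k) : Nt (u • (1 : M2 R)) (v • 1) q j k ∈ S := by
  have a := Ideal.Quotient.eq.2 hu
  have b := Ideal.Quotient.eq.2 hv
  have c := congrArg (Ideal.Quotient.mk S) hq
  rw [map_natCast] at c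
  rw [← Ideal.Quotient.eq_zero_iff_mem]
  rcases k with k | k <;>
    simp [Nt, smul_pow, Matrix.sum_apply, Matrix.one_apply, apply_ite (Ideal.Quotient.mk S), a, b, c]

theorem acs {n : Type} [Fintype n] [DecidableEq n] (u : R) (x : n → R) :
    ac (u • (1 : Matrix n n R)) x = u • x := (smul_mulVec _ _ _).trans (by rw [one_mulVec])

end D1

open D1 in
theorem du1 : DU1 := by
  intro R _ ρ J ⟨hs, hk⟩ J0 Γ T U L χ P G oP dP dj hU hL ⟨s, s1, s2, s3, Q₀, o₀, d₀, r₀⟩
  have := Finite.of_equiv _ (P004F.Alg.ps_equiv ρ hs hk).some.symm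
  let π : R →+* ZMod 3 := ρ.liftOfSurjective hs ⟨PowerSeries.constantCoeff, fun x hx =>
    PowerSeries.X_dvd_iff.1 ((dvd_pow_self _ J0.ne').trans ((hk x).1 hx))⟩
  have := π.domain_nontrivial
  have := IsLocalRing.of_surjective' ρ hs
  have h3 : ((3 : ℕ) : R) = 0 := by
    rw [← map_natCast (ρ.comp PowerSeries.C), ZMod.natCast_self, map_zero]
  have πt : ∀ {x : R}, tt ρ ∣ x → x ∈ RingHom.ker π := fun ⟨y, e⟩ => by
    rw [e]
    exact Ideal.mul_mem_right _ _ ((ρ.liftOfSurjective_comp_apply _ _ _).trans PowerSeries.constantCoeff_X)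
  have r1' : ∀ {g}, P004R.r1 χ g = 1 → χ g • (1 : M2 R) = 1 := fun e => by
    rw [show χ _ = 1 by simpa [P004R.r1] using congrFun₂ e 0 0, one_smul]
  have G' : F.Gd Γ T fun g => χ g • (1 : M2 R) :=
    ⟨⟨G.opn, G.idx, G.cx, G.two, G.pr, r1' G.one, fun g a h b => by
      rw [show χ (g * h) = χ g * χ h by simpa [P004R.r1, mul_comm] using congrFun₂ (G.mul g a h b) 0 0,
        smul_mul_smul_comm, mul_one], G.lc.imp fun W k => ⟨k.1, fun w a b => r1' (k.2 w a b)⟩,
      fun g a b => r1' (G.unr g a b)⟩, G.thr⟩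
  obtain ⟨c, hc⟩ : ∃ c, c ∉ Γ := by
    by_contra! k
    have := G.idx
    rw [(Subgroup.eq_top_iff' Γ).2 k, Subgroup.index_top] at this
    omega
  choose P0 o0 using fun l : (U ∪ L : Finset ℕ) => GW.Pl.ex_ov (G.pr l (hU l l.2).1)
  let p : (U ∪ L : Finset ℕ) × Bool → Ideal (𝓞 Qb) := fun i => cond i.2 (c • P0 i.1) (P0 i.1)
  have o : ∀ i, Ov i.1 (p i) := by rintro ⟨l, _ | _⟩; exacts [o0 l, GW.ov_smul (o0 l) c]
  have n3 : ∀ l : (U ∪ L : Finset ℕ), l.1 ≠ pp := fun l e => by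
    have := (hU l l.2).2.1
    rw [e] at this
    exact absurd this (by decide)
  have k := fun i : (U ∪ L : Finset ℕ) × Bool => (hU i.1 i.1.2).2.2 _ (o i)
  choose φ hφ using fun i => P022D.W.exists_phi (o i).1 (o i).2.1 (o i).2.2
  choose τ hτ using fun i => ex_gn (o i) (n3 i.1)
  have tp : ∀ i, F.Cn.Tp Γ (fun g => χ g • (1 : M2 R)) i.1 (p i) (φ i) (τ i) := fun i =>
    ⟨n3 i.1, o i, hφ i, hτ i, (k i).1, fun g m => ⟨J, by
      obtain ⟨y, e⟩ := (k i).2 g (inP_le_dec m)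
      obtain ⟨z, e'⟩ := exists_add_pow_prime_pow_eq Nat.prime_three (tt ρ * y) 1 J
      rw [smul_pow, one_pow, sub_eq_iff_eq_add.1 e, pp3, e', h3, mul_pow, ← map_pow,
        (hk _).2 (pow_dvd_pow _ (Nat.lt_pow_self (by decide)).le)]
      simp⟩⟩
  obtain ⟨g, r, Q, w, F, e, bij, -⟩ := F.Cn.gen F.Pn.presn π h3 G' oP dP (fun i => i.1.1) p φ τ
    (fun i => (hU _ i.1.2).1) tp
    (by
      rintro ⟨l, b⟩ ⟨l', b'⟩ g m e
      obtain rfl : l = l' := Subtype.ext
        (GW.Pl.ov_uniq (GW.ov_smul (o (l, b)) g) (e ▸ o (l', b')))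
      have le := (k (l, false)).1
      rcases b with _ | _ <;> rcases b' with _ | _
      · rfl
      · exact (hc ((Γ.mul_mem_cancel_left (inv_mem m)).1 (le ((GW.Pl.dec_iff _ _).2 (by
          rw [mul_smul, inv_smul_eq_iff]; exact e))))).elim
      · exact (hc ((Γ.mul_mem_cancel_left m).1 (le ((GW.Pl.dec_iff _ _).2 (by
          rw [mul_smul]; exact e.symm))))).elim
      · rfl)
    ⟨s, s1, s2, Q₀, o₀, d₀, fun g m => by
      have := sub_eq_zero.1 ((map_sub π _ _).symm.trans (πt (r₀ g m)))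
      ext i j
      simp [this, Matrix.one_apply, apply_ite π], fun i e => s3 (e ▸ i.1.2)⟩
  have l1 : ∀ l : (U ∪ L : Finset ℕ), (l.1 : R) = 1 := fun l => by
    rw [← Nat.mod_add_div l.1 3, (hU l l.2).2.1, Nat.cast_add, Nat.cast_mul, h3]; simp
  have c1 := cnt Q (fun i => Nt (χ (φ i) • 1) (χ (τ i) • 1) i.1 * w i)
    (fun i => if i.1.1 ∈ L then ⊥ else RingHom.ker π) (fun i => if i.1.1 ∈ L then Nat.card R else 3) e
    (fun i j k' => Ideal.sum_mem _ (t := .univ) fun t _ =>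
      Ideal.mul_mem_right (w i t k') _ (nt _ ?_ ?_ (l1 i.1) j t)) fun i => ?_
  rotate_left
  · split_ifs with h
    exacts [sub_eq_zero.2 (hL _ h _ (o i) _ (tp i).mφ), πt ((k i).2 _ (tp i).mφ)]
  · split_ifs with h
    exacts [sub_eq_zero.2 (hL _ h _ (o i) _ (tp i).mτ), πt ((k i).2 _ (tp i).mτ)]
  · split_ifs with h
    · simp
    · have := π.toAddMonoidHom.ker.card_mul_index
      rw [AddSubgroup.index_ker, AddMonoidHom.range_eq_top.2 (ZMod.ringHom_surjective π),
        AddSubgroup.card_top, Nat.card_zmod, mul_comm] at this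
      exact this.le
  replace c1 := c1.trans_eq (Nat.card_congr bij.equiv)
  rw [Fintype.prod_prod_type, (Finset.prod_coe_sort (U ∪ L) fun l => ∏ _ : Bool,
    if l ∈ L then Nat.card R else 3 :), Finset.prod_union dj, Finset.prod_congr rfl fun l a => by
      rw [if_neg (Finset.disjoint_left.1 dj a)], Finset.prod_congr (s₁ := L) rfl fun l a => by
      rw [if_pos a]] at c1
  simp only [Finset.prod_const, Finset.card_univ, Fintype.card_bool, ← pow_mul _ 2] at c1
  have fin := ((Set.toFinite _).of_surjOn F bij.2.2).to_subtype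
  have : Finite (Zr Γ T χ P) := .of_injective (β := {x | Cc Γ T (fun g => χ g • (1 : M2 R)) x ∧
      ∀ g ∈ dec P, x g = (0 : Fin 2 → R)}) (fun z => ⟨fun g _ => z.1.1 g 0, by
    obtain ⟨z, z1, z2, ⟨W, oW, z3⟩, z4, z5⟩ := z
    exact ⟨⟨fun g a h b => funext fun j => by
      rw [acs]; exact (congrFun (z1 g a h b) 0).trans (by rw [P004R.r1, acs]; rfl),
      fun g a => funext fun _ => congrFun (z2 g a) 0, ⟨W, oW, fun g a => funext fun _ =>
        congrFun (z3 g a) 0⟩, fun g a => funext fun _ => congrFun (z4 g a) 0⟩, fun g a =>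
      funext fun _ => congrFun ((z5 () g ⟨dP a, a⟩).trans (zero_ac _)) 0⟩⟩) fun z z' e =>
    Subtype.ext (Prod.ext (funext₂ fun g j => by
      rw [Subsingleton.elim j 0]; exact congrFun₂ (congrArg Subtype.val e) g 0)
      (Subsingleton.elim _ _))
  refine (Nat.pow_le_pow_iff_left two_ne_zero).1 (c1.trans ((Nat.card_le_card_of_injective
    (β := Fin 2 → Zr Γ T χ P) (fun x j => ⟨(fun g _ => x.1 g j, Empty.elim), ?_⟩)
      fun x y e => ?_).trans (by simp [Nat.card_pi])))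
  · obtain ⟨x, ⟨x1, x2, ⟨W, oW, x3⟩, x4⟩, x5⟩ := x
    exact ⟨fun g a h b => funext fun _ => by
      rw [P004R.r1, acs]; exact (congrFun (x1 g a h b) j).trans (by rw [acs]; rfl),
      fun g a => funext fun _ => congrFun (x2 g a) j, ⟨W, oW, fun g a => funext fun _ =>
        congrFun (x3 g a) j⟩, fun g a => funext fun _ => congrFun (x4 g a) j, fun _ g a =>
      (funext fun _ => congrFun (x5 g a.2) j).trans (zero_ac _).symm⟩
  · exact Subtype.ext (funext₂ fun g j =>
      congrFun₂ (congrArg (fun z => z.1.1) (congrFun e j)) g 0)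

end Vale.Agent.P014Y.Rd
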