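import Vale.Agent.P014Y.Rd.St
import Vale.Agent.P004R.Ext
import Vale.Agent.P004R.Fld
import Vale.Agent.P004F.Pt.Kd

/-!
# P014Y, route R, row EXT: ring class characters with prescribed ramification and values
-/

set_option autoImplicit false
set_option linter.all false

open NumberField IsDedekindDomain
open scoped Pointwise

noncomputable section

namespace Vale.Agent.P014Y.Rd

open Vale.Agent.P022 (Qb GQ GK below)
open P004K P004K.Rc P004R.Xt
open Vale.Agent.P027M.S (Inert)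
open Vale.Agent.P022D.W (dec)
open Vale.Agent.P022E.GW (Ov Fb)
open Vale.Agent.P004S (ov_dvd)
open P004F.Pt (cj_out ex_q)
open P004R.Gl (below_pr below_ne eq_of_norm)

namespace Xt

variable {K : Type} [Field K] [NumberField K] {j : K →+* Qb} {ω : 𝓞 K} {s : 𝓞 K →+* 𝓞 K}
  {c l N : ℕ} {P : Ideal (𝓞 Qb)} {φ γ : GQ} {ζ : Qb}

theorem one_of {G : Type} [Group G] (H : Subgroup G) {k : ℕ} (φ : Fin k → G) (i : Fin k)
    (h : ∀ i' ≠ i, φ i' ∈ H) (e : (List.ofFn φ).prod ∈ H) : φ i ∈ H := by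
  induction k with
  | zero => exact i.elim0
  | succ k ih =>
    rw [List.ofFn_succ, List.prod_cons] at e
    cases i using Fin.cases with
    | zero => exact (H.mul_mem_cancel_right (H.list_prod_mem fun x hx => by
        obtain ⟨i, rfl⟩ := List.mem_ofFn.1 hx; exact h _ (Fin.succ_ne_zero i))).1 e
    | succ i =>
      exact ih (fun i' => φ i'.succ) i (fun i' n => h _ fun a => n (Fin.succ_injective _ a))
        ((H.mul_mem_cancel_left (h _ (Fin.succ_ne_zero i).symm)).1 e)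

theorem mdn (o : Ov l P) (f : Fb l P φ) (hN : ¬ l ∣ N) (N1 : 1 < N) (hζ : IsPrimitiveRoot ζ N)
    (h : Fx {1} N φ) : l % N = 1 := by
  obtain ⟨z, rfl, e⟩ := ex_int (y := ζ) (N := N) (by omega) (w := 1) hζ.pow_eq_one
  obtain ⟨t, rfl⟩ := Nat.exists_eq_succ_of_ne_zero o.1.ne_zero
  have a := P.neg_mem (f z)
  rw [show φ • z = z from RingOfIntegers.ext (h z hζ.pow_eq_one), neg_sub, pow_succ, ← sub_one_mul] at a
  have b := unit_one o hN (η := z ^ t) (by rw [← pow_mul, mul_comm, pow_mul, e, one_pow])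
    ((o.2.1.mem_or_mem a).resolve_right fun k => o.2.1.ne_top ((Ideal.eq_top_iff_one _).2
      (e ▸ P.pow_mem_of_mem k N (by omega))))
  obtain ⟨u, rfl⟩ := hζ.dvd_of_pow_eq_one t (by
    simpa using congrArg (algebraMap (𝓞 Qb) Qb) b)
  rw [Nat.succ_eq_add_one, Nat.mul_add_mod, Nat.mod_eq_of_lt N1]

/-- a prime of degree one and its conjugate -/
theorem spl (h1 : RC1) (hK : Iq K) (q : Qd (JJ j) ω s) (hγ : γ ∉ GK j) (o : Ov l P)
    (le : dec P ≤ GK j) (f : Fb l P φ) :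
    Typ K l (l - 1) ∧ ∃ v : 𝓞 K, iz j v - 1 ∈ P ∧ iz j (s v) ∈ P := by
  have o' := P004R.Fd.ov_smul o γ
  have m : φ ∈ GK j := le (P022D.W.phi_mem o.1 o.2.1 f)
  have ne : below j P ≠ below j (γ • P) := fun z => hγ (by
    obtain ⟨g, hg⟩ := P022.H916.exists_smul j o.2.1 o'.2.1 z
    have : (g : GQ)⁻¹ * γ ∈ dec P := fun x => by
      rw [mul_smul, ← Ideal.mem_pointwise_smul_iff_inv_smul_mem, ← hg,
        Ideal.smul_mem_pointwise_smul_iff]
    simpa using mul_mem g.2 (le this))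
  have n1 := below_ne j o.1.ne_zero o.2.2
  have n2 := below_ne j o.1.ne_zero o'.2.2
  have cop : below j P ⊔ below j (γ • P) = ⊤ :=
    ((below_pr j o.2.1).isMaximal n1).coprime_of_ne ((below_pr j o'.2.1).isMaximal n2) ne
  have m' : γ * φ * γ⁻¹ ∈ GK j := by
    simpa using (GK j).mul_mem ((h1 K j hK 1 one_pos).2.2.2.2.1 γ hγ φ m).1 (inv_mem m)
  refine ⟨⟨o.1, .inr ⟨⟨_, _, cop, (below_pr j o.2.1).ne_top, (below_pr j o'.2.1).ne_top,
    (eq_of_norm ?_ ?_ (mul_ne_zero n1 n2)).symm⟩, Nat.sub_add_cancel o.1.pos⟩⟩, ?_⟩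
  · rw [Ideal.mul_eq_inf_of_coprime cop, Ideal.span_singleton_le_iff_mem]
    exact ⟨(P004R.Gl.mem_below l).2 o.2.2, (P004R.Gl.mem_below l).2 o'.2.2⟩
  · rw [map_mul, norm_below hK o f m, norm_below hK o' (P004R.Fd.fb_smul f γ) m',
      Ideal.absNorm_span_natCast, RingOfIntegers.rank, hK.two, pow_two]
  · obtain ⟨u, hu, v, hv, e⟩ := Submodule.mem_sup.1 (cop ▸ Submodule.mem_top : (1 : 𝓞 K) ∈ _)
    refine ⟨v, ?_, ?_⟩
    · rw [← map_one (iz j), ← map_sub, ← e, sub_add_cancel_right, map_neg]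
      exact P.neg_mem hu
    · rw [mem_below, Ideal.mem_pointwise_smul_iff_inv_smul_mem] at hv
      rwa [show iz j (s v) = γ⁻¹ • iz j v from
        RingOfIntegers.ext (cj_out q (mt (GK j).inv_mem_iff.1 hγ) v).symm]

theorem arf (h2 : RC2) (hK : Iq K) (hc : 0 < c) (o : Ov l P) (le : dec P ≤ GK j) (f : Fb l P φ)
    (lc : ¬ l ∣ c) : Cop c (below j P) ∧ Ar j c (below j P) φ := by
  have m : φ ∈ GK j := le (P022D.W.phi_mem o.1 o.2.1 f)
  have ar := (h2 K j hK c hc).2.2.2.2.2.2 P o.2.1 (fun a => o.1.ne_zero (by simpa [a] using o.2.2))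
    (fun a => lc (Int.natCast_dvd_natCast.1 (ov_dvd o (by simpa using a)))) φ m 1
    (by rw [norm_below hK o f m, pow_one]; exact f)
  obtain ⟨u, v, uv⟩ := Nat.isCoprime_iff_coprime.2 ((Nat.Prime.coprime_iff_not_dvd o.1).2 lc)
  exact ⟨cop_of (below_ne j o.1.ne_zero o.2.2)
    (Ideal.mul_mem_left _ (u : 𝓞 K) ((P004R.Gl.mem_below l).2 o.2.2)) (b := v)
      (by rw [mul_comm (c : 𝓞 K)]; exact_mod_cast congrArg (Int.cast : ℤ → 𝓞 K) uv), pow_one (below j P) ▸ ar⟩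

/-- extension to all ideals -/
theorem ex_f {Z : Type} [AddCommGroup Z] {lam : 𝓞 K → Z} {B : Finset ℕ} {p : ℕ → Ideal (𝓞 K)}
    {y : ℕ → Z} (add : ∀ a b, a ≠ 0 → b ≠ 0 → lam (a * b) = lam a + lam b) (p0 : ∀ b ∈ B, p b ≠ ⊥)
    (gen : ∀ I ≠ ⊥, ∃ (μ : ℕ → ℕ) (β : 𝓞 K), I * ∏ b ∈ B, p b ^ μ b = Ideal.span {β})
    (rl : ∀ (μ : ℕ → ℕ) β, ∏ b ∈ B, p b ^ μ b = Ideal.span {β} → lam β = ∑ b ∈ B, μ b • y b) :
    ∃ f : Ideal (𝓞 K) → Z, (∀ I I', I ≠ ⊥ → I' ≠ ⊥ → f (I * I') = f I + f I') ∧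
      (∀ I ≠ ⊥, ∀ (μ : ℕ → ℕ) β, I * ∏ b ∈ B, p b ^ μ b = Ideal.span {β} →
        f I + ∑ b ∈ B, μ b • y b = lam β) ∧ ∀ b ∈ B, f (p b) = y b := by
  classical
  have n (μ : ℕ → ℕ) : ∏ b ∈ B, p b ^ μ b ≠ ⊥ :=
    Finset.prod_ne_zero_iff.2 fun b m => pow_ne_zero _ (p0 b m)
  have z {I : Ideal (𝓞 K)} {β : 𝓞 K} (i : I ≠ ⊥) (e : I = Ideal.span {β}) : β ≠ 0 := fun a =>
    i (by rw [e, a, Ideal.span_singleton_eq_bot])
  have ad (μ ν : ℕ → ℕ) : ∏ b ∈ B, p b ^ (μ + ν) b = (∏ b ∈ B, p b ^ μ b) * ∏ b ∈ B, p b ^ ν b := by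
    simp only [Pi.add_apply, pow_add, Finset.prod_mul_distrib]
  have ay (μ ν : ℕ → ℕ) : ∑ b ∈ B, (μ + ν) b • y b = ∑ b ∈ B, μ b • y b + ∑ b ∈ B, ν b • y b := by
    simp only [Pi.add_apply, add_smul, Finset.sum_add_distrib]
  have wd (I : Ideal (𝓞 K)) (i : I ≠ ⊥) (μ μ' : ℕ → ℕ) (β β' : 𝓞 K)
      (e : I * ∏ b ∈ B, p b ^ μ b = Ideal.span {β}) (e' : I * ∏ b ∈ B, p b ^ μ' b = Ideal.span {β'}) :
      lam β - ∑ b ∈ B, μ b • y b + ∑ b ∈ B, μ' b • y b = lam β' := by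
    obtain ⟨ν, α, a⟩ := gen _ (n μ)
    have b0 := z (mul_ne_zero i (n μ)) e
    have k : Ideal.span {β' * α} = Ideal.span {β} * ∏ b ∈ B, p b ^ (μ' + ν) b := by
      rw [← Ideal.span_singleton_mul_span_singleton, ← e', ← a, ← e, ad]
      ring
    obtain ⟨α', h⟩ : β ∣ β' * α := Ideal.span_singleton_le_span_singleton.1 (k ▸ Ideal.mul_le_left)
    rw [h, ← Ideal.span_singleton_mul_span_singleton] at k
    have k' := (mul_left_cancel₀ (mt Ideal.span_singleton_eq_bot.1 b0) k).symm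
    rw [← ad] at a
    have r := congrArg lam h
    rw [add _ _ (z (mul_ne_zero i (n μ')) e') (z (n _) a), add _ _ b0 (z (n _) k'), rl _ _ a,
      rl _ _ k', ay, ay] at r
    linear_combination (norm := abel) -r
  choose! μ β h using gen
  have k (I : Ideal (𝓞 K)) (i : I ≠ ⊥) := fun ν α => wd I i _ ν _ α (h I i)
  refine ⟨fun I => lam (β I) - ∑ b ∈ B, μ I b • y b, fun I I' i i' => ?_, k, fun b m => ?_⟩
  · have := k _ (mul_ne_zero i i') (μ I + μ I') (β I * β I') (by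
      rw [ad, ← Ideal.span_singleton_mul_span_singleton, ← h I i, ← h I' i']; ring)
    rw [add _ _ (z (mul_ne_zero i (n _)) (h I i)) (z (mul_ne_zero i' (n _)) (h I' i')), ay] at this
    beta_reduce
    linear_combination (norm := abel) this
  · have := rl (Pi.single b 1 + μ (p b)) (β (p b)) (by
      rw [ad, ← h _ (p0 b m), Finset.prod_eq_single b (fun a _ n => by simp [n]) fun a => absurd m a]
      simp)
    rw [ay, Finset.sum_eq_single b (fun a _ n => by simp [n]) fun a => absurd m a] at this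
    simp [this]

/-- total ramification -/
theorem ram (h2 : RC2) (h3 : RC3) (hK : Iq K) (hU : Upm K) (ty : Typ K l (l - 1)) (hc : 0 < c)
    (hd : ¬ l ∣ c) [NeZero N] {e : GQ → ZMod N}
    (add : ∀ g ∈ GK j, ∀ h ∈ GK j, e (g * h) = e g + e h) (ker : ∀ g ∈ Hc j (c * l), e g = 0)
    {a : 𝓞 K} (cp : Cop (c * l) (Ideal.span {((1 : ℤ) : 𝓞 K) + c * a}))
    (un : ∀ g, Ar j (c * l) (Ideal.span {((1 : ℤ) : 𝓞 K) + c * a}) g → IsUnit (e g))
    (o : Ov l P) : ∃ t, Inert P t ∧ e t = 1 := by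
  obtain ⟨τ, i1, i2⟩ := (h3 K j hK hU).2 l _ ty P o.2.1 o.2.2
  obtain ⟨g1, -, g3⟩ := i2 c hc hd
  obtain ⟨g, hg⟩ := (h2 K j hK _ (Nat.mul_pos hc o.1.pos)).1 _ cp
  obtain ⟨-, -, -, -, r5, r6, -⟩ := h2 K j hK c hc
  obtain ⟨i, hi⟩ := g3 g ((r5 _ g (cop_dvd cp) (r6 l _ g o.1.pos cp hg)).2 ⟨_, _, rfl⟩)
  have pw (i : ℕ) : e (τ ^ i) = i * e τ := by
    induction i with
    | zero => simpa using ker 1 (one_mem _)
    | succ i ih => rw [pow_succ τ, add _ (pow_mem g1.1 i) _ g1.1, ih, Nat.cast_succ, add_mul, one_mul]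
  have e1 := add g hg.1 _ hi.1
  rw [ker _ hi, add_zero, mul_inv_cancel_left, pw] at e1
  obtain ⟨u, hu⟩ := (isUnit_of_mul_isUnit_right (e1 ▸ un g hg)).exists_left_inv
  exact ⟨τ ^ u.val, (P022.H443.inP P).pow_mem i1 _, by rw [pw, ZMod.natCast_zmod_val, hu]⟩

/-- an element which is not a cube modulo `P` -/
theorem ncb (o : Ov l P) (f : Fb l P φ) (l3 : l % 3 = 1) : ∃ r : ℤ, ¬ (l : ℤ) ∣ r ∧
    ∀ (a b : 𝓞 Qb) (w : Qb), a - r ∈ P → b - 1 ∈ P → φ b = b → w ^ 3 = a / b → φ w ≠ w := by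
  have := Fact.mk o.1
  have l1 := o.1.one_lt
  obtain ⟨t, ht⟩ : ∃ t, l = 3 * t + 1 := ⟨l / 3, by omega⟩
  obtain ⟨x, hx⟩ := not_forall.1 (mt (FiniteField.forall_pow_eq_one_iff (K := ZMod l) t).1 fun d => by
    have := Nat.le_of_dvd (by omega) d
    rw [ZMod.card] at this
    omega)
  obtain ⟨r, hr⟩ := ZMod.intCast_surjective (x : ZMod l)
  have r0 : ¬ (l : ℤ) ∣ r := fun d =>
    x.ne_zero (hr ▸ (ZMod.intCast_zmod_eq_zero_iff_dvd r l).2 d)
  refine ⟨r, r0, fun a b w ha hb fb hw e => hx (Units.ext ?_)⟩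
  have := o.2.1
  have b1 : (b : Qb) ≠ 0 := fun k => o.2.1.ne_top ((Ideal.eq_top_iff_one _).2 (by
    simpa [show b = 0 from RingOfIntegers.ext k] using P.neg_mem hb))
  obtain ⟨z, hz, e2⟩ := ex_int (y := w * b) (N := 3) (by norm_num) (w := a * b ^ 2) (by
    rw [mul_pow, hw, RingOfIntegers.coe_eq_algebraMap (_ * _), map_mul, map_pow, pow_succ' _ 2]
    exact (mul_assoc _ _ _).symm.trans (by rw [div_mul_cancel₀ _ b1]))
  have e3 : Ideal.Quotient.mk P z ^ 3 = r := by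
    rw [← map_pow, e2, map_mul, map_pow, Ideal.Quotient.eq.2 ha, Ideal.Quotient.eq.2 hb]
    simp
  have e4 := Ideal.Quotient.eq.2 (f z)
  rw [show φ • z = z from RingOfIntegers.ext (by rw [smul_coe, hz, map_mul, e, fb]), map_pow] at e4
  nth_rw 1 [ht] at e4
  rw [pow_succ, pow_mul, e3, eq_comm, mul_eq_right₀ fun k => r0 (ov_dvd o (by
    rw [← Ideal.Quotient.eq_zero_iff_mem, map_intCast, ← e3, k, zero_pow (by norm_num)]))] at e4
  have e5 := (ZMod.intCast_zmod_eq_zero_iff_dvd _ l).2 (ov_dvd o (a := r ^ t - 1) (by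
    rw [← Ideal.Quotient.eq_zero_iff_mem, map_intCast]; push_cast; rw [e4, sub_self]))
  push_cast at e5 ⊢
  rw [← hr, sub_eq_zero.1 e5]

end Xt

open Xt in
/-- **ring class characters with prescribed ramification and values** -/
theorem ext (h1 : RC1) (h2 : RC2) (h3 : RC3) : EXT := by
  intro K _ _ j kd γ hγ B P bs N n ζ y hN hζ k p Q φ inj hp rl
  classical
  obtain rfl | ⟨n, rfl⟩ := n.eq_zero_or_eq_succ_pred.imp_right fun h => (⟨_, h⟩ : ∃ m, n = m + 1)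
  · obtain rfl : N = 1 := hN
    exact ⟨0, fun _ _ _ _ => Subsingleton.elim _ _, fun _ _ => rfl,
      fun i Q' _ => ⟨1, fun x => by simp, Subsingleton.elim _ _⟩, fun _ _ _ _ => Subsingleton.elim _ _,
      fun _ _ _ _ _ _ _ _ _ _ _ _ => Subsingleton.elim _ _⟩
  have N1 : 1 < N := hN ▸ Nat.one_lt_pow n.succ_ne_zero (by norm_num)
  have : NeZero N := ⟨by omega⟩
  obtain ⟨ω, s, q⟩ := ex_q j kd.iq
  have qa' (β : 𝓞 K) : qa j γ β = j (qu s β) := by rw [qa, cj_out q hγ, qu, map_div₀]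
  have pN (i) : p i % N = 1 := mdn (hp i).1 (hp i).2.2.1 (fun d => (hp i).2.2.2.1 (by
    rw [(Nat.prime_dvd_prime_iff_eq (hp i).1.1 Nat.prime_three).1
      ((hp i).1.1.dvd_of_dvd_pow (hN ▸ d))]; exact bs.thr)) N1 hζ (hp i).2.2.2.2
  have p3 (i) : p i % 3 = 1 := by
    rw [← Nat.mod_mod_of_dvd _ (show 3 ∣ N from hN ▸ dvd_pow_self 3 n.succ_ne_zero), pN]
  have mφ (i) : φ i ∈ GK j := (hp i).2.1 (P022D.W.phi_mem (hp i).1.1 (hp i).1.2.1 (hp i).2.2.1)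
  have mem (H : Subgroup GQ) (e : ∀ i, φ i ∈ H) : (List.ofFn φ).prod ∈ H :=
    H.list_prod_mem fun x hx => by obtain ⟨i, rfl⟩ := List.mem_ofFn.1 hx; exact e i
  have fx (y : Qb) (e : ∀ i, φ i y = y) : (List.ofFn φ).prod y = y :=
    mem (MulAction.stabilizer GQ y) e
  have f1 : Fx {1} N (List.ofFn φ).prod := fun y hy => fx y fun i => (hp i).2.2.2.2 y hy
  have ex (a : 𝓞 K) : ∃ x : ZMod N, a ≠ 0 → Km ζ (List.ofFn φ).prod (j (qu s a)) x := by
    by_cases a0 : a = 0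
    · exact ⟨0, fun e => absurd a0 e⟩
    · exact (km_ex hζ f1 (qu_ne q a0) (mem (GK j) mφ _)).imp fun _ e _ => e
  choose lam hl using ex
  have kv {β : 𝓞 K} {x : ZMod N} (b0 : β ≠ 0) (h : Kv ζ (qa j γ β) (List.ofFn φ).prod x) :
      lam β = x := km_uq hζ (qu_ne q b0) (hl β b0) (qa' β ▸ h)
  have z {I : Ideal (𝓞 K)} {β : 𝓞 K} (i : I ≠ ⊥) (e : I = Ideal.span {β}) : β ≠ 0 := fun a =>
    i (by rw [e, a, Ideal.span_singleton_eq_bot])
  have p0 (b) (m : b ∈ B) := below_ne j (bs.ov b m).1.1.ne_zero (bs.ov b m).1.2.2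
  have n0 (μ : ℕ → ℕ) : ∏ b ∈ B, below j (P b) ^ μ b ≠ ⊥ :=
    Finset.prod_ne_zero_iff.2 fun b m => pow_ne_zero _ (p0 b m)
  obtain ⟨f, fa, fb, fc⟩ := ex_f (lam := lam) (y := y) (fun a b a0 b0 => by
    refine km_uq hζ (qu_ne q (mul_ne_zero a0 b0)) (hl _ (mul_ne_zero a0 b0)) ?_
    have := km_mul hζ f1 (qu_ne q a0) (qu_ne q b0) (hl a a0) (hl b b0)
    rwa [← map_mul, show qu s a * qu s b = qu s (a * b) by simp [qu, div_mul_div_comm]] at this)
    p0 bs.gen fun μ β e => by simpa only [nsmul_eq_mul] using kv (z (n0 μ) e) (rl μ β e)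
  have f2 (a : 𝓞 K) (a0 : a ≠ 0) : f (Ideal.span {a}) = lam a := by
    simpa using fb _ (mt Ideal.span_singleton_eq_bot.1 a0) 0 a (by simp [Ideal.top_pow])
  have fq (i) {M c : ℕ} (hM : p i % M = 1) (d : p i ∣ c) {x : ℤ} (e : ¬ (p i : ℤ) ∣ x) (a : 𝓞 K)
      {w : Qb} (hw : w ^ M = j (qu s (x + c * a))) : φ i w = w := by
    have m (b : 𝓞 K) : iz j (c * b) ∈ Q i := by
      obtain ⟨r, hr⟩ := d
      rw [map_mul, map_natCast, hr, Nat.cast_mul]
      exact Ideal.mul_mem_right _ _ (Ideal.mul_mem_right _ _ (hp i).1.2.2)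
    refine fix_quo (hp i).1 (hp i).2.2.1 hM (a := iz j _) (b := iz j (s _)) (mφ i _)
      (mφ i _) (fun b => e (ov_dvd (hp i).1 ?_)) ?_ (hw.trans (map_div₀ j _ _))
    · rw [map_add, map_intCast, map_mul, map_natCast, map_add, map_intCast] at b
      exact (Ideal.add_mem_iff_left _ (m _)).1 b
    · rw [← map_sub, map_add s, map_intCast, map_mul s, map_natCast, add_sub_add_left_eq_sub, ← mul_sub]
      exact m _
  have c0 : 0 < ∏ i, p i := Finset.prod_pos fun i _ => (hp i).1.1.pos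
  obtain ⟨e, add, ker, he⟩ := ex_e (j := j) h2 kd.iq c0 fa fun x a h => by
    have a0 := mt Ideal.span_singleton_eq_bot.2 h.1
    have d (i) := Finset.dvd_prod_of_mem p (Finset.mem_univ i)
    rw [f2 _ a0]
    exact km_uq hζ (qu_ne q a0) (hl _ a0) (km_zero fun w hw => fx w fun i => fq i (pN i) (d i)
      (fun u => (Nat.prime_iff_prime_int.1 (hp i).1.1).not_unit ((q.cop_int h).isUnit_of_dvd' u
        (Int.natCast_dvd_natCast.2 (d i)))) a hw)
  refine ⟨e, add, ker, fun i Q' o => ?_, fun b m ψ h => ?_, fun l L ψ μ β x o le h lc r v => ?_⟩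
  · have e1 := Finset.prod_erase_mul Finset.univ p (Finset.mem_univ i)
    have dv (i') (n : i' ≠ i) := Finset.dvd_prod_of_mem p (Finset.mem_erase.2 ⟨n, Finset.mem_univ i'⟩)
    have nd : ¬ p i ∣ ∏ i' ∈ Finset.univ.erase i, p i' := fun a => by
      obtain ⟨i', a1, a2⟩ := (o.1.prime.dvd_finset_prod_iff _).1 a
      exact Finset.ne_of_mem_erase a1 (inj ((Nat.prime_dvd_prime_iff_eq o.1 (hp i').1.1).1 a2)).symm
    have c1 : 0 < ∏ i' ∈ Finset.univ.erase i, p i' := Finset.prod_pos fun i' _ => (hp i').1.1.pos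
    generalize ∏ i' ∈ Finset.univ.erase i, p i' = c at e1 dv nd c1
    obtain ⟨ty, v, v1, v2⟩ := spl h1 kd.iq q hγ (hp i).1 (hp i).2.1 (hp i).2.2.1
    obtain ⟨r, r0, hr⟩ := ncb (hp i).1 (hp i).2.2.1 (p3 i)
    obtain ⟨w, u, uw⟩ := Nat.isCoprime_iff_coprime.2 ((Nat.Prime.coprime_iff_not_dvd o.1).2 nd)
    have uw' : (w : 𝓞 Qb) * p i + u * c = 1 := by exact_mod_cast congrArg (Int.cast : ℤ → 𝓞 Qb) uw
    obtain ⟨a, ha⟩ : ∃ a : 𝓞 K, a = u * (r - 1) * v := ⟨_, rfl⟩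
    have b1 : iz j ((1 : ℤ) + c * a) - r ∈ Q i := by
      convert (Q i).sub_mem ((Q i).mul_mem_left (c * u * (r - 1)) v1)
        ((Q i).mul_mem_left (w * (r - 1)) (hp i).1.2.2) using 1
      simp only [ha, map_add, map_mul, map_sub, map_intCast, map_natCast, map_one, Int.cast_one]
      linear_combination (r - 1 : 𝓞 Qb) * uw'
    have b2 : iz j (s ((1 : ℤ) + c * a)) - 1 ∈ Q i := by
      convert (Q i).mul_mem_left (c * u * (r - 1)) v2 using 1
      simp only [ha, map_add, map_mul, map_sub, map_intCast, map_natCast, map_one, Int.cast_one]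
      ring
    obtain ⟨m, hm⟩ := q.nm ((1 : ℤ) + c * a)
    have m1 : ¬ (p i : ℤ) ∣ m := fun d => r0 (by
      have : ((m - r : ℤ) : 𝓞 Qb) ∈ Q i := by
        convert (Q i).add_mem ((Q i).mul_mem_left (iz j ((1 : ℤ) + c * a)) b2) b1 using 1
        rw [Int.cast_sub, ← map_intCast (iz j) m, ← hm, map_mul]
        ring
      simpa using dvd_sub d (ov_dvd (hp i).1 this))
    have b0 : (((1 : ℤ) : 𝓞 K) + c * a) ≠ 0 := fun k => m1 (by
      rw [k, zero_mul, eq_comm, Int.cast_eq_zero] at hm; simp [hm])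
    obtain ⟨d, hd⟩ : (c : ℤ) ∣ m - 1 := q.dvd_int ⟨a + s a + c * a * s a, by
      rw [Int.cast_sub, ← hm]; simp only [map_add, map_mul, map_intCast, map_natCast]; push_cast; ring⟩
    have cp := cop_nm (c := c * p i) b0 hm (by
      push_cast
      exact IsCoprime.mul_right ⟨1, -d, by linear_combination hd⟩
        (((Nat.prime_iff_prime_int.1 o.1).irreducible.coprime_iff_not_dvd.2 m1).symm))
    refine ram h2 h3 kd.iq kd.upm ty c1 nd add (e1 ▸ ker) cp (fun g hg => ?_) o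
    rw [he _ _ (e1 ▸ cp) (e1 ▸ hg), f2 _ b0, ← ZMod.natCast_zmod_val (lam _), ZMod.isUnit_iff_coprime]
    refine (Nat.Coprime.pow_right (n + 1) (((Nat.Prime.coprime_iff_not_dvd Nat.prime_three).2
      fun ⟨t, ht⟩ => ?_).symm)).coprime_dvd_right hN.dvd
    obtain ⟨Y, hY⟩ := rt N (j (qu s ((1 : ℤ) + c * a)))
    have hw : (Y ^ 3 ^ n) ^ 3 = j (qu s ((1 : ℤ) + c * a)) := by rw [← pow_mul, ← pow_succ, ← hN, hY]
    refine hr _ _ _ b1 b2 (mφ i _) (hw.trans (map_div₀ j _ _))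
      (one_of (MulAction.stabilizer GQ (Y ^ 3 ^ n)) φ i (fun i' n => fq i' (p3 i') (dv i' n)
        (fun u => (Nat.prime_iff_prime_int.1 (hp i').1.1).not_dvd_one u) a hw) ?_)
    show (List.ofFn φ).prod _ = _
    rw [map_pow, hl _ b0 Y hY, mul_pow, ← pow_mul, ht, show 3 * t * 3 ^ n = N * t by rw [hN]; ring,
      pow_mul, hζ.pow_eq_one, one_pow, one_mul]
  · obtain ⟨a1, a2⟩ := arf h2 kd.iq c0 (bs.ov b m).1 (bs.ov b m).2 h fun d => by
      obtain ⟨i, -, a⟩ := ((bs.ov b m).1.1.prime.dvd_finset_prod_iff _).1 d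
      exact (hp i).2.2.2.1 ((Nat.prime_dvd_prime_iff_eq (bs.ov b m).1.1 (hp i).1.1).1 a ▸ m)
    rw [he _ _ a1 a2, fc b m]
  · obtain ⟨a1, a2⟩ := arf h2 kd.iq c0 o le h lc
    rw [he _ _ a1 a2, ← kv (z (mul_ne_zero a1.1 (n0 μ)) r) v, ← fb _ a1.1 μ β r]
    simp only [nsmul_eq_mul]

end Vale.Agent.P014Y.Rd
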