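import Vale.Agent.P014Y.Rd.St0
import Vale.Agent.P004R.Ins

/-!
# P014Y, route R, row INS: from ideals to abelian groups
-/

set_option autoImplicit false
set_option linter.all false

noncomputable section

namespace Vale.Agent.P014Y.Rd

open NumberField Algebra.GrothendieckGroup Function Module
open NumberField.Units (torsion)
open P004R.In hiding tf idx_th sel card_gen arith card_le fix fix' fix_s tt fix_n fixm nrm main

namespace Is

/-- the powers -/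
abbrev pw (p : ℕ) (A : Type) [CommGroup A] : Subgroup A := (powMonoidHom p : A →* A).range

theorem pw_add (p : ℕ) (A : Type) [AddCommGroup A] [Free ℤ A] [Module.Finite ℤ A] :
    (pw p (Multiplicative A)).index = p ^ finrank ℤ A := AddSubgroup.index_range_nsmul A p

theorem pw_mul (p : ℕ) (B : Type) [CommGroup B] [Free ℤ (Additive B)]
    [Module.Finite ℤ (Additive B)] : (pw p B).index = p ^ finrank ℤ (Additive B) :=
  pw_add p (Additive B)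

theorem pw_eq (p : ℕ) {A B : Type} [CommGroup A] [CommGroup B] (e : A ≃* B) :
    (pw p A).index = (pw p B).index := by
  rw [← (pw p B).index_comap_of_surjective (f := (e : A →* B)) e.surjective]
  congr 1
  refine le_antisymm (fun _ ⟨x, h⟩ => ⟨e x, by rw [← h]; simp⟩) fun a ⟨y, h⟩ =>
    ⟨e.symm y, e.injective ?_⟩
  simpa using h

section ded

variable {R : Type} [CommRing R] [IsDedekindDomain R] {𝔪 : Ideal R} {p : ℕ}

theorem tf (hp : p ≠ 0) (a : Gr (JJ 𝔪)) (h : a ^ p = 1) : a = 1 := by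
  obtain ⟨A, B, rfl⟩ := ex_div a
  rw [div_pow, div_eq_one, ← map_pow, ← map_pow] at h
  exact div_eq_one.2 (congrArg _ (Subtype.ext (pow_left_injective hp
    (congrArg Subtype.val (of_injective h)))))

variable {κ : Type} [Fintype κ] (q : κ → JJ 𝔪)

theorem idx_th (p : ℕ) (h : ∀ j, Prime (q j).1) (i : Injective q) :
    (pw p _).relIndex ((P004R.In.th q).range ⊔ pw p _) = p ^ Fintype.card κ := by
  classical
  rw [Subgroup.relIndex_sup_right, ← Subgroup.index_comap, ← finrank_fintype_fun_eq_card ℤ,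
    ← pw_add]
  congr 1
  refine le_antisymm (fun n ⟨c, e⟩ => ?_) fun _ ⟨n, e⟩ => ⟨P004R.In.th q n, by rw [← e]; simp⟩
  refine ⟨.ofAdd fun j => (vl (h j) c).toAdd, Multiplicative.toAdd.injective (funext fun j => ?_)⟩
  have := congrArg (fun x => (vl (h j) x).toAdd) (show c ^ p = ∏ j, of (q j) ^ n.toAdd j from e)
  simp only [map_pow, map_prod, map_zpow, vl_of, toAdd_prod, toAdd_zpow, toAdd_ofAdd,
    toAdd_pow] at this
  rw [Finset.sum_eq_single j (fun k _ n => by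
    rw [multiplicity_eq_zero.2 fun d => n (i (Subtype.ext (associated_iff_eq.1
      ((h j).associated_of_dvd (h k) d)))).symm]
    simp) (by simp), multiplicity_self] at this
  simpa using this

theorem sel (h0 : 𝔪 ≠ 0) (h1 : 𝔪 ≠ ⊤) {J : Ideal R} (hq : ∀ j, (q j).1 ∣ J) {x : Gr (TT 𝔪)}
    (hx : dd 𝔪 x ∈ (P004R.In.th q).range ⊔ pw (p + 1) _) : ∃ (a : TT 𝔪) (y : Gr (TT 𝔪)),
      of a = x * y ^ (p + 1) ∧
      ∃ (A B : Ideal R) (n : ℕ), Ideal.span {(a : R)} = A ^ (p + 1) * B ∧ B ∣ J ^ n := by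
  let K : Subgroup (Gr (JJ 𝔪)) :=
    { carrier := {s | ∃ (B : JJ 𝔪) (c : Gr (JJ 𝔪)) (n : ℕ), B.1 ∣ J ^ n ∧ s = c ^ (p + 1) * of B}
      mul_mem' := by
        rintro _ _ ⟨B, c, n, a, rfl⟩ ⟨B', c', n', a', rfl⟩
        exact ⟨B * B', c * c', n + n', pow_add J n n' ▸ mul_dvd_mul a a', by
          rw [map_mul, mul_pow, mul_mul_mul_comm]⟩
      one_mem' := ⟨1, 1, 0, one_dvd _, by simp⟩
      inv_mem' := by
        rintro _ ⟨B, c, n, a, rfl⟩
        exact ⟨B ^ p, (c * of B)⁻¹, n * p, pow_mul J n p ▸ pow_dvd_pow_of_dvd a p, by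
          rw [inv_pow, mul_pow, pow_succ' (of B), ← mul_assoc, mul_inv (c ^ (p + 1) * of B), map_pow,
            inv_mul_cancel_right]⟩ }
  obtain ⟨B, c, n, a, e⟩ : dd 𝔪 x ∈ K := (sup_le (by
    rintro _ ⟨n, rfl⟩
    exact prod_mem fun j _ => zpow_mem (show of (q j) ∈ K from
      ⟨q j, 1, 1, (pow_one J).symm ▸ hq j, by simp⟩) _) (by
    rintro _ ⟨c, rfl⟩
    exact ⟨1, c, 0, one_dvd _, by simp⟩) : _ ≤ K) hx
  obtain ⟨A, A', rfl⟩ := ex_div c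
  obtain ⟨C, b, k⟩ := ex_T h0 h1 A'
  obtain ⟨z, e1, e2⟩ := int_of (x := x * of b ^ (p + 1)) (D := (A * C) ^ (p + 1) * B) (by
    rw [map_mul, map_pow, e, k, map_mul, map_pow, map_mul, mul_right_comm, ← mul_pow, ← mul_assoc,
      div_mul_cancel])
  exact ⟨z, _, e1.symm, _, _, n, e2, a⟩

end ded

theorem card_gen {p : ℕ} {X Z : Type} [CommGroup X] [Finite Z] (K : Subgroup X) (f : K → Z)
    (y : K → X) (h : ∀ a b : K, f a = f b →
      ∃ s, s ^ (p + 1) = a * y a ^ (p + 1) * (b * y b ^ (p + 1)) ^ p) :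
    (pw (p + 1) X).relIndex K ≤ Nat.card Z := by
  refine Nat.card_le_card_of_injective (fun c : K ⧸ (pw (p + 1) X).subgroupOf K => f c.out)
    fun c c' n => ?_
  obtain ⟨s, hs⟩ := h _ _ n.symm
  rw [← c.out_eq', ← c'.out_eq', QuotientGroup.eq]
  have k : ∀ a b u v : X, a * u ^ (p + 1) * (b * v ^ (p + 1)) ^ p =
      b⁻¹ * a * (b * (u * v ^ p)) ^ (p + 1) := fun a b u v => by
    rw [mul_pow, mul_pow, mul_pow, pow_succ' b, pow_right_comm v p, mul_assoc b⁻¹, mul_left_comm a,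
      ← mul_assoc b⁻¹, inv_mul_cancel_left]
    generalize (v ^ (p + 1)) ^ p = x, u ^ (p + 1) = y, b ^ p = z
    ac_rfl
  exact ⟨s / (c.out * (y c'.out * y c.out ^ p)), by
    rw [powMonoidHom_apply, div_pow, hs, k, mul_div_cancel_right]; rfl⟩

theorem arith {p n r b o g h i i' j j' : ℕ} [Fact p.Prime] (ho : ¬ p ∣ o) (j0 : j ≠ 0) (j1 : j' ≠ 0)
    (a : g * h ∣ p ^ b * o * (i * i')) (hi : i ∣ j) (hi' : i' ∣ j') (k : p ^ n ∣ p ^ r * g) :
    n + padicValNat p h ≤ b + r + padicValNat p (j * j') := by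
  have o0 : o ≠ 0 := fun e => ho (e ▸ dvd_zero p)
  have p0 : p ≠ 0 := (Fact.out : p.Prime).ne_zero
  have e : p ^ (n + padicValNat p h) ∣ p ^ (b + r) * (o * (j * j')) :=
    calc _ ∣ p ^ r * (g * h) := by
          rw [pow_add, ← mul_assoc]; exact mul_dvd_mul k pow_padicValNat_dvd
      _ ∣ p ^ r * (p ^ b * o * (j * j')) :=
          mul_dvd_mul_left _ (a.trans (mul_dvd_mul_left _ (mul_dvd_mul hi hi')))
      _ = _ := by ring
  rwa [padicValNat_dvd_iff_le (by positivity), padicValNat.mul (by positivity) (by positivity),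
    padicValNat.prime_pow, padicValNat.mul o0 (by positivity),
    padicValNat.eq_zero_of_not_dvd ho, zero_add] at e

variable {F H : Type} [Field F] [NumberField F] [Field H] [NumberField H] [Algebra F H]
  {σ : H ≃ₐ[ℚ] H} {M : ℕ} {𝔪 : Ideal (𝓞 H)} {𝔞 : Ideal (𝓞 F)}

theorem root {p : ℕ} (h1 : 𝔪 ≠ ⊤) {a b : TT 𝔪}
    (h : ∃ y : H, ((a : 𝓞 H) : H) = y ^ (p + 1) * (b : 𝓞 H)) :
    ∃ s : TT 𝔪, s ^ (p + 1) = a * b ^ p := by
  obtain ⟨y, h⟩ := h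
  have h : (y * (b : 𝓞 H)) ^ (p + 1) = ((a : 𝓞 H) : H) * (b : 𝓞 H) ^ p := by rw [h]; ring
  obtain ⟨s, k⟩ : ∃ t : 𝓞 H, (t : H) = y * (b : 𝓞 H) := ⟨⟨y * (b : 𝓞 H),
    IsIntegral.of_pow (n := p + 1) p.succ_pos (by
      rw [h]; exact (a.1.isIntegral_coe).mul (b.1.isIntegral_coe.pow _))⟩, rfl⟩
  rw [← k] at h
  have e : s ^ (p + 1) = a * b ^ p := RingOfIntegers.ext (by simpa using h)
  have k : IsCoprime (sp (a * b ^ p : TT 𝔪).1) 𝔪 := (a * b ^ p).2.2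
  rw [Submonoid.coe_mul, SubmonoidClass.coe_pow, ← e, pow_succ', map_mul] at k
  exact ⟨⟨s, mem_JJ h1 k.of_mul_left_left⟩, Subtype.ext e⟩

theorem card_le (h0 : 𝔪 ≠ 0) (h1 : 𝔪 ≠ ⊤) {κ : Type} [Fintype κ] (q : κ → JJ 𝔪) {J : Ideal (𝓞 H)}
    (hq : ∀ j, (q j).1 ∣ J) {Z : Type} [Finite Z] {k : 𝓞 H → Z}
    (hk : ∀ a b, Ad 𝔪 J a → Ad 𝔪 J b → k a = k b → ∃ y : H, (a : H) = y ^ 3 * b) :
    (cb _).relIndex (((P004R.In.th q).range ⊔ cb _).comap (dd 𝔪) ⊓ (cb _).comap (rr 𝔪)) ≤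
      Nat.card Z := by
  set K := ((P004R.In.th q).range ⊔ cb _).comap (dd 𝔪) ⊓ (cb _).comap (rr 𝔪)
  have : ∀ x : K, ∃ (a : TT 𝔪) (y : Gr (TT 𝔪)), of a = x * y ^ 3 ∧ Ad 𝔪 J a := fun x => by
    obtain ⟨a, y, e, h⟩ := sel (p := 2) q h0 h1 hq x.2.1
    obtain ⟨g, hg⟩ := x.2.2
    obtain ⟨b, hb⟩ := Ideal.Quotient.mk_surjective ((g * rr 𝔪 y : (𝓞 H ⧸ 𝔪)ˣ) : 𝓞 H ⧸ 𝔪)
    refine ⟨a, y, e, ⟨b, Ideal.isCoprime_iff_sup_eq.1 (unit_iff.1 (hb ▸ Units.isUnit _)),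
      Ideal.Quotient.eq.1 ?_⟩, h⟩
    rw [← rr_of, e, map_mul, map_pow, ← hg, map_pow, hb, powMonoidHom_apply, ← mul_pow,
      Units.val_pow_eq_pow_val]
  choose a y e h using this
  refine card_gen (p := 2) K (fun x => k (a x)) y fun x x' n => ?_
  obtain ⟨s, hs⟩ := root (p := 2) h1 (hk _ _ (h _) (h _) n)
  exact ⟨of s, by rw [← map_pow, hs, map_mul, map_pow, e, e]⟩

variable (c : Cp F σ M)
include c

theorem fix {x : 𝓞 H} (h : σ ^ M • x = x) : ∃ a : 𝓞 F, al F H a = x := by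
  obtain ⟨y, hy⟩ := (c.fix _).1 (congrArg (algebraMap (𝓞 H) H) h)
  exact ⟨⟨y, (isIntegral_algebraMap_iff (algebraMap F H).injective).1 (hy ▸ x.isIntegral_coe)⟩,
    RingOfIntegers.ext hy⟩

theorem fix' (a : 𝓞 F) : σ ^ M • al F H a = al F H a :=
  RingOfIntegers.ext ((c.fix _).2 ⟨a, rfl⟩)

theorem fix_s (a : 𝓞 F) : σ ^ M • σ • al F H a = σ • al F H a := by
  rw [← mul_smul, ← pow_succ, pow_succ', mul_smul, fix' c]

theorem fix_n (x : 𝓞 H) : σ ^ M • (x * σ ^ M • x * σ ^ (2 * M) • x) =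
    x * σ ^ M • x * σ ^ (2 * M) • x := by
  rw [smul_mul', smul_mul', ← mul_smul, ← mul_smul, ← pow_add, ← pow_add, ← two_mul,
    show M + 2 * M = 3 * M by ring, c.ord, one_smul]
  ring

theorem fixm {N : Ideal (𝓞 H)} {x : 𝓞 H} (m : x ∈ N) (h : σ ^ M • x = x) :
    x ∈ up H (N.comap (al F H)) := by
  obtain ⟨a, rfl⟩ := fix c h
  exact Ideal.mem_map_of_mem _ m

theorem nrm {A : Ideal (𝓞 H)} (h0 : A ≠ 0) : A * A.map (ph (σ ^ M)) * A.map (ph (σ ^ (2 * M))) ≤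
    up H ((A * A.map (ph (σ ^ M)) * A.map (ph (σ ^ (2 * M)))).comap (al F H)) := by
  have m : ∀ a ∈ A, a * σ ^ M • a * σ ^ (2 * M) • a ∈
      up H ((A * A.map (ph (σ ^ M)) * A.map (ph (σ ^ (2 * M)))).comap (al F H)) := fun a ha =>
    fixm c (Ideal.mul_mem_mul (Ideal.mul_mem_mul ha (Ideal.mem_map_of_mem (ph (σ ^ M)) ha))
      (Ideal.mem_map_of_mem (ph (σ ^ (2 * M))) ha)) (fix_n c a)
  generalize up H ((A * A.map (ph (σ ^ M)) * A.map (ph (σ ^ (2 * M)))).comap (al F H)) = U at m ⊢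
  obtain ⟨a, ha, a0⟩ := A.ne_bot_iff.1 h0
  have mn := m a ha
  have f1 := fix_n c a
  have n0 : a * σ ^ M • a * σ ^ (2 * M) • a ≠ 0 :=
    mul_ne_zero (mul_ne_zero a0 ((map_ne_zero_iff _ (ph_inj _)).2 a0))
      ((map_ne_zero_iff _ (ph_inj _)).2 a0)
  have nA : a * σ ^ M • a * σ ^ (2 * M) • a ∈ A := A.mul_mem_right _ (A.mul_mem_right _ ha)
  generalize a * σ ^ M • a * σ ^ (2 * M) • a = n at mn f1 n0 nA
  have f2 : σ ^ (2 * M) • n = n := by rw [two_mul, pow_add, mul_smul, f1, f1]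
  obtain ⟨b, e⟩ := IsDedekindDomain.exists_sup_span_eq (I := Ideal.span {n}) (J := A)
    ((Ideal.span_singleton_le_iff_mem _).2 nA) (by simpa using n0)
  have mb := m b (e ▸ Ideal.mem_sup_right (Ideal.mem_span_singleton_self b))
  have k : ∀ τ : H ≃ₐ[ℚ] H, τ • n = n → A.map (ph τ) ≤ U ⊔ Ideal.span {τ • b} := fun τ f => by
    rw [← e, Ideal.map_sup, map_sp, map_sp]
    exact sup_le_sup_right ((Ideal.span_singleton_le_iff_mem _).2 (f.symm ▸ mn :)) _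
  have s : ∀ x y : 𝓞 H, (U ⊔ Ideal.span {x}) * (U ⊔ Ideal.span {y}) ≤ U ⊔ Ideal.span {x * y} :=
    fun x y => by
      rw [Ideal.sup_mul, Ideal.mul_sup (Ideal.span {x}), Ideal.span_singleton_mul_span_singleton]
      exact sup_le (Ideal.mul_le_left.trans le_sup_left)
        (sup_le_sup_right Ideal.mul_le_right _)
  refine (Ideal.mul_mono ((Ideal.mul_mono (e.ge.trans (sup_le_sup_right
    ((Ideal.span_singleton_le_iff_mem _).2 mn) _)) (k _ f1)).trans (s _ _)) (k _ f2)).trans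
    ((s _ _).trans (sup_le le_rfl ((Ideal.span_singleton_le_iff_mem _).2 mb)))

theorem M_pos : 0 < M := by obtain ⟨m, h⟩ := c.pow; rw [h]; positivity

theorem cb_units : (cb (𝓞 H)ˣ).index = 3 ^ (3 * M - 1) := by
  have := c.cx
  have : IsTotallyComplex H := isTotallyComplex_of_algebra F H
  have t : torsion H ≤ cb (𝓞 H)ˣ := fun u h =>
    ⟨u, by rcases c.tor u h with rfl | rfl <;> norm_num⟩
  rw [← sup_eq_right.2 t, ← QuotientGroup.comap_map_mk', Subgroup.index_comap_of_surjective _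
    (QuotientGroup.mk'_surjective _), ← P004R.Rg.card_pl H (n := 3 * M) (by rw [c.deg]; ring)]
  refine Eq.trans ?_ ((pw_mul 3 ((𝓞 H)ˣ ⧸ torsion H)).trans
    (congrArg _ (Units.finrank_modTorsion H)))
  congr 1
  refine le_antisymm (fun _ ⟨_, ⟨x, a⟩, b⟩ => ⟨x, by rw [← b, ← a]; rfl⟩) fun _ ⟨x, a⟩ => ?_
  obtain ⟨x, rfl⟩ := QuotientGroup.mk_surjective x
  exact ⟨_, ⟨x, rfl⟩, a⟩

theorem main (abs : ABS) (e : up H 𝔞 = 𝔪) (h0 : 𝔪 ≠ 0) (h1 : 𝔪 ≠ ⊤) (hs : 𝔪 ≤ 𝔪.comap (ph σ))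
    {ι : Type} [Fintype ι] (q : ι → JJ 𝔪) {J : Ideal (𝓞 H)} (q1 : ∀ j, Prime (q j).1)
    (q2 : Injective q) (q3 : ∀ j, (q j).1 ∣ J)
    (q4 : ∀ j, ∃ a : Ideal (𝓞 F), (q j).1 = up H a) {n r g : ℕ}
    {u : (𝓞 H)ˣ} (l1 : 3 ^ g * (cb (𝓞 H ⧸ 𝔪)ˣ).index ≤ 3 ^ (3 * M - 1 + Fintype.card ι))
    (l2 : 3 ^ n ∣ 3 ^ r * (Gp F 𝔪 ⊔ (CU F σ u).map
      (Units.map (Ideal.Quotient.mk 𝔪 : 𝓞 H →* 𝓞 H ⧸ 𝔪))).index) (iu : (CU F σ u).index ≠ 0)
    {Z : Type} [Finite Z] {κ : 𝓞 H → Z}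
    (hκ : ∀ a b, Ad 𝔪 J a → Ad 𝔪 J b → κ a = κ b → ∃ y : H, (a : H) = y ^ 3 * b)
    (hZ : Nat.card Z < 3 ^ M) : ∃ b : ℕ, 3 ^ (b + g) ≤ Nat.card Z ∧
      n + padicValNat 3 (classNumber H) ≤
        b + r + padicValNat 3 ((CU F σ u).index * classNumber F) := by
  obtain ⟨m, hm⟩ := c.pow
  haveI : Fact (Nat.Prime 3) := ⟨Nat.prime_three⟩
  have ha : 𝔞 ≤ 𝔪.comap (al F H) := Ideal.map_le_iff_le_comap.1 e.le
  have a0 : 𝔞 ≠ 0 := fun z => h0 (by rw [← e, z]; exact Ideal.map_bot)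
  have a1 : 𝔞 ≠ ⊤ := fun z => h1 (by rw [← e, z]; exact Ideal.map_top _)
  have := Ideal.finiteQuotientOfFreeOfNeBot 𝔪 h0
  have gp : ∀ (g : (𝓞 H ⧸ 𝔪)ˣ) x, σ ^ M • x = x → (g : 𝓞 H ⧸ 𝔪) = Ideal.Quotient.mk 𝔪 x →
      g ∈ Gp F 𝔪 := fun g x h k => by
    obtain ⟨a, rfl⟩ := fix c h
    exact Subgroup.subset_closure ⟨a, k⟩
  have sx : (cb (dd 𝔪).ker).index = 3 ^ (3 * M - 1) := (pw_eq 3 ((MonoidHom.ofInjective ee_inj).trans
    (MulEquiv.subgroupCongr ker_dd.symm))).symm.trans (cb_units c)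
  have cz := card_le h0 h1 q q3 hκ
  have A := abs _ _ _ (dd 𝔪) (rr 𝔪) (gm (fT _ (ph_inj σ) hs)) (gm (fJ _ (ph_inj σ) hs))
    (fG _ hs) (gm (fT _ al_inj ha)).range ((CU F σ u).map (ee 𝔪)) (gm (fJ _ al_inj ha)).range
    (P004R.In.th q).range (Gp F 𝔪) (m + 1) (dd_gm _ _ _) (rr_gm _ _ _) ?_ ?_ ?_ ?_ ?_ ?_
    ((Subgroup.map_le_range _ _).trans ker_dd.ge) ?_ (tf three_ne_zero)
    (by rw [idx_dd h0 h1]; exact Nat.card_pos.ne')
    _ _ (3 ^ g) sx (idx_th q 3 q1 q2) (by positivity) (by positivity) (by positivity)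
    (l1.trans_eq (pow_add _ _ _)) _ rfl
  · obtain ⟨b, o, b1, o1, A⟩ := A.2 (hm ▸ cz.trans_lt hZ)
    rw [idx_dd h0 h1, Subgroup.map_map, show (rr 𝔪).comp (ee 𝔪) = _ from MonoidHom.ext rr_ee,
      Nat.card_eq_fintype_card] at A
    refine ⟨b, (pow_add 3 b g).trans_le (b1.trans cz), arith o1 iu (classNumber_ne_zero F) A
      ((Subgroup.relIndex_dvd_of_le_left _ le_sup_right).trans ?_)
      ((idx_rel _ _ _ a0 a1).trans Nat.card_eq_fintype_card.dvd) l2⟩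
    rw [ker_dd, MonoidHom.range_eq_map, Subgroup.relIndex_map_map_of_injective _ _ ee_inj,
      Subgroup.relIndex_top_right]
  · rintro _ ⟨x, rfl⟩
    refine gr_mem (f := (gm _).comp (gm _)) (fun A => ?_) x
    rw [MonoidHom.comp_apply, gm_of, gm_of]
    refine memI e ha a1 (Ideal.map_le_iff_le_comap.2 (Ideal.map_le_iff_le_comap.2 fun x m => ?_))
    exact fixm c (Ideal.mem_map_of_mem _ (Ideal.mem_map_of_mem _ m)) (fix_s c x)
  · refine (Subgroup.closure_le ((Gp F 𝔪).comap (fG _ hs))).2 fun g ⟨a, h⟩ => ?_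
    exact gp _ _ (fix_s c a) (by simpa using it_G hs h.symm 1)
  · have k : ∀ A : JJ 𝔪, of A * (gm (fJ _ (ph_inj σ) hs))^[M] (of A) *
        (gm (fJ _ (ph_inj σ) hs))^[2 * M] (of A) ∈ (gm (fJ _ al_inj ha)).range := fun A => by
      obtain ⟨B, e1, e2⟩ := it_J hs A M
      obtain ⟨B', e3, e4⟩ := it_J hs A (2 * M)
      rw [e1, e3, ← map_mul, ← map_mul]
      exact memI e ha a1 (by rw [Submonoid.coe_mul, Submonoid.coe_mul, e2, e4]; exact nrm c A.2.1)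
    intro a
    obtain ⟨A, B, rfl⟩ := ex_div a
    rw [iterate_map_div, iterate_map_div, div_mul_div_comm, div_mul_div_comm, ← hm]
    exact div_mem (k A) (k B)
  · intro g
    obtain ⟨x, h⟩ := Ideal.Quotient.mk_surjective (g : 𝓞 H ⧸ 𝔪)
    exact gp _ _ (fix_n c x) (by
      rw [Units.val_mul, Units.val_mul, it_G hs h, it_G hs h, ← hm, map_mul, map_mul, h])
  · rintro _ ⟨_, ⟨x, rfl⟩, rfl⟩
    exact ⟨_, (dd_gm _ _ _ x).symm⟩
  · rintro _ ⟨_, ⟨x, rfl⟩, rfl⟩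
    obtain ⟨a, h⟩ := Ideal.Quotient.mk_surjective (rr 𝔞 x : 𝓞 F ⧸ 𝔞)
    exact gp _ _ (fix' c a) (by rw [rr_gm, fG, Units.coe_map, ← h]; rfl)
  · rintro _ ⟨n, rfl⟩
    refine prod_mem fun j _ => zpow_mem (memI e ha a1 ?_) _
    obtain ⟨a, h⟩ := q4 j
    rw [h]
    exact Ideal.map_mono Ideal.le_comap_map

end Is

open Is in
theorem ins : INS := by
  intro abs loc F H _ _ _ _ _ σ M ι _ p v v' w w' P u r D iu Z _ κ hκ hZ
  obtain ⟨l1, l2⟩ := loc F H σ M v v' P.cp P.thr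
  have ne : ∀ {l : ℕ} {A : Ideal (𝓞 H)}, l.Prime → (l : 𝓞 H) ∈ A → A ≠ 0 := fun h a z =>
    (Nat.cast_ne_zero (R := 𝓞 H)).2 h.ne_zero (by rw [z] at a; exact a)
  have h1 : up H v ^ 3 ≠ ⊤ := fun h => P.thr.pw.ne_top
    (top_le_iff.1 (h.ge.trans (Ideal.pow_le_self (n := 3) (by norm_num))))
  have cp : ∀ {l : ℕ} {a a' : Ideal (𝓞 F)}, Ip σ M l a a' → IsCoprime (up H a') (up H a) :=
    fun h => Ideal.isCoprime_iff_sup_eq.2 (by rw [← Ideal.map_sup, sup_comm, h.cop, Ideal.map_top])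
  let l : Option (ι ⊕ ι) → ℕ := fun j => j.elim 3 (Sum.elim p p)
  let a : Option (ι ⊕ ι) → Ideal (𝓞 F) := fun j => j.elim v' (Sum.elim w' w)
  have I : ∀ j, (l j).Prime ∧ (l j : 𝓞 H) ∈ up H (a j) ∧ (up H (a j)).IsPrime := by
    rintro (_ | i | i)
    exacts [⟨P.thr.pr, (ip_mem P.thr).2, P.thr.pw'⟩,
      ⟨(P.oth i).2.pr, (ip_mem (P.oth i).2).2, (P.oth i).2.pw'⟩,
      ⟨(P.oth i).2.pr, (ip_mem (P.oth i).2).1, (P.oth i).2.pw⟩]
  have co : ∀ j, IsCoprime (up H (a j)) (up H v) := by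
    rintro (_ | i)
    · exact cp P.thr
    · refine cop_of ((Nat.coprime_primes (I _).1 P.thr.pr).2 ?_) (I _).2.1 (ip_mem P.thr).1
      rcases i with i | i <;> exact (P.oth i).1
  refine main P.cp abs (Ideal.map_pow _ v 3) (pow_ne_zero _ (ne P.thr.pr (ip_mem P.thr).1)) h1
    (Ideal.map_le_iff_le_comap.1 ((Ideal.map_pow _ _ 3).trans_le
      (Ideal.pow_right_mono (Ideal.map_le_iff_le_comap.2 P.thr.st) _)))
    (fun j => ⟨up H (a j), mem_JJ h1 (co j).pow_right⟩)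
    (fun j => Ideal.prime_of_isPrime (ne (I j).1 (I j).2.1) (I j).2.2) (fun j k z => ?_) ?_
    (fun j => ⟨_, rfl⟩) ?_ (l2 u r D) iu hκ hZ
  · have n : ¬ IsCoprime (up H (a j)) (up H (a k)) := fun n => by
      rw [show up H (a j) = up H (a k) from congrArg Subtype.val z, isCoprime_self] at n
      exact (I k).2.2.ne_top (Ideal.isUnit_iff.1 n)
    have e : l j = l k := by_contra fun e =>
      n (cop_of ((Nat.coprime_primes (I j).1 (I k).1).2 e) (I j).2.1 (I k).2.1)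
    rcases j with _ | j | j <;> rcases k with _ | k | k
    any_goals first | exact ((P.oth _).1 e).elim | exact ((P.oth _).1 e.symm).elim
    · rfl
    all_goals obtain rfl := P.inj e
    exacts [rfl, (n (cp (P.oth j).2)).elim, (n (cp (P.oth j).2).symm).elim, rfl]
  · rintro (_ | j | j)
    · exact dvd_mul_right _ _
    · exact ((dvd_mul_left _ _).trans (Finset.dvd_prod_of_mem
        (fun i => up H (w i) * up H (w' i)) (Finset.mem_univ j))).mul_left _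
    · exact ((dvd_mul_right _ _).trans (Finset.dvd_prod_of_mem
        (fun i => up H (w i) * up H (w' i)) (Finset.mem_univ j))).mul_left _
  · rw [Fintype.card_option, Fintype.card_sum]
    refine (Nat.mul_le_mul_left _ l1).trans_eq ?_
    have := M_pos P.cp
    rw [← pow_add]
    congr 1
    omega

end Vale.Agent.P014Y.Rd
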