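import Vale.Agent.P014Y.Rd.St
import Vale.Agent.P004R.Ki

/-!
# P014Y, route R: the row KI (independence of the Kummer classes of the relations)
-/

set_option autoImplicit false
set_option linter.all false

open NumberField IsDedekindDomain
open scoped Pointwise nonZeroDivisors

noncomputable section

namespace Vale.Agent.P014Y.Rd

open Vale.Agent.P022 (Qb GQ GK below)
open P004K
open Vale.Agent.P022D.W (dec)
open Vale.Agent.P022E.GW (Ov)
open Vale.Agent.P004R.Ki (dual fixed fix_of same same')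

namespace Kj

variable {K : Type} [Field K] [NumberField K] {j : K →+* Qb} {γ : GQ} {n : ℕ}

theorem fx_cj (h : Iq K) (hγ : γ ∉ GK j) {g : GQ} (hg : g ∈ GK j) (a : K) :
    g (γ (j a)) = γ (j a) := by
  have m := congrArg γ (P022.H20.conj_mem h.two hγ hg a)
  rwa [← AlgEquiv.mul_apply, mul_inv_cancel_left] at m

/-- the conjugate of an integer -/
theorem ex_cj (h : Iq K) (hγ : γ ∉ GK j) (a : 𝓞 K) : ∃ b : 𝓞 K, j b = γ (j a) := by
  obtain ⟨b, e⟩ := P022.H916.fixed_int j (x := γ • RingOfIntegers.mapRingHom j a) fun g =>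
    RingOfIntegers.ext (fx_cj h hγ g.2 a)
  exact ⟨b, congrArg (fun z : 𝓞 Qb => (z : Qb)) e⟩

theorem qa_ne {β : 𝓞 K} (h : β ≠ 0) : qa j γ β ≠ 0 :=
  have : j β ≠ 0 := (map_ne_zero j).2 (RingOfIntegers.coe_ne_zero_iff.2 h)
  div_ne_zero this ((map_ne_zero γ).2 this)

theorem qa_fix (h : Iq K) (hγ : γ ∉ GK j) {g : GQ} (hg : g ∈ GK j) (β : 𝓞 K) :
    g (qa j γ β) = qa j γ β := by rw [qa, map_div₀, hg, fx_cj h hγ hg]

theorem qa_pow (β : 𝓞 K) (m : ℕ) : qa j γ (β ^ m) = qa j γ β ^ m := by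
  simp only [qa, RingOfIntegers.coe_eq_algebraMap, map_pow, div_pow]

theorem qa_prod {ι : Type} (s : Finset ι) (β : ι → 𝓞 K) :
    qa j γ (∏ i ∈ s, β i) = ∏ i ∈ s, qa j γ (β i) := by
  simp only [qa, RingOfIntegers.coe_eq_algebraMap, map_prod, Finset.prod_div_distrib]

theorem qa_eq (h : Upm K) {a b : 𝓞 K} (e : Ideal.span {a} = Ideal.span {b}) :
    qa j γ a = qa j γ b := by
  obtain ⟨u, rfl⟩ := Ideal.span_singleton_eq_span_singleton.1 e
  rcases h u with rfl | rfl <;> simp [qa, neg_div_neg_eq]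

/-- the lemma of Sah -/
theorem sah (kd : Kd j) {ζ : Qb} (hζ : IsPrimitiveRoot ζ (3 ^ n)) {w : Qb} {z : K} (w0 : w ≠ 0)
    (hw : w ^ 3 ^ n = j z) (hf : ∀ g ∈ GK j, g ζ = ζ → g w = w) : ∃ k : K, k ^ 3 ^ n = z ^ 2 := by
  obtain ⟨a, a1, a2⟩ := kd.pos
  obtain ⟨b, b1, b2⟩ := kd.neg
  have d1 := P022.H20.mul_mem' kd.iq.two b1 a1
  have d2 : ∀ y : Qb, y ^ 3 ^ n = 1 → (b * a) y = y⁻¹ := fun y e => by
    rw [AlgEquiv.mul_apply, a2 n y e, b2 n y e]
  generalize b * a = δ at d1 d2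
  obtain ⟨k, hk⟩ := fixed (j := j) (y := w * δ w) fun g hg => by
    have c := same' (hf _ (mul_mem (inv_mem (mul_mem d1 hg)) (mul_mem hg d1)) (same (by
      rw [AlgEquiv.mul_apply, AlgEquiv.mul_apply, d2 _ hζ.pow_eq_one, map_inv₀,
        d2 _ (by rw [← map_pow, hζ.pow_eq_one, map_one])])))
    have u : (g w / w) ^ 3 ^ n = 1 := by
      rw [div_pow, ← map_pow, hw, hg, ← hw, div_self (pow_ne_zero _ w0)]
    have u0 : g w / w ≠ 0 := div_ne_zero ((map_ne_zero g).2 w0) w0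
    rw [map_mul, ← AlgEquiv.mul_apply g δ, c, AlgEquiv.mul_apply, ← div_mul_cancel₀ (g w) w0,
      map_mul, d2 _ u, mul_mul_mul_comm, mul_inv_cancel₀ u0, one_mul]
  exact ⟨k, j.injective (by rw [map_pow, hk, mul_pow, ← map_pow, hw, d1, map_pow, pow_two])⟩

variable {l l' : ℕ} {P P' : Ideal (𝓞 Qb)}

theorem nat_mem (m : ℕ) : (m : 𝓞 K) ∈ below j P ↔ (m : 𝓞 Qb) ∈ P := by
  rw [below, Ideal.mem_comap, map_natCast]

theorem bl_pr (o : Ov l P) : (below j P).IsPrime := have := o.2.1; Ideal.IsPrime.comap _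

theorem bl_ne (o : Ov l P) : below j P ≠ ⊥ := fun e => o.1.ne_zero (by
  have := (nat_mem (j := j) l).2 o.2.2
  rw [e, Ideal.mem_bot] at this
  exact_mod_cast this)

theorem eq_of_le (o : Ov l P) (o' : Ov l' P') (h : below j P ≤ below j P') :
    l = l' ∧ below j P = below j P' := by
  refine ⟨?_, ((bl_pr o).isMaximal (bl_ne o)).eq_of_le (bl_pr o').ne_top h⟩
  by_contra c
  obtain ⟨x, y, e⟩ := (Nat.Coprime.cast ((Nat.coprime_primes o.1 o'.1).2 c) :
    IsCoprime (l : 𝓞 Qb) (l' : 𝓞 Qb))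
  exact o'.2.1.ne_top ((Ideal.eq_top_iff_one _).2 (e ▸ add_mem
    (P'.mul_mem_left x ((nat_mem l).1 (h ((nat_mem l).2 o.2.2)))) (P'.mul_mem_left y o'.2.2)))

theorem ov_sm (o : Ov l P) (g : GQ) : Ov l (g • P) := by
  have := o.2.1
  refine ⟨o.1, inferInstance, ?_⟩
  rw [Ideal.mem_pointwise_smul_iff_inv_smul_mem,
    show g⁻¹ • (l : 𝓞 Qb) = l from map_natCast (MulSemiringAction.toRingHom GQ (𝓞 Qb) g⁻¹) l]
  exact o.2.2

/-- a split prime is not its conjugate -/
theorem bl_cj (o : Ov l P) (le : dec P ≤ GK j) (hγ : γ ∉ GK j) : below j P ≠ below j (γ • P) :=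
  fun z => hγ (by
    obtain ⟨g, hg⟩ := P022.H916.exists_smul j o.2.1 (ov_sm o γ).2.1 z
    have : (g : GQ)⁻¹ * γ ∈ dec P := fun x => by
      rw [mul_smul, ← Ideal.mem_pointwise_smul_iff_inv_smul_mem, ← hg,
        Ideal.smul_mem_pointwise_smul_iff]
    simpa using mul_mem g.2 (le this))

theorem val_pw (v : HeightOneSpectrum (𝓞 K)) {a : 𝓞 K} {h : ℕ}
    (e : v.asIdeal ^ h = Ideal.span {a}) : v.valuation K (a : K) = WithZero.exp (-(h : ℤ)) := by
  classical
  have a0 : a ≠ 0 := fun z => pow_ne_zero h v.ne_bot (by rw [e, z]; simp)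
  rw [RingOfIntegers.coe_eq_algebraMap, v.valuation_of_algebraMap, v.intValuation_if_neg a0, ← e,
    Associates.mk_pow, Associates.count_pow (Associates.mk_ne_zero.2 v.ne_bot) v.associates_irreducible,
    Associates.count_self v.associates_irreducible, mul_one]

end Kj

open Kj in
/-- **KI** -/
theorem ki : KI := fun K _ _ j kd γ hγ B P bs N n ζ y hN hζ => by
  classical
  subst hN
  obtain ⟨a, h', nd, e⟩ := Nat.exists_eq_pow_mul_and_not_dvd
    (Fintype.card_ne_zero (α := ClassGroup (𝓞 K))) 3 (by norm_num)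
  have ov := fun b : B => (bs.ov b b.2).1
  choose π hπ using fun b : B => show ∃ t : 𝓞 K, below j (P b) ^ (3 ^ a * h') = Ideal.span {t} by
    have m : below j (P b) ∈ (Ideal (𝓞 K))⁰ := mem_nonZeroDivisors_of_ne_zero (bl_ne (ov b))
    have k : ClassGroup.mk0 (⟨_, m⟩ ^ (3 ^ a * h')) = 1 := by rw [map_pow, ← e, pow_card_eq_one]
    exact ((ClassGroup.mk0_eq_one_iff (pow_mem m _)).1 k).principal
  have π0 : ∀ b, π b ≠ 0 := fun b z => pow_ne_zero _ (bl_ne (ov b)) (by rw [hπ, z]; simp)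
  obtain ⟨ξ, hξ⟩ := HasEnoughRootsOfUnity.exists_primitiveRoot Qb (3 ^ (n + a))
  choose r hr using fun b : B =>
    IsAlgClosed.exists_pow_nat_eq (qa j γ (π b)) (n := 3 ^ (n + a)) (by positivity)
  have r0 : ∀ b, r b ≠ 0 := fun b z => qa_ne (π0 b) (by rw [← hr, z, zero_pow (by positivity)])
  have up : ∀ x : Qb, x ^ 3 ^ n = 1 → x ^ 3 ^ (n + a) = 1 := fun x k => by
    rw [pow_add, pow_mul, k, one_pow]
  rcases dual (N := 3 ^ (n + a)) (GK j ⊓ MulAction.stabilizer GQ ξ)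
    (fun g hg x k => fix_of hξ hg.2 k) r (fun b => (ζ ^ (y b).val) ^ h') r0
    (fun g hg b => by rw [hr, qa_fix kd.iq hγ hg.1])
    (fun b => up _ (by
      rw [← pow_mul, ← pow_mul, ← mul_assoc, pow_mul', hζ.pow_eq_one, one_pow])) with
    ⟨g, g1, g2⟩ | ⟨m, m1, m2⟩
  · refine ⟨g, g1.1, fun x k => fix_of hξ g1.2 (up x k), fun μ β hβ w hw => ?_⟩
    have β0 : β ≠ 0 := fun z => Finset.prod_ne_zero_iff.2
      (fun b hb => pow_ne_zero (μ b) (bl_ne (ov ⟨b, hb⟩))) (by rw [hβ, z]; simp)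
    have w0 : w ≠ 0 := fun z => qa_ne β0 (by rw [← hw, z, zero_pow (by positivity)])
    have p0 : ∏ b, r b ^ μ b ≠ 0 := Finset.prod_ne_zero_iff.2 fun b _ => pow_ne_zero _ (r0 b)
    have q : qa j γ (β ^ (3 ^ a * h')) = qa j γ (∏ b, π b ^ μ b) := qa_eq kd.upm (by
      rw [← Ideal.span_singleton_pow, ← hβ, ← Ideal.prod_span_singleton, ← Finset.prod_pow,
        ← Finset.prod_coe_sort]
      exact Finset.prod_congr rfl fun b _ => by
        rw [← Ideal.span_singleton_pow, ← hπ, pow_right_comm])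
    have f := fix_of hξ g1.2 (y := w ^ h' / ∏ b, r b ^ μ b) (by
      rw [div_pow, div_eq_one_iff_eq (pow_ne_zero _ p0), ← Finset.prod_pow]
      simp only [pow_right_comm _ (μ _), hr, ← qa_pow, ← qa_prod, ← q]
      rw [qa_pow, ← hw, ← pow_mul, ← pow_mul, pow_add]
      congr 1; ring)
    have z0 : ζ ≠ 0 := hζ.ne_zero (by positivity)
    have s : ζ ^ (∑ b ∈ B, (μ b : ZMod (3 ^ n)) * y b).val = ∏ b : B, (ζ ^ (y b).val) ^ μ b := by
      simp only [← pow_mul, Finset.prod_pow_eq_pow_sum]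
      refine pow_eq_pow_of_modEq ((ZMod.natCast_eq_natCast_iff _ _ _).1 ?_) hζ.pow_eq_one
      rw [ZMod.natCast_zmod_val, ← Finset.sum_coe_sort]
      simp [mul_comm]
    rw [s, ← div_eq_one_iff_eq (mul_ne_zero (s ▸ pow_ne_zero _ z0) w0)]
    refine (pow_eq_one_iff_of_coprime (m := h') (n := 3 ^ n)
      ((Nat.coprime_comm.1 ((Nat.Prime.coprime_iff_not_dvd Nat.prime_three).2 nd)).pow_right n)).1
      ⟨?_, ?_⟩
    · rw [map_div₀, map_pow, map_prod, div_eq_div_iff (by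
        rw [← map_prod]; exact (map_ne_zero g).2 p0) p0] at f
      simp only [map_pow, g2, mul_pow, Finset.prod_mul_distrib, pow_right_comm _ h',
        Finset.prod_pow] at f
      rw [div_pow, div_eq_one_iff_eq (pow_ne_zero _ (mul_ne_zero (s ▸ pow_ne_zero _ z0) w0)),
        mul_pow]
      exact mul_right_cancel₀ p0 (f.trans (by ring))
    · rw [div_pow, mul_pow, ← map_pow, hw, qa_fix kd.iq hγ g1.1, ← s, pow_right_comm,
        hζ.pow_eq_one, one_pow, one_mul, div_self (qa_ne β0)]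
  exfalso
  choose π' hπ' using fun b => ex_cj kd.iq hγ (π b)
  obtain ⟨k, hk⟩ := sah kd hξ (z := ∏ b, ((π b : K) / π' b) ^ m b)
    (Finset.prod_ne_zero_iff.2 fun b _ => pow_ne_zero (m b) (r0 b)) (by
      rw [← Finset.prod_pow]
      simp only [pow_right_comm _ (m _), hr, map_prod, map_pow, map_div₀, hπ', qa])
    fun g hg e => m1 g ⟨hg, e⟩
  refine m2 (Finset.prod_eq_one fun b _ => ?_)
  let v : HeightOneSpectrum (𝓞 K) := ⟨below j (P b), bl_pr (ov b), bl_ne (ov b)⟩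
  have le : ∀ (c : B) (Q : Ideal (𝓞 Qb)), Ov b Q → π c ∈ below j Q →
      c = b ∧ below j (P c) = below j Q := fun c Q o i =>
    have := bl_pr (j := j) o
    (eq_of_le (ov c) o (Ideal.IsPrime.le_of_pow_le
      (hπ c ▸ (Ideal.span_singleton_le_iff_mem _).2 i))).imp_left Subtype.ext
  have v1 : ∀ c, v.valuation K (π' c : K) = 1 := fun c =>
    (v.valuation_eq_one_iff_notMem (K := K)).2 fun i => by
      obtain ⟨rfl, z⟩ := le c _ (ov_sm (ov b) γ⁻¹) (by
        rw [below, Ideal.mem_comap, Ideal.mem_pointwise_smul_iff_inv_smul_mem, inv_inv,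
          show γ • RingOfIntegers.mapRingHom j (π c) = RingOfIntegers.mapRingHom j (π' c) from
            RingOfIntegers.ext (hπ' c).symm]
        exact i)
      exact bl_cj (ov c) (bs.ov c c.2).2 (mt (inv_mem_iff).1 hγ) z
  have v2 : ∀ c ≠ b, v.valuation K (π c : K) = 1 := fun c d =>
    (v.valuation_eq_one_iff_notMem (K := K)).2 fun i => d (le c _ (ov b) i).1
  have t := congrArg (v.valuation K) hk
  rw [map_pow, map_pow, map_prod, Finset.prod_eq_single b (fun c _ d => by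
    rw [map_pow, map_div₀, v1, v2 c d, div_one, one_pow]) (by simp), map_pow, map_div₀, v1,
    div_one, val_pw v (hπ b)] at t
  have k0 : v.valuation K k ≠ 0 := fun z => by
    rw [z, zero_pow (by positivity)] at t
    exact pow_ne_zero _ (pow_ne_zero _ WithZero.exp_ne_zero) t.symm
  rw [← WithZero.exp_log k0, ← WithZero.exp_nsmul, ← WithZero.exp_nsmul, ← WithZero.exp_nsmul,
    WithZero.exp_inj] at t
  have d : (3 : ℤ) ^ n ∣ 2 * (h' * m b) := ⟨-WithZero.log (v.valuation K k),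
    mul_left_cancel₀ (pow_ne_zero a three_ne_zero) (by
      simp only [nsmul_eq_mul] at t; push_cast at t; linear_combination t)⟩
  obtain ⟨c, hc⟩ : 3 ^ n ∣ h' * m b :=
    (Nat.Coprime.pow_left n (by norm_num : Nat.Coprime 3 2)).dvd_of_dvd_mul_left (by exact_mod_cast d)
  rw [← pow_mul, hc, pow_right_comm, pow_mul, hζ.pow_eq_one, one_pow, one_pow]

end Vale.Agent.P014Y.Rd
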