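import Vale.Agent.P014Y.Rd.St
import Vale.Agent.P004R.Fld
import Vale.Agent.P004F.Pt.Kd
import Vale.Agent.P022K.GW.Pl
import Vale.Agent.P022K.G2.Kum

/-!
# P014Y, route R: the small Selmer group is killed
-/

set_option autoImplicit false
set_option linter.all false

open NumberField Module IsDedekindDomain
open scoped Pointwise

noncomputable section

namespace Vale.Agent.P014Y.Rd

open Vale.Agent.P022 Vale.Agent.P022.H916 P004K
open P004R.Xt (iz smul_coe ex_int unit_one not_dvd fx_one norm_below nm_eq)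
open P004R.Fd (dec_smul ov_smul fb_smul)
open Vale.Agent.P027M.S (Inert)
open Vale.Agent.P022D.W (dec)
open Vale.Agent.P022E.GW (Ov Fb)
open Vale.Agent.P022K.G2 (oz zt)
open P004S (inert_dec)

namespace Kk

variable {K : Type} [Field K] [NumberField K] {j : K →+* Qb} {c l : ℕ} {x : GQ → ZMod 3}
  {P : Ideal (𝓞 Qb)} {g t γ φ : GQ} {a : 𝓞 K} {y : Qb}

theorem xpow (h : Xc j c x) (m : g ∈ GK j) (i : ℕ) : x (g ^ i) = i * x g := by
  induction i with
  | zero => rw [pow_zero, h.ker 1 (one_mem _), Nat.cast_zero, zero_mul]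
  | succ i ih => rw [pow_succ, h.add _ (pow_mem m i) _ m, ih, Nat.cast_succ, add_mul, one_mul]

theorem cj (r : RC1) (iq : Iq K) (c0 : 0 < c) (h : Xc j c x) (m : g ∉ GK j) (m' : t ∈ GK j) :
    g * t * g⁻¹ ∈ GK j ∧ x (g * t * g⁻¹) = -x t := by
  have a := (r K j iq c c0).2.2.2.2.1 g m t m'
  have b : g * t * g⁻¹ ∈ GK j := by simpa using (GK j).mul_mem a.1 (inv_mem m')
  have d := h.ker _ a
  rw [h.add _ b _ m'] at d
  exact ⟨b, eq_neg_of_add_eq_zero_left d⟩

theorem tw (h : (t⁻¹ * g * t) y = y) : g (t y) = t y := by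
  rw [← AlgEquiv.mul_apply, show g * t = t * (t⁻¹ * g * t) by group, AlgEquiv.mul_apply, h]

/-- inertia fixes the cube roots of units -/
theorem core (o : Ov l P) (hN : ¬ l ∣ 3) (hg : Inert P g) {z : 𝓞 Qb} (hz : z ∉ P)
    (h : g ((z : Qb) ^ 3) = z ^ 3) : g z = z := by
  have y0 : (z : Qb) ≠ 0 := fun k => hz (by
    rw [show z = 0 from RingOfIntegers.ext k]; exact P.zero_mem)
  have e1 : (g z / z) ^ 3 = 1 := by rw [div_pow, ← map_pow, h, div_self (pow_ne_zero _ y0)]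
  obtain ⟨η, hη, e0⟩ := ex_int three_ne_zero (w := 1) e1
  have e2 : g • z = η * z := RingOfIntegers.ext (by
    rw [smul_coe, RingOfIntegers.coe_eq_algebraMap (η * z), map_mul]
    exact (div_mul_cancel₀ _ y0).symm.trans (congrArg (· * (z : Qb)) hη.symm))
  have e3 := hg z
  rw [e2, ← sub_one_mul] at e3
  have e4 := unit_one o hN e0 ((o.2.1.mem_or_mem e3).resolve_right hz)
  rw [← smul_coe, e2, e4, one_mul]

theorem loc {R : Type} [CommRing R] [IsDedekindDomain R] {p I J : Ideal R} (pr : p.IsPrime) {a : R}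
    (a0 : a ≠ 0) (e : Ideal.span {a} = I ^ 3 * J) (n : ¬ J ≤ p) :
    ∃ β d u : R, β ≠ 0 ∧ d ≠ 0 ∧ u ∉ p ∧ β ^ 3 * u = a * d ^ 3 := by
  have I0 : I ≠ 0 := fun z => a0 (by simpa [z] using e)
  obtain ⟨β, b1, b2⟩ : ∃ β ∈ I, β ∉ I * p := by
    by_contra! z
    exact pr.ne_top (mul_left_cancel₀ I0
      ((le_antisymm Ideal.mul_le_left z).trans (Ideal.mul_top I).symm))
  obtain ⟨C, hC⟩ := Ideal.dvd_iff_le.2 ((Ideal.span_singleton_le_iff_mem _).2 b1)
  obtain ⟨d, d1, d2⟩ : ∃ d ∈ C, d ∉ p := by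
    by_contra! z
    have b := Ideal.mem_span_singleton_self β
    rw [hC] at b
    exact b2 (Ideal.mul_mono_right z b)
  obtain ⟨w, w1, w2⟩ := SetLike.not_le_iff_exists.1 n
  have k : Ideal.span {a} * C ^ 3 = Ideal.span {β ^ 3} * J := by
    rw [← Ideal.span_singleton_pow, hC, e]; ring
  have k1 := Ideal.mul_mem_mul (Ideal.mem_span_singleton_self a) (Ideal.pow_mem_pow d1 3)
  have k2 := Ideal.mul_mem_mul (Ideal.mem_span_singleton_self (β ^ 3)) w1
  rw [k] at k1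
  rw [← k] at k2
  obtain ⟨u, -, hu⟩ := Ideal.mem_span_singleton_mul.1 k1
  obtain ⟨v, -, hv⟩ := Ideal.mem_span_singleton_mul.1 k2
  refine ⟨β, d, u, fun z => b2 (z ▸ zero_mem _), fun z => d2 (z ▸ zero_mem _), fun z => ?_, hu⟩
  have e1 : d ^ 3 * w = v * u := mul_left_cancel₀ a0 (by linear_combination -w * hu - u * hv)
  have b := Ideal.mul_mem_left _ v z
  rw [← e1] at b
  exact (pr.mem_or_mem b).elim (fun b => d2 (pr.mem_of_pow_mem _ b)) w2

/-- unramified Kummer extensions -/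
theorem unr (o : Ov l P) (hN : ¬ l ∣ 3) (hg : Inert P g) (m : g ∈ GK j) {I J : Ideal (𝓞 K)}
    (a0 : a ≠ 0) (e : Ideal.span {a} = I ^ 3 * J) (n : ¬ J ≤ below j P) (h : y ^ 3 = j a) :
    g y = y := by
  obtain ⟨β, d, u, β0, d0, u0, hu⟩ := loc (P004R.Gl.below_pr j o.2.1) a0 e n
  have ne : ∀ {b : 𝓞 K}, b ≠ 0 → j b ≠ 0 := fun b => by simpa using b
  have e0 : j β ^ 3 * j u = j a * j d ^ 3 := by simpa using congrArg (fun z : 𝓞 K => j z) hu
  have e1 : (y * j d / j β) ^ 3 = (iz j u : Qb) := by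
    rw [div_pow, mul_pow, h, div_eq_iff (pow_ne_zero _ (ne β0)), ← e0, mul_comm]
    rfl
  obtain ⟨z, hz, e2⟩ := ex_int three_ne_zero e1
  have z0 : z ∉ P := fun k => by
    have b := P.pow_mem_of_mem k 3 three_pos
    rw [e2] at b
    exact u0 b
  have := core o hN hg z0 (by rw [hz, e1]; exact m u)
  rw [hz, map_div₀, map_mul, m β, m d, div_left_inj' (ne β0)] at this
  exact mul_right_cancel₀ (ne d0) this

theorem dec_mu (o : Ov l P) (f : Fb l P φ) (h : l % 3 = 1) (m : g ∈ dec P) : oz 3 g = 1 := by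
  have e := (P022K.G2.zt_prim 3).pow_eq_one
  refine P022K.G2.mem_Gz.1 (P004S.lt.dec_le o f P022K.G2.Gz_open
    (P022K.G2.mem_Gz'.2 (fx_one o f h _ e)) (fun i hi => P022K.G2.mem_Gz'.2 ?_) m)
  obtain ⟨z, hz, e0⟩ := ex_int three_ne_zero (w := 1) e
  rw [← hz]
  exact core o (not_dvd o h) hi (fun k => o.2.1.ne_top ((Ideal.eq_top_iff_one _).2
    (e0 ▸ P.pow_mem_of_mem k 3 three_pos))) (by rw [hz, e, map_one])

/-- three ramifies in the third cyclotomic field -/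
theorem mu3 (o : Ov 3 P) (h : y ^ 3 = 1) (f : ∀ g ∈ dec P, g y = y) : y = 1 := by
  by_contra n
  obtain ⟨τ, hτ⟩ := P022E.GW.Tg.ex_gn' o
  have e : (2 * y + 1) ^ 2 = ((-3 : ℤ) : Qb) := by
    have := (mul_eq_zero.1 (show (y - 1) * (y ^ 2 + y + 1) = 0 by
      linear_combination h)).resolve_left (sub_ne_zero.2 n)
    push_cast
    linear_combination 4 * this
  have b := P004S.nu_tau o (by decide) (d := -3) Int.prime_three.neg.squarefree (by decide) hτ
  rw [(P004S.nu_eq_zero e).2 (by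
    rw [map_add, map_mul, map_one, map_ofNat, f τ (inert_dec hτ.1)])] at b
  exact zero_ne_one b

section

variable {ι : Type} [Fintype ι]

theorem fac (f : ι → Ideal (𝓞 K)) (J : Ideal (𝓞 K)) (h0 : J ≠ 0)
    (h : ∀ p, Prime p → p ∣ J → ∃ i, p = f i) : ∃ m : ι → ℕ, J = ∏ i, f i ^ m i := by
  classical
  induction J using UniqueFactorizationMonoid.induction_on_prime with
  | h₁ => exact absurd rfl h0
  | h₂ x u =>
    refine ⟨0, ?_⟩
    simp only [Pi.zero_apply, pow_zero, Finset.prod_const_one]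
    exact (Ideal.isUnit_iff.1 u).trans Ideal.one_eq_top.symm
  | h₃ a p a0 hp ih =>
    obtain ⟨m, rfl⟩ := ih a0 fun q hq d => h q hq (d.mul_left _)
    obtain ⟨i, rfl⟩ := h p hp (dvd_mul_right _ _)
    refine ⟨Pi.single i 1 + m, ?_⟩
    simp only [Pi.add_apply, pow_add, Finset.prod_mul_distrib, Pi.single_apply, pow_ite, pow_one,
      pow_zero, Finset.prod_ite_eq', Finset.mem_univ, if_true]

theorem red {M : Type} [CommMonoid M] (A : ι → M) {m : ι → ℕ} {o : ι} (h : ∀ i ≠ o, 3 ∣ m i) :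
    ∃ B, ∏ i, A i ^ m i = B ^ 3 * A o ^ m o := by
  classical
  refine ⟨∏ i ∈ Finset.univ.erase o, A i ^ (m i / 3), ?_⟩
  rw [← Finset.prod_erase_mul _ _ (Finset.mem_univ o), ← Finset.prod_pow]
  refine congrArg (· * _) (Finset.prod_congr rfl fun i hi => ?_)
  rw [← pow_mul, Nat.div_mul_cancel (h i (Finset.ne_of_mem_erase hi))]

theorem val {q : ι → ℕ} (k : ι → ℕ) (hq : ∀ i, (q i).Prime) {N : ℕ} (N0 : N ≠ 0) (l : ℕ) :
    (N ^ 3 * ∏ i, q i ^ k i).factorization l =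
      3 * N.factorization l + ∑ i, if q i = l then k i else 0 := by
  have n : ∀ i ∈ Finset.univ, q i ^ k i ≠ 0 := fun i _ => pow_ne_zero _ (hq i).ne_zero
  rw [Nat.factorization_mul (pow_ne_zero _ N0) (Finset.prod_ne_zero_iff.2 n),
    Nat.factorization_pow, Nat.factorization_prod n]
  simp [Finsupp.finset_sum_apply, (hq _).factorization, Finsupp.single_apply]

/-- reciprocity for pairs of conjugate places -/
theorem art2 (r1 : RC1) (art : ART) (iq : Iq K) (hγ : γ ∉ GK j) {l m m' : ι → ℕ}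
    {Q : ι → Ideal (𝓞 Qb)} {φ : ι → GQ} {r : ℕ} {I : Ideal (𝓞 K)} (c0 : 0 < c) (a0 : a ≠ 0)
    (X : Xc j (c ^ r) x) (sp : ∀ l P, Ov l P → l ∣ c → dec P ≤ GK j) (L : Lc j c a)
    (h : ∀ i, Ov (l i) (Q i) ∧ Fb (l i) (Q i) (φ i) ∧ ¬ l i ∣ c ∧
      ∀ Q', Ov (l i) Q' → dec Q' ≤ GK j)
    (e : Ideal.span {a} =
      I ^ 3 * ((∏ i, below j (Q i) ^ m i) * ∏ i, below j (γ • Q i) ^ m' i)) :
    ∑ i, ((m i : ZMod 3) - m' i) * x (φ i) = 0 := by
  have := art K j iq c r x a I (ι ⊕ ι) (Sum.elim l l) (Sum.elim m m')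
    (Sum.elim Q fun i => γ • Q i) (Sum.elim φ fun i => γ * φ i * γ⁻¹) c0 a0 X sp L (by
      rintro (i | i)
      · exact ⟨(h i).1, (h i).2.2.2 _ (h i).1, (h i).2.1, (h i).2.2.1⟩
      · exact ⟨ov_smul (h i).1 γ, (h i).2.2.2 _ (ov_smul (h i).1 γ), fb_smul (h i).2.1 γ,
          (h i).2.2.1⟩) (by rw [Fintype.prod_sum_type]; exact e)
  rw [Fintype.sum_sum_type, ← Finset.sum_add_distrib] at this
  refine (Finset.sum_congr rfl fun i _ => ?_).trans this
  simp only [Sum.elim_inl, Sum.elim_inr]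
  rw [(cj r1 iq (pow_pos c0 r) X hγ ((h i).2.2.2 _ (h i).1
    (mem_of_frob (h i).1.2.1 (h i).1.1.ne_zero (h i).2.1))).2]
  ring

end

theorem both {m m' : ℕ} {u : ZMod 3} (u0 : u ≠ 0) (h : ((m : ZMod 3) - m') * u = 0)
    (d : 3 ∣ m + m') : 3 ∣ m ∧ 3 ∣ m' := by
  have := (ZMod.natCast_eq_natCast_iff' _ _ _).1
    (sub_eq_zero.1 ((mul_eq_zero.1 h).resolve_right u0))
  omega

end Kk

open Kk in
/-- **killing** -/
theorem kil (r1 : RC1) (pls : PLS) (art : ART) : KIL := by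
  intro K _ _ j kd ι _ _ q Q φ o x x₀ h P hP a y a0 hy ⟨I, J, n, e, hJ⟩ fP fQ
  obtain ⟨γ, hγ, -⟩ := kd.pos
  obtain ⟨ω, s, qd⟩ := P004F.Pt.ex_q j kd.iq
  obtain ⟨N, hN⟩ := qd.nm a
  have ov := fun i => (h.pl i).1
  have fb := fun i => (h.pl i).2.1
  have c0 : 0 < ∏ i, q i := Finset.prod_pos fun i _ => (ov i).1.pos
  have cd : ∀ i, q i ∣ ∏ i, q i := fun i => Finset.dvd_prod_of_mem _ (Finset.mem_univ i)
  have sp := fun i Q' o' => ((h.pl i).2.2.2 Q' o').1
  have fd : ∀ i, φ i ∈ dec (Q i) := fun i => mem_of_frob (ov i).2.1 (ov i).1.ne_zero (fb i)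
  have nd : ∀ i i', q i ∣ q i' → i = i' := fun i i' d =>
    h.inj ((Nat.prime_dvd_prime_iff_eq (ov i).1 (ov i').1).1 d)
  have a1 : j a ≠ 0 := by simpa using a0
  have nm : ∀ g ∉ GK j, j a * g (j a) = N := fun g m => by
    rw [P004F.Pt.cj_out qd m]
    simpa using congrArg (fun z : 𝓞 K => j z) hN
  obtain ⟨M, rfl⟩ := fac (Sum.elim (fun i => below j (Q i)) fun i => below j (γ • Q i)) J
    (fun z => a0 (by simpa [z] using e)) fun p hp d => by
      have m := Ideal.dvd_iff_le.1 (hp.dvd_of_dvd_pow (d.trans hJ))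
        (Ideal.mem_span_singleton_self _)
      have pr := Ideal.isPrime_of_prime hp
      obtain ⟨R, hR, rfl⟩ := exists_above j p pr
      rw [Nat.cast_prod] at m
      obtain ⟨i, -, k⟩ := Ideal.IsPrime.prod_mem_iff.1 m
      obtain ⟨t, rfl⟩ := P022E.GW.Tg.trans (ov i)
        (⟨(ov i).1, hR, (P004R.Gl.mem_below _).1 k⟩ : Ov (q i) R)
      by_cases z : t ∈ GK j
      · exact ⟨.inl i, P022K.GW.Pl.below_smul j z _⟩
      · refine ⟨.inr i, ?_⟩
        rw [show t = t * γ⁻¹ * γ by group, mul_smul]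
        exact P022K.GW.Pl.below_smul j (mul_inv_mem j kd.iq.two z hγ) _
  rw [Fintype.prod_sum_type] at e
  simp only [Sum.elim_inl, Sum.elim_inr] at e
  have vl : ∀ l, N.natAbs.factorization l = 3 * (Ideal.absNorm I).factorization l +
      ∑ i, if q i = l then M (.inl i) + M (.inr i) else 0 := fun l => by
    rw [← val _ (fun i => (ov i).1) (mt Ideal.absNorm_eq_zero_iff.1 fun z => a0 (by
      simpa [z] using e)), ← nm_eq kd.iq qd hN, e, map_mul, map_pow, map_mul, map_prod, map_prod,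
      ← Finset.prod_mul_distrib]
    refine congrArg (fun z => Nat.factorization (_ * z) l) (Finset.prod_congr rfl fun i _ => ?_)
    rw [map_pow, map_pow, norm_below kd.iq (ov i) (fb i) (sp i _ (ov i) (fd i)),
      norm_below kd.iq (ov_smul (ov i) γ) (fb_smul (fb i) γ)
        (cj r1 kd.iq c0 h.xe hγ (sp i _ (ov i) (fd i))).1, pow_add]
  obtain ⟨σ, s1, s2⟩ := h.pls
  obtain ⟨t, rfl⟩ := pls ι q σ N (y * γ y) h.inj (fun i =>
    ⟨(ov i).1, dec_mu (ov i) (fb i) (h.pl i).2.2.1 (s1 i).1, by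
      have b := (cj r1 kd.iq c0 h.xe (mt inv_mem_iff.1 hγ) (sp i _ (ov i) (s1 i).1)).2
      rw [inv_inv, (s1 i).2, neg_zero] at b
      rw [map_mul, fQ _ _ (ov i) (cd i) _ (s1 i).1 (s1 i).2, tw (fQ _ _ (ov_smul (ov i) γ⁻¹) (cd i)
        _ (dec_smul (by rw [smul_inv_smul]; exact (s1 i).1)) b)]⟩)
    (fun z => mul_ne_zero a1 ((map_ne_zero γ).2 a1) (by rw [nm γ hγ, z, Int.cast_zero]))
    (by rw [mul_pow, ← map_pow, hy, nm γ hγ]) (fun l hl b => by
      rw [padicValInt, ← Nat.factorization_def _ hl, vl,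
        Finset.sum_eq_zero fun i _ => if_neg (b i).symm, add_zero]
      exact dvd_mul_right _ _) s2
  have d3 : ∀ i, 3 ∣ M (.inl i) + M (.inr i) := fun i => by
    have b := vl (q i)
    rw [Int.natAbs_pow, Nat.factorization_pow, Finsupp.smul_apply, smul_eq_mul,
      Finset.sum_eq_single i (fun i' _ k => if_neg fun z => k (h.inj z))
        fun k => absurd (Finset.mem_univ i) k, if_pos rfl] at b
    omega
  have l3 : ∀ l P', Ov l P' → l ∣ 3 → Ov 3 P' := fun l P' o' d =>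
    (Nat.prime_dvd_prime_iff_eq o'.1 Nat.prime_three).1 d ▸ o'
  have L3 : Lc j 3 a := fun l P' o' d => by
    obtain ⟨g, rfl⟩ := P022E.GW.Tg.trans hP (l3 l P' o' d)
    by_cases z : g ∈ GK j
    · exact ⟨g y, by rw [← map_pow, hy, z], fun u m => tw (fP _ (dec_smul m))⟩
    · refine ⟨t / g y, ?_, fun u m => by rw [map_div₀, map_intCast, tw (fP _ (dec_smul m))]⟩
      rw [div_pow, ← map_pow, hy, div_eq_iff ((map_ne_zero g).2 a1), nm g z, Int.cast_pow]
  have d9 : ∀ i ≠ o, 3 ∣ M (.inl i) ∧ 3 ∣ M (.inr i) := fun i hi => by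
    obtain ⟨z, X, z1, z2⟩ := h.x9 i hi
    have b := art2 r1 art kd.iq hγ (r := 2) three_pos a0 X
      (fun l P' o' d => kd.spl _ (l3 l P' o' d)) L3
      (fun i => ⟨ov i, fb i, not_dvd (ov i) (h.pl i).2.2.1, sp i⟩) e
    rw [Finset.sum_eq_single i (fun i' _ k => by rw [z2 i' k, mul_zero])
      fun k => absurd (Finset.mem_univ i) k] at b
    exact both z1 b (d3 i)
  obtain ⟨A, hA⟩ := red (fun i => below j (Q i)) fun i hi => (d9 i hi).1
  obtain ⟨B, hB⟩ := red (fun i => below j (γ • Q i)) fun i hi => (d9 i hi).2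
  have e1 : Ideal.span {a} = (I * A * B) ^ 3 *
      (below j (Q o) ^ M (.inl o) * below j (γ • Q o) ^ M (.inr o)) := by
    rw [e, hA, hB]; ring
  have fx : ∀ i ≠ o, ∀ Q', Ov (q i) Q' → ∀ g ∈ dec Q', g y = y := fun i hi Q' o' g m => by
    obtain ⟨b, u, iu, xu⟩ := (h.pl i).2.2.2 Q' o'
    have mu := inert_dec iu
    have uy : u ∈ MulAction.stabilizer GQ y :=
      unr o' (not_dvd o' (h.pl i).2.2.1) iu (b mu) a0 e1 (fun le => by
        have k := le (Ideal.mul_mem_mul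
          (Ideal.pow_mem_pow ((P004R.Gl.mem_below _).2 (ov o).2.2) _)
          (Ideal.pow_mem_pow ((P004R.Gl.mem_below _).2 (ov_smul (ov o) γ).2.2) _))
        rw [← pow_add] at k
        exact P004R.Wr.ov_nat o' (fun d => hi (nd _ _ d)) ((P004R.Gl.mem_below _).1
          ((P004R.Gl.below_pr j o'.2.1).mem_of_pow_mem _ k))) hy
    have k := fQ _ _ o' (cd i) _ (mul_mem m (pow_mem mu (-x g).val)) (by
      rw [h.xe.add _ (b m) _ (pow_mem (b mu) _), xpow h.xe (b mu), xu, ZMod.natCast_zmod_val]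
      ring)
    rwa [AlgEquiv.mul_apply, show (u ^ (-x g).val) y = y from pow_mem uy _] at k
  have dv : ∀ l : ℕ, l.Prime → l ∣ ∏ i ∈ Finset.univ.erase o, q i → ∃ i ≠ o, l = q i :=
    fun l hl d => by
      obtain ⟨i, hi, k⟩ := (hl.prime.dvd_finset_prod_iff _).1 d
      exact ⟨i, Finset.ne_of_mem_erase hi, (Nat.prime_dvd_prime_iff_eq hl (ov i).1).1 k⟩
  have b := art2 r1 art kd.iq hγ (ι := Unit) (r := 1) (l := fun _ => q o) (Q := fun _ => Q o)
    (φ := fun _ => φ o) (m := fun _ => M (.inl o)) (m' := fun _ => M (.inr o)) (I := I * A * B)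
    (Finset.prod_pos fun i _ => (ov i).1.pos) a0 (by rw [pow_one]; exact h.x0.1)
    (fun l P' o' d => by
      obtain ⟨i, -, rfl⟩ := dv l o'.1 d
      exact sp i _ o')
    (fun l P' o' d => by
      obtain ⟨i, hi, rfl⟩ := dv l o'.1 d
      exact ⟨y, hy, fx i hi _ o'⟩)
    (fun _ => ⟨ov o, fb o, fun d => by
      obtain ⟨i, hi, k⟩ := dv _ (ov o).1 d
      exact hi (h.inj k).symm, sp o⟩)
    (by rw [Fintype.prod_unique, Fintype.prod_unique]; exact e1)
  rw [Fintype.sum_unique] at b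
  obtain ⟨⟨k, hk⟩, k', hk'⟩ := both h.x0.2 b (d3 o)
  obtain ⟨w, hw⟩ := h.det a y ⟨a0, ⟨I * A * B * (below j (Q o) ^ k * below j (γ • Q o) ^ k'), by
    rw [e1, hk, hk']; ring⟩, L3⟩ hy fun i hi => fx i hi _ (ov i) _ (fd i)
  rw [hw, map_pow] at hy a1
  have w0 : j w ≠ 0 := fun z => a1 (by rw [z, zero_pow three_ne_zero])
  have := mu3 hP (y := y / j w) (by rw [div_pow, hy, div_self a1]) fun g m => by
    rw [map_div₀, fP g m, kd.spl P hP m]
  intro g m
  rw [(div_eq_one_iff_eq w0).1 this]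
  exact m w

end Vale.Agent.P014Y.Rd
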