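import Vale.Agent.P014Y.Rd.St2
import Vale.Agent.P014U.G2.Gys
import Vale.Agent.P022.H916.Ram

/-!
# P014Y, route R: row `KUK`
-/

set_option autoImplicit false
set_option linter.all false

open NumberField IsDedekindDomain

noncomputable section

namespace Vale.Agent.P014Y.Rd

open Vale.Agent.P022 Vale.Agent.P022.C Vale.Agent.P022.H916
open Vale.Agent.P027M.S (Inert)
open Vale.Agent.P022D.W (dec phi_mem inP_le_dec)
open Vale.Agent.P022E.GW (Ov Fb)
open Vale.Agent.P022K.G2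

/-- **row KUK** -/
theorem kuk : KUK := fun K _ _ j z hz ⟨W, o, e⟩ => by
  obtain ⟨V, hV, lV⟩ := ex_lv' o
  obtain ⟨δ, d0, hd⟩ := P014U.G2.Gy.h90 (A := GK j) hV (f := fun g => zt 3 ^ (z g).val)
    (fun g _ => pow_ne_zero _ zt_ne)
    (fun g hg h hh => by rw [hz g hg h hh, pw_add, oz_pw])
    fun g hg w hw m => by rw [hz g hg w hw, e w hw (lV m), mul_zero, add_zero]
  have h1 : ∀ g ∈ GK j, g δ⁻¹ = zt 3 ^ (z g).val * δ⁻¹ := fun g hg => by
    have := (map_ne_zero g).2 d0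
    rw [map_inv₀]
    nth_rw 2 [← hd g hg]
    have := pow_ne_zero (z g).val (zt_ne (p := 3))
    field_simp
  obtain ⟨b, hb⟩ := fixed j (x := δ⁻¹ ^ 3) fun g => by
    rw [map_pow, h1 g g.2, mul_pow, pw_pow, one_mul]
  obtain ⟨n, n0, hn⟩ := ((IsFractionRing.isAlgebraic_iff ℤ ℚ K).2
    (Algebra.IsAlgebraic.isAlgebraic b)).exists_integral_multiple
  have i : IsIntegral ℤ ((n : K) ^ 3 * b) := by
    rw [pow_succ, mul_assoc, ← zsmul_eq_mul]
    exact ((isIntegral_intCast n).pow 2).mul hn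
  have n1 : (n : Qb) ≠ 0 := Int.cast_ne_zero.2 n0
  have e1 : ((n : Qb) * δ⁻¹) ^ 3 = j (⟨_, i⟩ : 𝓞 K) := by
    show _ = j ((n : K) ^ 3 * b)
    rw [map_mul, map_pow, map_intCast, hb, mul_pow]
  refine ⟨⟨_, i⟩, n * δ⁻¹, fun c => ?_, e1, fun g hg => by
    rw [map_mul, map_intCast, h1 g hg, mul_left_comm]⟩
  rw [c] at e1
  exact pow_ne_zero 3 (mul_ne_zero n1 (inv_ne_zero d0)) (e1.trans (map_zero j))

end Vale.Agent.P014Y.Rd
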