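import Vale.Agent.P014Y.Rd.St

/-!
# P014Y, route R: Kummer classes over the cyclotomic tower (rows KI0, KX)
-/

set_option autoImplicit false
set_option linter.all false

noncomputable section

namespace Vale.Agent.P014Y.Rd

open Vale.Agent.P022 (Qb GQ GK)
open P004K

namespace Kx

variable {K : Type} [Field K] [NumberField K] {j : K →+* Qb}

theorem fx_inv {g : GQ} {y : Qb} (h : g y = y) : g⁻¹ y = y :=
  g.injective (by rw [← AlgEquiv.mul_apply, mul_inv_cancel, h]; rfl)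

theorem rt {g : GQ} {y : Qb} {n : ℕ} (h : y ^ n = 1) : g y ^ n = 1 := by
  rw [← map_pow, h, map_one]

/-- an element of `G_K` which inverts the roots of unity -/
theorem ex_neg (h : Kd j) : ∃ s ∈ GK j, ∀ (n : ℕ) (ζ : Qb), ζ ^ 3 ^ n = 1 → s ζ = ζ⁻¹ := by
  obtain ⟨a, a1, a2⟩ := h.pos
  obtain ⟨b, b1, b2⟩ := h.neg
  exact ⟨b * a⁻¹, P022.H916.mul_inv_mem j h.iq.two b1 a1, fun n ζ e => by
    rw [AlgEquiv.mul_apply, fx_inv (a2 n ζ e), b2 n ζ e]⟩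

theorem quo {g : GQ} {y : Qb} {n : ℕ} (y0 : y ≠ 0) (h : g (y ^ n) = y ^ n) :
    ∃ c : Qb, c ^ n = 1 ∧ c ≠ 0 ∧ g y = c * y :=
  ⟨g y / y, by rw [div_pow, ← map_pow, h, div_self (pow_ne_zero _ y0)],
    div_ne_zero ((map_ne_zero g).2 y0) y0, (div_mul_cancel₀ _ y0).symm⟩

end Kx

open Kx

/-- **KI0** -/
theorem ki0 : KI0 := fun K _ _ j h a y n hy hf => by
  obtain ⟨s, s1, s2⟩ := ex_neg h
  rcases eq_or_ne a 0 with rfl | a0
  · exact ⟨0, by simp⟩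
  have y0 : y ≠ 0 := fun e => a0 (j.injective (by rw [← hy, e]; simp))
  obtain ⟨k, hk⟩ := P022.H916.fixed j (x := y * s y) fun ⟨g, hg⟩ => by
    have e := hf ((s * g)⁻¹ * (g * s)) (mul_mem (inv_mem (mul_mem s1 hg)) (mul_mem hg s1))
      fun ζ z => (s * g).injective (by
        rw [← AlgEquiv.mul_apply, mul_inv_cancel_left, AlgEquiv.mul_apply, AlgEquiv.mul_apply,
          s2 n ζ z, s2 n _ (rt z), map_inv₀])
    apply_fun (s * g) at e
    rw [← AlgEquiv.mul_apply, mul_inv_cancel_left, AlgEquiv.mul_apply, AlgEquiv.mul_apply] at e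
    obtain ⟨c, c1, c0, c2⟩ := quo (g := g) (n := 3) y0 (by rw [hy, hg])
    show g _ = _
    rw [map_mul, e, c2, map_mul, s2 1 c (by simpa using c1)]
    field_simp
  have k3 : k ^ 3 = a ^ 2 := j.injective (by
    rw [map_pow, hk, mul_pow, ← map_pow, hy, s1, map_pow, pow_two])
  exact ⟨a / k, by rw [div_pow, k3]; field_simp⟩

/-- **KX** -/
theorem kx (r1 : RC1) : KX := fun K _ _ j h A n c c0 g hg => by
  obtain ⟨s, s1, s2⟩ := ex_neg h
  obtain ⟨γ, g1, g2⟩ := h.pos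
  have m := (r1 K j h.iq c c0).2.2.2.2.1 γ g1 g⁻¹ (inv_mem hg)
  obtain ⟨u, hu⟩ : ∃ u, u = γ * g⁻¹ * γ⁻¹ := ⟨_, rfl⟩
  rw [← hu] at m
  have u1 : u ∈ GK j := by simpa using mul_mem m.1 hg
  have v1 := mul_mem u1 hg
  have v2 : ∀ ζ : Qb, ζ ^ 3 ^ n = 1 → (u * g) ζ = ζ := fun ζ z => by
    rw [hu, AlgEquiv.mul_apply, AlgEquiv.mul_apply, fx_inv (g2 n _ (rt z)), AlgEquiv.mul_apply,
      ← AlgEquiv.mul_apply g⁻¹, inv_mul_cancel, AlgEquiv.one_apply, g2 n ζ z]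
  refine ⟨u * g * (s * (u * g) * s⁻¹), mul_mem v1 (mul_mem (mul_mem s1 v1) (inv_mem s1)),
    fun y hy => ?_, fun x hx => ?_⟩
  · rcases eq_or_ne y 0 with rfl | y0
    · exact map_zero _
    have f : ∀ t ∈ GK j, t (y ^ 3 ^ n) = y ^ 3 ^ n := fun t ht => by
      rcases hy with e | ⟨a, -, e⟩
      · rw [e, map_one]
      · rw [← e, ht]
    obtain ⟨b, b1, b0, b2⟩ := quo y0 (f _ v1)
    obtain ⟨d, d1, d0, d2⟩ := quo y0 (f _ (inv_mem s1))
    have e : (s * (u * g) * s⁻¹) y = b⁻¹ * y := by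
      rw [AlgEquiv.mul_apply, AlgEquiv.mul_apply, d2, map_mul, v2 d d1, b2, mul_left_comm, ← d2,
        map_mul, s2 n b b1, ← AlgEquiv.mul_apply, mul_inv_cancel, AlgEquiv.one_apply]
    rw [AlgEquiv.mul_apply, e, map_mul, map_inv₀, v2 b b1, b2, inv_mul_cancel_left₀ b0]
  have x1 : x 1 = 0 := hx.ker 1 (one_mem _)
  have xi : ∀ t ∈ GK j, x t + x t⁻¹ = 0 := fun t ht => by
    rw [← hx.add t ht _ (inv_mem ht), mul_inv_cancel, x1]
  have xu := hx.ker _ m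
  rw [hx.add _ u1 _ (inv_mem hg)] at xu
  rw [hx.add _ v1 _ (mul_mem (mul_mem s1 v1) (inv_mem s1)), hx.add _ (mul_mem s1 v1) _ (inv_mem s1),
    hx.add _ s1 _ v1, hx.add _ u1 _ hg]
  have t3 : (3 : ZMod 3) = 0 := rfl
  linear_combination 2 * xu - 2 * xi g hg + xi s s1 + x g * t3

end Vale.Agent.P014Y.Rd
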