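import Vale.Agent.P014Y.Rd.Low

/-!
# P014Y, route R: one level of the tower
-/

set_option autoImplicit false
set_option linter.all false

open NumberField
open scoped Pointwise PowerSeries

noncomputable section

namespace Vale.Agent.P014Y.Rd

open Vale.Agent.P022 P027H P027M.M P004K
open Vale.Agent.P022D.W (dec phi_mem)
open Vale.Agent.P022E.GW (Ov Fb)
open Vale.Agent.P022K.G2 (Tv oz)

namespace Le

theorem cs_eq {S : Finset ℕ} {L : List ℕ} (nd : L.Nodup) (h : L.toFinset = S.erase 3) :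
    cs L = (S.erase 3).card + (S.filter fun p => p % 3 = 1).card := by
  rw [cs, ← h, List.toFinset_card_of_nodup nd, ← List.toFinset_card_of_nodup (nd.filter _),
    List.toFinset_filter, h]
  congr 2
  ext p
  simp only [Finset.mem_filter, Finset.mem_erase, decide_eq_true_eq]
  exact ⟨fun k => ⟨k.1.2, k.2⟩, fun k => ⟨⟨by omega, k.1⟩, k.2⟩⟩

theorem arith {a b l s t : ℕ} (h1 : 3 ^ (l + 2 * s) ≤ b) (h2 : 3 ^ (2 * t) * b ≤ 3 ^ (2 * s) * a) :
    3 ^ (2 * (l + (s + t))) ≤ a * b := by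
  have h : 3 ^ (2 * s) * 3 ^ (l + 2 * t) ≤ 3 ^ (2 * s) * a :=
    le_trans (le_of_eq_of_le (by ring) (Nat.mul_le_mul_left _ h1)) h2
  exact le_of_eq_of_le (by ring)
    (Nat.mul_le_mul (Nat.le_of_mul_le_mul_left h (by positivity)) h1)

end Le

open Lw Le

/-- **one level**: the order of the analytic element against the size of the Selmer group -/
theorem lev (r1' : P004K.RC1) (alg : ALG) (low : LOW) (shf : SHF) (mul : MUL) (gdr : GDR) :
    LEV := by
  classical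
  intro K _ _ j S k
  obtain ⟨C, hC⟩ := alg K j S k
  refine ⟨2 * C + 2, fun c M e y hk P φ hP sl => ?_⟩
  have o3 := (hP 3 y.thr).1
  have d3 := ((y.spl 3 y.thr).2.2 _ o3).1
  have c0 : 0 < c := Nat.pos_of_ne_zero y.sq.ne_zero
  have hC' := hC c M e y hk _ o3 sl
  obtain ⟨q, hq, qc⟩ := Nat.exists_prime_and_dvd y.one.ne'
  obtain ⟨Q, oQ⟩ := P004R.Mu.ex_pl hq
  have mq := Finset.mem_union_right S (Nat.mem_primeFactors.2 ⟨hq, qc, c0.ne'⟩)
  have ml := fun (A : Type) [CommRing A] (ρ : (ZMod 3)⟦X⟧ →+* A) J (t : Tq ρ J) (J0 : 0 < J)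
      (JM : J ≤ 3 * M) b gb fv dt =>
    have g := gdr K j c M e S y A ρ J t JM
    mul A ρ J t J0 _ _ _ b _ g.1 gb fv dt o3 d3
      ⟨q, mq, (y.ram q Q oQ qc).1, Q, oQ, (g.2.2.1 q mq Q oQ).1, (g.2.2.1 q mq Q oQ).2.1⟩
  refine ⟨fun A _ ρ J t JM b gb fv dt => ?_, fun hM => ?_⟩
  · rcases J.eq_zero_or_pos with rfl | J0
    · have : Subsingleton A := subsingleton_of_zero_eq_one (by
        rw [← map_one ρ]; exact ((t.ker 1).2 (by simp)).symm)
      exact ⟨inferInstance, (Finite.card_le_one_iff_subsingleton.2 inferInstance).trans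
        (Nat.one_le_pow _ _ three_pos)⟩
    obtain ⟨a1, a2, -⟩ := ml A ρ J t J0 JM b gb fv dt
    exact ⟨a1, a2.trans ((hC' A ρ J t JM).2.2.1.trans (Nat.pow_le_pow_right three_pos (by omega)))⟩
  obtain ⟨f1, f2, le, rel, mono⟩ := hC' _ _ _ (tq (3 * M)) le_rfl
  have le' := (Nat.le_mul_of_pos_left _ Nat.card_pos).trans le
  obtain ⟨-, op, nm, cm, -⟩ := r1' K j y.iq c c0
  obtain ⟨R, tv⟩ := P022K.G2.ex_tv (Γ := GK j) (U := Hc j c) fun k => P022K.G2.Plc.idx op
    (Subgroup.index_eq_zero_of_relIndex_eq_zero k)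
  obtain ⟨j0, j1, lo⟩ := low K j S c M e y _ o3 R tv _ _ (tq (3 * M)) f2
    (le'.trans_lt (Nat.pow_lt_pow_right (by norm_num) (by omega)))
  refine ⟨j0, fun L nd hL => ?_⟩
  have bd : ∀ l, l + 1 ≤ 2 * M → Vn (P 3) R e (ij j c) l → 2 * (l + cs L) ≤ C := fun l hl v =>
    (Nat.pow_le_pow_iff_right (by norm_num)).1
      ((cs_eq nd hL ▸ arith (lo l hl v) (rel (by omega))).trans le)
  have nC : ¬ Vn (P 3) R e (ij j c) (C + 1) := fun v =>
    absurd (bd (C + 1) (by omega) v) (by omega)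
  have ex : ∃ l, ¬ Vn (P 3) R e (ij j c) (l + 1) := ⟨C, nC⟩
  have v : Vn (P 3) R e (ij j c) (Nat.find ex) := fun i hi =>
    not_not.1 (Nat.find_min ex hi) i (Nat.lt_succ_self i)
  have nv := Nat.find_spec ex
  have lC : Nat.find ex ≤ C := Nat.find_min' ex nC
  generalize Nat.find ex = l at v nv lC
  have l1 := bd l (by omega) v
  have iv : ∀ g, ∀ u ∈ Hc j c, ij j c (g * u) = ij j c g := fun g u hu => by
    rw [P004R.ij, P004R.ij, AlgEquiv.mul_apply, show u (jc j c) = jc j c from hu.2]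
  refine ⟨l + cs L, fun R' tv' h hh w => nv fun i hi => ?_, fun A _ ρ J t J2 JM b gb fv dt => ?_⟩
  · obtain ⟨m, rfl⟩ := y.pow
    rw [← tv.sum_of R' id tv'.mem tv'.ex tv'.un _ fun g hg u hu hu' => by
      rw [iv g u hu', y.add g hg u hu, y.ker u hu', add_zero]]
    refine shf _ _ R' _ e _ _ φ L _ tv' inf_le_left cm y.add y.ker o3
      (fun g hg => ⟨j1 g hg, iv g⟩) (fun p hp => ?_) (by omega)
      (by rw [Nat.add_right_comm]; exact vn_congr o3.2.1 hh w) i hi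
    obtain ⟨p3, ps⟩ := Finset.mem_erase.1 (hL ▸ List.mem_toFinset.2 hp)
    obtain ⟨o, f⟩ := hP p ps
    obtain ⟨d, u⟩ := (y.spl p ps).2.2 _ o
    exact ⟨fun z => p3 ((Nat.prime_dvd_prime_iff_eq Nat.prime_three o.1).1 z).symm,
      d (phi_mem o.1 o.2.1 f), u _ f⟩
  · obtain ⟨-, -, le2, rel2, -⟩ := hC' A ρ J t JM
    refine le_trans ?_ ((ml A ρ J t (by omega) JM b gb fv dt).2.2 C (by omega) le2)
    rw [cs_eq nd hL]
    exact arith ((lo l (by omega) v).trans (mono A ρ J t (by omega) JM)) (rel2 (by omega))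

end Vale.Agent.P014Y.Rd
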