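import Vale.Agent.P014Y.Rd.Ly
import Vale.Agent.P004R.Lfa

/-!
# P014Y, route R: the factorisation of the zeta functions
-/

set_option autoImplicit false
set_option linter.all false

open NumberField Module IsDedekindDomain Polynomial
open scoped Pointwise

noncomputable section

namespace Vale.Agent.P014Y.Rd

open Vale.Agent.P022 Vale.Agent.P022.H916 P004K P004R.Gl P027M.M
open Vale.Agent.P027M.S (Inert LI Pr)
open Vale.Agent.P027M.S.Eul (fv)
open Vale.Agent.P016Z.EP (Nv)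
open Vale.Agent.P004R (cop_top)
open Vale.Agent.P004R.La (Lo euler zeta lo_ram lo_unr om ze_om om_add om_pow norm_om cop_mul)

namespace La

theorem prod_three (h : ℕ → ℂ) (M : ℕ) : ∏ k ∈ Finset.range (3 * M), h k =
    (∏ k ∈ Finset.range M, h (3 * k)) * ∏ k ∈ Fa M, h k := by
  rw [Fa, Finset.prod_filter]
  induction M with
  | zero => simp
  | succ M ih =>
    simp only [Nat.mul_succ, Finset.prod_range_succ, ih]
    rw [if_neg (by omega), if_pos (by omega), if_pos (by omega)]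
    ring

variable {K : Type} [Field K] [NumberField K] {j : K →+* Qb}

variable {c M : ℕ} {e : GQ → ZMod (3 * M)}

theorem th_eq (h : Ly j c M e) (r : RC2) (k : ℕ) {I : Ideal (𝓞 K)} {g : GQ} (a : Cop c I)
    (b : Ar j c I g) : th j c M e k I = om (e g) ^ k := by
  have x : Cop c I ∧ ∃ g, Ar j c I g := ⟨a, g, b⟩
  have y := x.2.choose_spec
  have z := h.ker _ (((r K j h.iq c h.c0).2.2.2.1 I g _ b).1 y)
  rw [h.add _ (inv_mem b.1) _ y.1, h.inv b.1, neg_add_eq_zero] at z
  rw [th, dif_pos x, ze_om, z]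

theorem th_zero (k : ℕ) {I : Ideal (𝓞 K)} (a : ¬ Cop c I) : th j c M e k I = 0 :=
  dif_neg fun x => a x.1

/-- the character as a homomorphism -/
theorem ex_th (h : Ly j c M e) (r : RC2) (k : ℕ) : ∃ θ : Ideal (𝓞 K) →* ℂ,
    (θ : Ideal (𝓞 K) → ℂ) = th j c M e k ∧ ∀ I, ‖θ I‖ ≤ 1 := by
  obtain ⟨a, -, b, -, d, -⟩ := r K j h.iq c h.c0
  have N0 : 0 < 3 * M := by have := h.M0; omega
  refine ⟨⟨⟨th j c M e k, ?_⟩, fun I I' => ?_⟩, rfl, fun I => ?_⟩
  · obtain ⟨g, hg⟩ := a _ (cop_top c)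
    rw [Ideal.one_eq_top, th_eq h r k (cop_top c) hg,
      h.ker g ((d _ g (cop_top c) hg).2 ⟨1, 0, by simp⟩), om, ZMod.val_zero, pow_zero, one_pow]
  · show th j c M e k (I * I') = th j c M e k I * th j c M e k I'
    by_cases x : Cop c I
    · by_cases y : Cop c I'
      · obtain ⟨g, hg⟩ := a _ x
        obtain ⟨g', hg'⟩ := a _ y
        rw [th_eq h r k (cop_mul.2 ⟨x, y⟩) (b _ _ _ _ x y hg hg'), th_eq h r k x hg,
          th_eq h r k y hg', h.add _ hg.1 _ hg'.1, om_add N0, mul_pow]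
      · rw [th_zero k y, th_zero k fun z => y (cop_mul.1 z).2, mul_zero]
    · rw [th_zero k x, th_zero k fun z => x (cop_mul.1 z).1, zero_mul]
  · show ‖th j c M e k I‖ ≤ 1
    by_cases x : Cop c I
    · obtain ⟨g, hg⟩ := a _ x
      rw [th_eq h r k x hg, norm_pow, norm_om N0, one_pow]
    · rw [th_zero k x, norm_zero]
      exact zero_le_one

end La

open La in
/-- **LFA** -/
theorem lfa (r : RC2) : LFA := by
  intro K _ _ j c M e h F H _ _ _ _ _ jH φ σ hF s hs
  have N0 : 0 < 3 * M := by have := h.M0; omega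
  have gH : ∀ g, g ∈ GK jH ↔ g ∈ GK j ∧ 1 * e g = 0 := fun g => by rw [one_mul]; exact hF.gH g
  obtain ⟨_, _, ρH, DH, nH, cH⟩ := h.dict gH fun t m u i => by rw [one_mul]; exact (h.dvd m u i).1
  obtain ⟨_, _, ρF, DF, nF, cF⟩ := h.dict hF.gF fun t m u i => (h.dvd m u i).2
  choose θ t1 t2 using fun k => ex_th h r k
  have key : ∀ v : Pr K, ∃ b, Lo F s v b ∧
      Lo H s v (b * ∏ k ∈ Fa M, (1 - fv (θ k) s v)) := fun v => by
    obtain ⟨P, hP, hv⟩ := exists_above j v.asIdeal v.isPrime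
    have l0 := (P016Z.EP.rc_prime v).ne_zero
    have m := (mem_below (j := j) (P := P) _).1 (hv ▸ P016Z.EP.rc_mem v)
    by_cases x : (c : 𝓞 Qb) ∈ P
    · obtain ⟨t, a, b, d⟩ := h.tot hP x
      have u : IsUnit (e t) := d ▸ isUnit_one
      refine ⟨_, lo_ram DF hP hv s (t := ⟨t, a⟩) b (cF _ u), ?_⟩
      rw [Finset.prod_eq_one fun k _ => ?_, mul_one]
      · exact lo_ram DH hP hv s (t := ⟨t, a⟩) b (cH _ u)
      · rw [fv, t1, th_zero _ fun z => v.isPrime.ne_top ?_, zero_mul, sub_zero]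
        rw [← z.2, sup_eq_left.2]
        rw [Ideal.span_singleton_le_iff_mem, ← hv]
        exact (mem_below c).2 x
    · have P0 : P ≠ ⊥ := fun z => by
        rw [z, Ideal.mem_bot] at m
        exact l0 (by exact_mod_cast m)
      obtain ⟨ψ, hψ⟩ := exists_frob j hP (P016Z.EP.rc_prime v) m
      have ar := (r K j h.iq c h.c0).2.2.2.2.2.2 P hP P0 x ψ ψ.2 1 (by simpa using hψ)
      rw [pow_one, hv] at ar
      have cp : Cop c v.asIdeal := ⟨v.ne_bot, v.isMaximal.out.2 _ (lt_of_le_of_ne le_sup_left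
        fun z => x ((mem_below (j := j) c).1 (by
          rw [hv, z]; exact Ideal.mem_sup_right (Ideal.mem_span_singleton_self _))))⟩
      have a := lo_unr DF hP hv s l0 m (fun g k i => (hF.gF g).2 ⟨k, by
        rw [h.unr r hP P0 x k i, mul_zero]⟩) hψ (ω := om (e ψ) ^ 3) fun i => by
          rw [hF.gF, and_iff_right (pow_mem ψ.2 i), h.epow ψ.2, ← pow_mul, om_pow N0, Nat.cast_mul,
            mul_assoc, Nat.cast_ofNat]
      have b := lo_unr DH hP hv s l0 m (fun g k i => (hF.gH g).2 ⟨k, h.unr r hP P0 x k i⟩) hψ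
        (ω := om (e ψ)) fun i => by rw [hF.gH, and_iff_right (pow_mem ψ.2 i), h.epow ψ.2, om_pow N0]
      rw [nH, prod_three] at b
      rw [nF] at a
      refine ⟨_, a, ?_⟩
      simp only [← pow_mul, fv, t1, th_eq h r _ cp ar]
      exact b
  choose b b1 b2 using key
  have z := (zeta hs b2).unique ((zeta hs b1).mul
    (hasProd_prod fun k (_ : k ∈ Fa M) => euler (t2 k) hs))
  rw [Finset.prod_inv_distrib, ← mul_inv, inv_inj] at z
  simpa only [t1] using z

end Vale.Agent.P014Y.Rd
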