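import Vale.Agent.P014Y.Rd.St
import Vale.Agent.P004R.Lfb

/-!
# P014Y, route R, row LFB: the series of a primitive ring class character
-/

set_option autoImplicit false
set_option linter.all false

open UpperHalfPlane NumberField Set

noncomputable section

namespace Vale.Agent.P014Y.Rd

open Vale.Agent.P022 (Qb GQ GK below)
open P027H P027M.M P004K P004K.Rc P004K.Gm
open Vale.Agent.P027M.S (Inert LI)
open Vale.Agent.P022K.G2 (Tv)
open Vale.Agent.P004R.Lb (TT hs_TT disc Sg Sg_mul ze_sum)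

namespace Lb

section gal

variable {K : Type} [Field K] [NumberField K] {j : K →+* Qb} {c M : ℕ} {e : GQ → ZMod (3 * M)}
  {s : ℝ} {g : GQ} {k : ℕ}

/-- the character -/
def ch (e : GQ → ZMod (3 * M)) (k : ℕ) (g : GQ) : ℂ := ze (3 * M) (k * (e g).val)

variable (L : Ly j c M e)
include L

theorem N_pos : 0 < 3 * M := by obtain ⟨m, h⟩ := L.pow; rw [h]; positivity

theorem c_pos : 0 < c := Nat.pos_of_ne_zero L.sq.ne_zero

theorem ch_mul (hg : g ∈ GK j) {u : GQ} (hu : u ∈ GK j) : ch e k (g * u) = ch e k g * ch e k u := by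
  have : NeZero (3 * M) := ⟨(N_pos L).ne'⟩
  rw [ch, ch, ch, L.add g hg u hu, (ze_eq (k' := k * (e g).val + k * (e u).val) (N_pos L)).2 (by
    rw [← ZMod.intCast_zmod_eq_zero_iff_dvd]; simp [mul_add]), ze, ze, ze, ← Complex.exp_add]
  congr 1
  push_cast
  ring

theorem ch_ker (hg : g ∈ GK j) {u : GQ} (hu : u ∈ Hc j c) : ch e k (g * u) = ch e k g := by
  rw [ch, L.add g hg u hu.1, L.ker u hu, add_zero, ch]

theorem th_eq (r2 : RC2) {I : Ideal (𝓞 K)} (h : I ∈ Sg j c g) : th j c M e k I = ch e k g := by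
  have a : Cop c I ∧ ∃ g, Ar j c I g := ⟨h.1, g, h.2⟩
  rw [th, dif_pos a, ← mul_inv_cancel_left a.2.choose g, ch_ker L a.2.choose_spec.1
    (((r2 K j L.iq c (c_pos L)).2.2.2.1 I _ _ a.2.choose_spec).1 h.2)]
  rfl

theorem li_eq (r2 : RC2) {R : Finset GQ} (t : Tv (GK j) (Hc j c) R) (hs : 1 < s) :
    LI (th j c M e k) s = ∑ g ∈ R, ch e k g * TT (Sg j c g) s := by
  obtain ⟨h1, -, -, h4, -⟩ := r2 K j L.iq c (c_pos L)
  have z {I : Ideal (𝓞 K)} (h : ¬Cop c I) : th j c M e k I = 0 := dif_neg fun a => h a.1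
  have a (g : GQ) : HasSum ((Sg j c g).indicator fun I => (Ideal.absNorm I : ℝ) ^ (-s))
      (TT (Sg j c g) s) := hasSum_subtype_iff_indicator.1 (hs_TT hs (Sg j c g))
  have := hasSum_sum (s := R) fun g _ => (Complex.hasSum_ofReal.2 (a g)).mul_left (ch e k g)
  rw [LI, (Subtype.val_injective (p := fun I : Ideal (𝓞 K) => I ≠ ⊥)).tsum_eq
    (f := fun I => th j c M e k I * (Ideal.absNorm I : ℂ) ^ (-(s : ℂ))) fun I hI =>
      ⟨⟨I, (not_not.1 fun a : ¬Cop c I => hI (by simp only [z a, zero_mul])).1⟩, rfl⟩, ← this.tsum_eq]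
  refine tsum_congr fun I => ?_
  by_cases h : Cop c I
  · obtain ⟨g, a⟩ := h1 I h
    obtain ⟨r, hr, b⟩ := t.ex g a.1
    have m : I ∈ Sg j c r := ⟨h, (h4 I g r a).2 (by simpa using inv_mem b)⟩
    rw [Finset.sum_eq_single_of_mem r hr fun r' hr' ne => by
      rw [indicator_of_notMem fun m' => ne (t.un _ hr' _ hr ((h4 I _ _ m'.2).1 m.2))]
      simp, indicator_of_mem m, th_eq L r2 m, Complex.ofReal_cpow (Nat.cast_nonneg _)]
    simp
  · rw [z h, zero_mul]
    refine (Finset.sum_eq_zero fun g _ => ?_).symm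
    rw [indicator_of_notMem fun m => h m.1]
    simp

theorem vanish (r1 : P004K.RC1) (r2 : RC2) {R : Finset GQ} (t : Tv (GK j) (Hc j c) R) (hk : ¬ 3 ∣ k)
    {c' m : ℕ} (h : c' * m = c) (m1 : m ≠ 1) : ∑ g ∈ R, ch e k g * TT (Sg j c' g) s = 0 := by
  obtain ⟨l, hl, d⟩ := Nat.exists_prime_and_dvd m1
  have c0 := c_pos L
  have p1 := Nat.pos_of_mul_pos_right (h ▸ c0 : 0 < c' * m)
  have p2 := Nat.pos_of_mul_pos_left (h ▸ c0 : 0 < c' * m)
  have hp : (Ideal.span {(l : ℤ)}).IsPrime :=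
    (Ideal.span_singleton_prime (by exact_mod_cast hl.ne_zero)).2 (Nat.prime_iff_prime_int.1 hl)
  obtain ⟨P, h1, h2⟩ := Ideal.exists_ideal_over_prime_of_isIntegral_of_isDomain (S := 𝓞 Qb)
    (Ideal.span {(l : ℤ)}) (by
      rw [(RingHom.injective_iff_ker_eq_bot _).1 (algebraMap ℤ (𝓞 Qb)).injective_int]
      exact bot_le)
  have h3 : (l : 𝓞 Qb) ∈ P := by
    have : (l : ℤ) ∈ P.comap (algebraMap ℤ (𝓞 Qb)) := h2 ▸ Ideal.mem_span_singleton_self _
    rwa [Ideal.mem_comap, map_natCast] at this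
  obtain ⟨-, le, u, hu, e1⟩ := L.ram l P ⟨hl, h1, h3⟩ (h ▸ d.mul_left _)
  have ug : u ∈ GK j := le fun x => ⟨fun a => by simpa using P.sub_mem a (hu x),
    fun a => by simpa using P.add_mem (hu x) a⟩
  have co : c'.Coprime l := (Nat.coprime_of_squarefree_mul (h ▸ L.sq)).coprime_dvd_right d
  have a := (r2 K j L.iq c' p1).2.2.2.2.2.2 P h1 (fun z => by
    rw [z, Ideal.mem_bot] at h3
    exact hl.ne_zero (Nat.cast_eq_zero.1 h3)) (fun z => h1.ne_top (by
      obtain ⟨x, y, w⟩ := (Nat.isCoprime_iff_coprime.2 co).map (Int.castRingHom (𝓞 Qb))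
      rw [Ideal.eq_top_iff_one, ← w]
      exact P.add_mem (P.mul_mem_left _ (by simpa using z)) (P.mul_mem_left _ (by simpa using h3))))
    u ug 0 fun x => by simpa using hu x
  have uc : u ∈ Hc j c' := ((r2 K j L.iq c' p1).2.2.2.2.1 _ u (by simpa using cop_top) a).2
    ⟨1, 0, by simp⟩
  have nm := (r1 K j L.iq c c0).2.2.1
  have w := t.sum_mul' (fun g _ v hv => nm.conj_mem v hv g) ug
    (fun g => ch e k g * TT (Sg j c' g) s) fun y hy v _ hv => by
      rw [ch_ker L hy hv, Sg_mul r2 L.iq p1 ((r1 K j L.iq c' p1).2.2.2.2.2 m p2 (h ▸ hv))]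
  rw [Finset.sum_congr rfl (g := fun g => ch e k u * (ch e k g * TT (Sg j c' g) s)) fun g hg => by
    rw [ch_mul L (t.mem g hg) ug, Sg_mul r2 L.iq p1 uc]; ring, ← Finset.mul_sum] at w
  refine eq_zero_of_mul_eq_self_left (fun z => ?_) w
  have : Fact (1 < 3 * M) := ⟨by have := N_pos L; omega⟩
  rw [ch, e1, ZMod.val_one, show (1 : ℂ) = ze (3 * M) 0 by simp [ze], ze_eq (N_pos L)] at z
  exact hk (Int.natCast_dvd_natCast.1 ((Int.natCast_dvd_natCast.2 (dvd_mul_right 3 M)).trans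
    (by simpa using z)))

end gal

end Lb

open Lb in
/-- row LFB -/
theorem lfb (r1 : P004K.RC1) (r2 : RC2) (iq : IQ) : LFB := fun K _ _ j c M e L R t τ hτ k hk s hs => by
  obtain ⟨ω, w1, w2⟩ := iq K j L.iq
  obtain ⟨σ, q⟩ := ex_qd (J := JJ j) ((io_inj.comp j.injective).comp
    (RingOfIntegers.coe_injective (K := K))) w1 w2
  have c0 := c_pos L
  have A := mul_pos (Nat.cast_pos.2 c0) q.im
  rw [li_eq L r2 t hs, disc q, mul_div_assoc, mul_div_cancel_left₀ _ two_ne_zero]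
  have e1 : ∑ g ∈ R, ze (3 * M) (k * (e g).val) * (Ze (τ g) s : ℂ) =
      ∑ p ∈ c.divisorsAntidiagonal, (((c * (JJ j ω).im) ^ s * ((p.2 : ℝ) ^ 2) ^ (-s) * 2 : ℝ) : ℂ) *
        ∑ g ∈ R, ch e k g * TT (Sg j p.1 g) s := by
    simp only [Finset.mul_sum]
    rw [Finset.sum_comm]
    refine Finset.sum_congr rfl fun g hg => ?_
    rw [ze_sum r2 L.iq L.upm q c0 hs (t.mem g hg) (hτ g hg)]
    simp only [Finset.mul_sum, Complex.ofReal_sum, Complex.ofReal_mul, ch]
    exact Finset.sum_congr rfl fun p _ => by ring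
  rw [e1, Finset.sum_eq_single_of_mem (c, 1) (by simp [c0.ne']) fun p hp ne => by
    have h := (Nat.mem_divisorsAntidiagonal.1 hp).1
    rw [vanish L r1 r2 t hk h fun z => ne (Prod.ext (by rw [← h, z, mul_one]) z), mul_zero],
    ← mul_assoc, mul_assoc (1 / 2 : ℂ), ← Complex.ofReal_mul, ← mul_assoc, ← mul_assoc,
    ← Real.rpow_add A]
  simp

end Vale.Agent.P014Y.Rd
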