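import Vale.Agent.P014Y.Rd.St0
import Vale.Agent.P004R.Loc

/-!
# P014Y, route R: the local indices at three
-/

set_option autoImplicit false
set_option linter.all false

open NumberField Module Ideal Function

namespace Vale.Agent.P014Y.Rd

namespace Lo

open P004R.Lo (idx_dvd pow_dvd_of tot_pow ip_mem ip_ne ip_ne' Fr st_pow dl dl_mul cop_up)
open P004R.Rg (ua_mul coe_ua)

theorem rel3 {G : Type*} [CommGroup G] [Finite G] {N A : Subgroup G} {o : ℕ} (ho : ¬ 3 ∣ o)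
    (h : ∀ x ∈ A, x ^ o ∈ N) : ¬ 3 ∣ N.relIndex A := fun e => by
  have : Fact (Nat.Prime 3) := ⟨Nat.prime_three⟩
  obtain ⟨y, hy⟩ := exists_prime_orderOf_dvd_card' (G := A ⧸ N.subgroupOf A) 3 e
  obtain ⟨g, rfl⟩ := QuotientGroup.mk_surjective y
  refine ho (hy ▸ orderOf_dvd_of_pow_eq_one ?_)
  rw [← QuotientGroup.mk_pow]
  exact (QuotientGroup.eq_one_iff _).2 (h g g.2)

section ring

variable {R : Type} [CommRing R] [IsDedekindDomain R] {V V' : Ideal R}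

theorem thr (e : V * V' = span {3}) : (3 : R) ∈ V :=
  (mul_le_left (I := V) (J := V')) (by rw [e]; exact mem_span_singleton_self 3)

/-- cube roots of one modulo `V ^ 3` -/
theorem cb_one [hV : V.IsPrime] (h0 : V ≠ ⊥) (e : V * V' = span {3})
    (c : V ⊔ V' = ⊤) {x : R} (h : x ^ 3 - 1 ∈ V ^ 3) : ∃ a : R, x - 1 - 9 * a ∈ V ^ 3 := by
  have hp := prime_of_isPrime h0 hV
  have k : ∀ y ∈ V ^ 2, ∃ a, y - 9 * a ∈ V ^ 3 := fun y hy => by
    have : V ^ 2 = span {9} ⊔ V ^ 3 := by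
      rw [show (9 : R) = 3 ^ 2 by norm_num, ← span_singleton_pow, ← e, mul_pow, pow_succ V 2,
        ← Ideal.mul_sup, (isCoprime_iff_sup_eq.2 c).symm.pow_left.sup_eq, mul_top]
    obtain ⟨_, ha, z, hz, rfl⟩ := Submodule.mem_sup.1 (this ▸ hy)
    obtain ⟨a, rfl⟩ := mem_span_singleton'.1 ha
    exact ⟨a, by rwa [mul_comm 9, add_sub_cancel_left]⟩
  have t : (3 : R) ∉ V ^ 2 := fun m => by
    rw [← dvd_span_singleton, ← e, sq, mul_dvd_mul_iff_left h0, dvd_iff_le] at m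
    exact hV.ne_top ((sup_eq_left.2 m).symm.trans c)
  have y : x - 1 ∈ V := hV.mem_of_pow_mem 3 (by
    convert sub_mem (pow_le_self three_ne_zero h) (V.mul_mem_right (x * (x - 1)) (thr e)) using 1
    ring)
  have m' : ¬V ^ (1 + 1) ∣ span {x ^ 2 + x + 1} := fun m' => t (by
    have y2 : (3 + (x - 1)) * (x - 1) ∈ V ^ (1 + 1) := by
      rw [pow_succ, pow_one]
      exact mul_mem_mul (add_mem (thr e) y) y
    convert sub_mem (dvd_span_singleton.1 m') y2 using 1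
    ring)
  rw [show x ^ 3 - 1 = (x ^ 2 + x + 1) * (x - 1) by ring, ← dvd_span_singleton,
    ← span_singleton_mul_span_singleton] at h
  exact k _ (dvd_span_singleton.1 (pow_dvd_of hp m' h))

theorem cb_idx [Module.Free ℤ R] [Module.Finite ℤ R] [hV : V.IsPrime] (h0 : V ≠ ⊥)
    (e : V * V' = span {3}) (c : V ⊔ V' = ⊤) [Finite (R ⧸ V ^ 3)] :
    (cb (R ⧸ V ^ 3)ˣ).index ≤ absNorm V := by
  have : Finite (R ⧸ V) := (absNorm_ne_zero_iff _).1 (absNorm_eq_zero_iff.not.2 h0)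
  have k : ∀ g : (powMonoidHom 3 : (R ⧸ V ^ 3)ˣ →* _).ker, ∃ x a : R,
      Ideal.Quotient.mk (V ^ 3) x = g.1.1 ∧ x - 1 - 9 * a ∈ V ^ 3 := fun g => by
    obtain ⟨x, hx⟩ := Ideal.Quotient.mk_surjective g.1.1
    obtain ⟨a, ha⟩ := cb_one h0 e c (x := x) (Ideal.Quotient.eq.1 (by
      rw [map_pow, hx, map_one, ← Units.val_pow_eq_pow_val]; exact congrArg Units.val g.2))
    exact ⟨x, a, hx, ha⟩
  choose x a h1 h2 using k
  have inj : Injective fun g => Ideal.Quotient.mk V (a g) := fun g g' q => by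
    refine Subtype.ext (Units.ext ?_)
    rw [← h1, ← h1]
    have u : 3 ^ 2 * (a g - a g') ∈ V ^ 3 := by
      rw [pow_succ V 2]
      exact mul_mem_mul (pow_mem_pow (thr e) 2) (Ideal.Quotient.eq.1 q)
    refine Ideal.Quotient.eq.2 ?_
    convert add_mem (sub_mem (h2 g) (h2 g')) u using 1
    ring
  rw [Subgroup.index_range]
  exact (Nat.card_le_card_of_injective _ inj).trans_eq rfl

end ring

variable {F H : Type} [Field F] [NumberField F] [Field H] [NumberField H] [Algebra F H]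
  {σ : H ≃ₐ[ℚ] H} {M l : ℕ} {w w' I J : Ideal (𝓞 F)} {x : 𝓞 H}

theorem dp_step {V : Ideal (𝓞 H)} (h2 : 3 ∈ V) (hV : ∀ x ∈ V, σ • x ∈ V) {u : (𝓞 H)ˣ} {z : 𝓞 H}
    (h : (u : 𝓞 H) - 1 - 9 * z ∈ V ^ 3) : (dl σ u : 𝓞 H) - 1 - 9 * (σ • z - z) ∈ V ^ 3 := by
  have a := st_pow hV 3 _ h
  rw [smul_sub, smul_sub, smul_one, smul_mul', ← dl_mul,
    show σ • (9 : 𝓞 H) = 9 from map_ofNat (MulSemiringAction.toRingHom _ (𝓞 H) σ) 9] at a
  rw [← unit_mul_mem_iff_mem _ u.isUnit]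
  convert sub_mem (sub_mem a (mul_mem_left _ (1 + 9 * (σ • z - z)) h))
    (mul_mem_left _ (3 * z * (σ • z - z)) (pow_mem_pow h2 3)) using 1
  ring

variable (c : Cp F σ M)
include c

theorem M_pos : 0 < M := by obtain ⟨m, h⟩ := c.pow; rw [h]; positivity

theorem fix_int {x : 𝓞 H} (h : (σ ^ M) x = x) : ∃ a : 𝓞 F, algebraMap (𝓞 F) (𝓞 H) a = x := by
  obtain ⟨y, hy⟩ := (c.fix _).1 h
  exact ⟨⟨y, (isIntegral_algebraMap_iff (algebraMap F H).injective).1 (hy ▸ x.isIntegral_coe)⟩,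
    RingOfIntegers.ext hy⟩

theorem fix_unit {v : (𝓞 H)ˣ} (h : ua (σ ^ M) v = v) :
    v ∈ (Units.map (algebraMap (𝓞 F) (𝓞 H) : 𝓞 F →* 𝓞 H)).range := by
  obtain ⟨a, ha⟩ := fix_int c (x := v) (by rw [← coe_ua, h])
  obtain ⟨b, hb⟩ := fix_int c (x := (v⁻¹ : (𝓞 H)ˣ)) (by rw [← coe_ua, map_inv, h])
  exact ⟨Units.mkOfMulEqOne a b (FaithfulSMul.algebraMap_injective (𝓞 F) (𝓞 H)
    (by rw [map_mul, ha, hb, map_one, v.mul_inv])), Units.ext ha⟩

theorem rk : finrank (𝓞 F) (𝓞 H) = 3 := by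
  have a := finrank_mul_finrank ℚ F H
  rw [c.deg, c.deg', IsFractionRing.finrank_eq (𝓞 F) F (𝓞 H) H] at a
  exact Nat.eq_of_mul_eq_mul_left (show 0 < 2 * M by linarith [M_pos c]) (a.trans (by ring))

theorem up_inj (h : up H I = up H J) : I = J := by
  have := congrArg (relNorm (𝓞 F)) h
  rwa [relNorm_algebraMap, relNorm_algebraMap, rk c, pow_left_inj three_ne_zero] at this

theorem cm : (up H I).comap (algebraMap (𝓞 F) (𝓞 H)) = I := up_inj c (map_comap_map _ _)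

theorem nm_up : absNorm (up H I) = absNorm I ^ 3 := by rw [absNorm_algebraMap, rk c]

theorem ip_max (h : Ip σ M l w w') : w.IsMaximal :=
  have := h.pw
  IsPrime.isMaximal (cm c (I := w) ▸ comap_isPrime _ _) (ip_ne h)

theorem fr_smul {A : Ideal (𝓞 H)} (hA : ∀ x ∈ A, σ • x ∈ A) (h : Fr F A x) : Fr F A (σ • x) := by
  obtain ⟨a, ha⟩ := h
  obtain ⟨b, hb⟩ := fix_int c (x := σ • algebraMap (𝓞 F) (𝓞 H) a) (by
    change (σ ^ M) (σ (algebraMap F H a)) = σ (algebraMap F H a)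
    rw [← AlgEquiv.mul_apply, ← pow_succ, pow_succ', AlgEquiv.mul_apply, (c.fix _).2 ⟨_, rfl⟩])
  exact ⟨b, by rw [hb, ← smul_sub]; exact hA _ ha⟩

theorem cu_dl (u : (𝓞 H)ˣ) :
    u ^ 3 ∈ CU F σ (dl σ u) ∧ CU F σ u ≤ CU F σ (dl σ u) ⊔ Subgroup.zpowers u := by
  have k : ∀ i : ℕ, ua (σ ^ i) u / u ∈ CU F σ (dl σ u) := fun i => by
    induction i with
    | zero => exact (show ua (σ ^ 0) u / u = 1 from div_self' u) ▸ one_mem _
    | succ i ih =>
      have := mul_mem (Subgroup.mem_sup_right (Subgroup.subset_closure ⟨i, rfl⟩) :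
        ua (σ ^ i) (dl σ u) ∈ CU F σ (dl σ u)) ih
      rwa [dl, MonoidHom.div_apply, map_div, ← ua_mul, ← pow_succ, MonoidHom.id_apply,
        div_mul_div_cancel] at this
  refine ⟨?_, sup_le (le_sup_left.trans le_sup_left)
    ((Subgroup.closure_le _).2 (Set.range_subset_iff.2 fun i => ?_))⟩
  · have := div_mem (div_mem (Subgroup.mem_sup_left (fix_unit c
      (v := ua (σ ^ (M + M)) u * ua (σ ^ M) u * u) (by
      rw [map_mul, map_mul, ← ua_mul, ← ua_mul, ← pow_add, ← pow_add,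
        show M + (M + M) = 3 * M by ring, c.ord, mul_rotate]; rfl)) :
        _ ∈ CU F σ (dl σ u)) (k (M + M))) (k M)
    have e : ∀ a b : (𝓞 H)ˣ, a * b * u / (a / u) / (b / u) = u ^ 3 := fun a b => by
      rw [div_div, div_eq_iff_eq_mul, div_mul_div_comm, ← mul_div_assoc, eq_div_iff_mul_eq',
        pow_three']
      ac_rfl
    rwa [e] at this
  · exact div_mul_cancel (ua (σ ^ i) u) u ▸ Subgroup.mul_mem_sup (k i) (Subgroup.mem_zpowers u)

theorem gp_dvd : Nat.card (Gp F (up H I)) ∣ Nat.card (𝓞 F ⧸ I)ˣ := by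
  refine (Subgroup.card_dvd_of_le (?_ : _ ≤ (Units.map (quotientMap (up H I)
    (algebraMap (𝓞 F) (𝓞 H)) le_comap_map : 𝓞 F ⧸ I →* 𝓞 H ⧸ up H I)).range)).trans
      (Subgroup.card_range_dvd _)
  refine (Subgroup.closure_le _).2 fun g ⟨a, ha⟩ => ?_
  obtain ⟨b, hb⟩ := Ideal.Quotient.mk_surjective (g⁻¹ : (𝓞 H ⧸ up H I)ˣ).1
  have e : span {a} ⊔ I = ⊤ := up_inj c (by
    rw [up, up, Ideal.map_top, Ideal.map_sup, eq_top_iff_one]
    have : 1 - b * algebraMap _ _ a ∈ up H I :=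
      Ideal.Quotient.eq.1 (by rw [map_mul, hb, ← ha, g.inv_mul, map_one])
    simpa using Submodule.add_mem_sup (mul_mem_left _ b
      (mem_map_of_mem (algebraMap (𝓞 F) (𝓞 H)) (mem_span_singleton_self a))) this)
  obtain ⟨_, hx, y, hy, e⟩ := Submodule.mem_sup.1 ((eq_top_iff_one _).1 e)
  obtain ⟨x, rfl⟩ := mem_span_singleton'.1 hx
  exact ⟨Units.mkOfMulEqOne (Ideal.Quotient.mk I a) (Ideal.Quotient.mk I x) (Ideal.Quotient.eq.2
    (by rw [← e]; simpa [mul_comm] using hy)), Units.ext ha.symm⟩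

theorem idx_it {G : Type} [CommGroup G] (N : Subgroup G) (π : (𝓞 H)ˣ →* G)
    (u : (𝓞 H)ˣ) (k : ℕ) : (N ⊔ (CU F σ ((dl σ)^[k] u)).map π).index ∣
      3 ^ k * (N ⊔ (CU F σ u).map π).index := by
  induction k with
  | zero => simp
  | succ k ih =>
    rw [iterate_succ_apply', pow_succ', mul_assoc]
    generalize (dl σ)^[k] u = t at ih
    refine (idx_dvd (x := π t) (Subgroup.mem_sup_right
      (Subgroup.mem_map.2 ⟨_, (cu_dl c t).1, map_pow π t 3⟩))).trans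
        (mul_dvd_mul_left _ ((Subgroup.index_dvd_of_le ?_).trans ih))
    rw [sup_assoc, ← MonoidHom.map_zpowers, ← Subgroup.map_sup]
    exact sup_le_sup_left (Subgroup.map_mono (cu_dl c t).2) _

variable {v v' : Ideal (𝓞 F)} (P : Ip σ M 3 v v')
include P

theorem gp_idx : 3 ^ (4 * M) ∣ (Gp F (up H v ^ 3)).index := by
  have := ip_max c P
  have := P.pw.isMaximal (ip_ne' P)
  have tH := tot_pow (ip_ne' P) 2
  have tF := tot_pow (ip_ne P) 2
  have a := gp_dvd c (I := v ^ 3)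
  rw [up, Ideal.map_pow] at a
  replace a := mul_dvd_mul_right a (Gp F (up H v ^ 3)).index
  have n : 1 < 3 ^ M := Nat.one_lt_pow (M_pos c).ne' (by norm_num)
  rw [Subgroup.card_mul_index, tH, tF, nm_up c, P.nm] at a
  rw [mul_comm 4, pow_mul]
  generalize 3 ^ M = q at a n
  obtain ⟨q, rfl⟩ := Nat.exists_eq_add_of_lt n
  have s : (1 + q + 1) ^ 3 - 1 = (q + 1) * ((1 + q + 1) ^ 2 + (1 + q + 1) + 1) :=
    Nat.sub_eq_of_eq_add (by ring)
  rw [s, show 1 + q + 1 - 1 = q + 1 by omega] at a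
  exact (dvd_mul_left _ ((1 + q + 1) ^ 2 + (1 + q + 1) + 1)).trans (Nat.dvd_of_mul_dvd_mul_left
    (show 0 < (q + 1) * (1 + q + 1) ^ 2 by positivity) (Dvd.dvd.trans (dvd_of_eq (by ring)) a))

theorem fr_md {u : (𝓞 H)ˣ} {r : ℕ} (h : Dp σ v u r) :
    ∃ O, ¬ 3 ∣ O ∧ ∀ i : ℕ, Fr F (up H v ^ 3) ((ua (σ ^ i) ((dl σ)^[r] u) : 𝓞 H) ^ O) := by
  obtain ⟨o, x, y, ho, hx, hy⟩ := h
  have t : (3 : 𝓞 H) ∈ up H v := by
    simpa [map_ofNat] using mem_map_of_mem (algebraMap _ (𝓞 H)) (ip_mem P)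
  have dp : ∀ k, ((dl σ)^[k] (u ^ o) : (𝓞 H)ˣ) - 1 - 9 * (fun z : 𝓞 H => σ • z - z)^[k] x ∈
      up H v ^ 3 := fun k => by
    induction k with
    | zero => exact hx
    | succ k ih =>
      rw [iterate_succ_apply', iterate_succ_apply']
      exact dp_step t P.st ih
  refine ⟨o, ho, fun i => ?_⟩
  induction i with
  | zero =>
    refine (⟨1 + 9 * y, ?_⟩ : Fr F _ ((((dl σ)^[r] u : (𝓞 H)ˣ) : 𝓞 H) ^ o))
    have a := dp r
    rw [iterate_map_pow] at a
    have b := mul_mem_mul (pow_mem_pow t 2) hy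
    rw [← pow_succ] at b
    convert add_mem a b using 1
    simp only [map_add, map_mul, map_one, map_ofNat, Units.val_pow_eq_pow_val]
    ring
  | succ i ih =>
    have := fr_smul c (st_pow P.st 3) ih
    rw [smul_pow'] at this
    rw [pow_succ' σ]
    exact this

end Lo

open Lo P004R.Lo in
/-- **row LOC** -/
theorem loc : LOC := by
  intro F H _ _ _ _ _ σ M v v' c P
  have : Finite (𝓞 H ⧸ up H v ^ 3) := (absNorm_ne_zero_iff _).1 (absNorm_eq_zero_iff.not.2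
    (pow_ne_zero _ (ip_ne' P)))
  have := P.pw
  have e2 : up H v * up H v' = span {3} := by
    rw [← Ideal.map_mul, P.mul, map_span, Set.image_singleton, map_natCast]; rfl
  refine ⟨(cb_idx (ip_ne' P) e2 (cop_up (isCoprime_iff_sup_eq.2 P.cop)).sup_eq).trans_eq
    (by rw [Lo.nm_up c, P.nm]; ring), fun u r h => ?_⟩
  obtain ⟨O, ho, g⟩ := Lo.fr_md c P h
  have gp := Lo.gp_idx c P
  refine Dvd.dvd.trans ?_ (Lo.idx_it c _ _ u r)
  generalize (dl σ)^[r] u = t at g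
  rw [← Subgroup.relIndex_mul_index le_sup_left] at gp
  refine (Nat.Coprime.pow_left _ ((Nat.Prime.coprime_iff_not_dvd Nat.prime_three).2
    (rel3 ho ?_))).dvd_of_dvd_mul_left gp
  change _ ≤ (Gp F (up H v ^ 3)).comap (powMonoidHom O)
  refine sup_le (fun z hz => pow_mem hz O) (Subgroup.map_le_iff_le_comap.2 (sup_le ?_
    ((Subgroup.closure_le _).2 (Set.range_subset_iff.2 fun i => ?_))))
  · rintro _ ⟨a, rfl⟩
    refine pow_mem (Subgroup.subset_closure ?_) O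
    exact ⟨a, rfl⟩
  · obtain ⟨a, ha⟩ := g i
    exact Subgroup.subset_closure ⟨a, Ideal.Quotient.eq.2 ha⟩

end Vale.Agent.P014Y.Rd
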