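import Vale.Agent.P014Y.Rd.St3
import Vale.Agent.P004R.Lev
import Vale.Agent.P004F.Ra.Lv

/-!
# P014Y, route R: the lower bound for the rank one group
-/

set_option autoImplicit false
set_option linter.all false

open NumberField
open scoped Pointwise PowerSeries

noncomputable section

namespace Vale.Agent.P014Y.Rd

open Vale.Agent.P022 P027H P027M.M P004K
open Vale.Agent.P022D.W (dec)
open Vale.Agent.P022E.GW (Ov Fb)
open Vale.Agent.P022K.G2 (Tv)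

namespace Lw

export Vale.Agent.P004R.Lv (zp_add zp_int zp_zero vn_congr)

/-- the model ring -/
theorem tq (J : ℕ) : Tq (Ideal.Quotient.mk (Ideal.span {(PowerSeries.X : (ZMod 3)⟦X⟧) ^ J})) J :=
  ⟨Ideal.Quotient.mk_surjective, fun x => by
    rw [Ideal.Quotient.eq_zero_iff_mem, Ideal.mem_span_singleton]⟩

theorem ex_out {K : Type} [Field K] [NumberField K] (j : K →+* Qb) (h : Iq K) : ∃ γ, γ ∉ GK j :=
  let ⟨γ, hγ⟩ := P004R.Mu.ex_k
  ⟨γ, P004F.Ra.conj_out h hγ⟩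

/-- places and Frobenius elements above the primes of `S` -/
theorem ex_fb {S : Finset ℕ} (h : ∀ p ∈ S, p.Prime) {P : Ideal (𝓞 Qb)} (o : Ov 3 P) :
    ∃ (Q : ℕ → Ideal (𝓞 Qb)) (φ : ℕ → GQ), Q 3 = P ∧
      ∀ p ∈ S, Ov p (Q p) ∧ Fb p (Q p) (φ p) ∧ φ p ∈ dec (Q p) := by
  have : ∀ p : ℕ, ∃ (Q : Ideal (𝓞 Qb)) (φ : GQ), (p = 3 → Q = P) ∧
      (p ∈ S → Ov p Q ∧ Fb p Q φ ∧ φ ∈ dec Q) := fun p => by
    by_cases h3 : p = 3
    · subst h3
      obtain ⟨-, φ, -, f, m⟩ := P004R.Mu.ex_st o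
      exact ⟨P, φ, fun _ => rfl, fun _ => ⟨o, f, m⟩⟩
    by_cases hp : p ∈ S
    · obtain ⟨Q, oQ⟩ := P004R.Mu.ex_pl (h p hp)
      obtain ⟨-, φ, -, f, m⟩ := P004R.Mu.ex_st oQ
      exact ⟨Q, φ, fun k => absurd k h3, fun _ => ⟨oQ, f, m⟩⟩
    · exact ⟨P, 1, fun _ => rfl, fun k => absurd k hp⟩
  choose Q φ a b using this
  exact ⟨Q, φ, a 3 rfl, b⟩

end Lw

open Lw

/-- **the lower bound for the rank one group** -/
theorem low (fld : FLD) (uni : UNI) (cnf : CNF) (bt : BT) (dpt : DPT) (shp : SHP) : LOW := by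
  intro K _ _ j S c M e y P o R tv A _ ρ t _ sm
  classical
  obtain ⟨Q, φ, rfl, hP⟩ := ex_fb (fun p hp => (y.spl p hp).1) o
  have d := fun p hp => ((y.spl p hp).2.2 _ (hP p hp).1).1
  have u := fun p hp => ((y.spl p hp).2.2 _ (hP p hp).1).2 _ (hP p hp).2.1
  obtain ⟨o2, f2, m2⟩ := hP 3 y.thr
  have d2 := d 3 y.thr
  obtain ⟨F, H, _, _, _, _, _, jH, σ, fl, cp, pl⟩ := fld K j c M e y.toLy (φ 3) (d2 m2) (u 3 y.thr)
  obtain ⟨γ, hγ⟩ := ex_out j y.iq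
  have q := fun p hp => pl p (Q p) (φ p) (hP p hp).1 (y.spl p hp).2.1 (d p hp) (hP p hp).2.1
    (u p hp) γ hγ
  obtain ⟨i2, b2, -, n1, n2, n3⟩ := q 3 y.thr
  obtain ⟨s0, us⟩ := uni K j c y.iq (y.spl 3 y.thr).2.1 _ _ o2 d2 f2
  obtain ⟨j0, j1, w, hw, dp⟩ := dpt K j c M e y.toLy F H jH _ σ fl cp _ o2 f2 _ i2 b2 s0 us R tv
  obtain ⟨x0, x1⟩ := cnf K j c M e y.toLy F H jH _ σ fl cp n1 n2 n3 _ s0 us R tv w hw
  refine ⟨j0, j1, fun l hl v => ?_⟩
  have me : ∀ i : S.erase 3, i.1 ∈ S := fun i => Finset.mem_of_mem_erase i.2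
  have pd : Pd σ M (fun i : S.erase 3 => i.1) _ _
      (fun i => below (jH.comp (algebraMap F H)) (Q i))
      (fun i => below (jH.comp (algebraMap F H)) (γ • Q i)) :=
    ⟨cp, i2, fun i => ⟨Finset.ne_of_mem_erase i.2, (q i (me i)).1⟩, Subtype.val_injective⟩
  obtain ⟨κ, hκ⟩ := shp K j c M e y.toLy F H jH _ σ fl cp _ o2 f2 d2 _ _ i2 b2 (S ∪ c.primeFactors)
    (Finset.mem_union_left _ y.thr)
    (fun q h1 h2 => Finset.mem_union_right _ (Nat.mem_primeFactors.2 ⟨h1, h2, y.sq.ne_zero⟩))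
    (md H (below (jH.comp (algebraMap F H)) (γ • Q 3))
      (fun i : S.erase 3 => below (jH.comp (algebraMap F H)) (Q i))
      (fun i : S.erase 3 => below (jH.comp (algebraMap F H)) (γ • Q i))) (fun Q' hQ le => by
      rcases hQ.mul_le.1 le with k | k
      · exact ⟨3, Finset.mem_union_left _ y.thr, Nat.prime_three, k (P004R.In.ip_mem i2).2⟩
      · obtain ⟨i, -, k⟩ := hQ.prod_le.1 k
        refine ⟨i, Finset.mem_union_left _ (me i), (y.spl _ (me i)).1, ?_⟩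
        rcases hQ.mul_le.1 k with k | k
        · exact k (P004R.In.ip_mem (q i (me i)).1).1
        · exact k (P004R.In.ip_mem (q i (me i)).1).2)
    A ρ t
  obtain ⟨b, b1, b3⟩ := bt F H σ M _ _ _ _ _ _ pd w _ (dp l hl v) x0 _ κ hκ sm
  rw [Fintype.card_coe] at b1
  exact (Nat.pow_le_pow_right three_pos (by omega)).trans b1

end Vale.Agent.P014Y.Rd
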