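import Vale.Agent.P014Y.Rd.St2
import Vale.Agent.P004R.Ly
import Vale.Agent.P014T.Dr.Cy
import Vale.Agent.P004S.Lt
import Vale.Agent.P004S.Bas3
import Vale.Agent.P022K.G2.Tam

/-!
# P014Y, route R, row MU: no free part (helper29)
-/

set_option autoImplicit false
set_option linter.all false

open NumberField PowerSeries

noncomputable section

namespace Vale.Agent.P014Y.Rd

open Vale.Agent.P022 P004K
open Vale.Agent.P027M.S (Inert)
open Vale.Agent.P022D.W (dec exists_phi conj_inP)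
open Vale.Agent.P022E.GW (Ov Fb)
open Vale.Agent.P022K.G2

namespace Mu

variable {p : ℕ} [Fact p.Prime] {l : ℕ} {Q : Ideal (𝓞 Qb)}

/-- the roots of unity are local -/
theorem dgz (o : Ov l Q) (e : l % p = 1) : l ≠ p ∧ dec Q ≤ Gz p :=
  have n : l ≠ p := fun k => by simp [k] at e
  let ⟨φ, f⟩ := exists_phi o.1 o.2.1 o.2.2
  ⟨n, P004S.lt.dec_le o f Gz_open (mem_Gz'.2 (by
    rw [P014T.Dr.root_cong o (fun d => n ((Nat.prime_dvd_prime_iff_eq o.1 Fact.out).1 d)) f zt_pow,
      pow_eq_pow_mod l zt_pow, e, pow_one])) fun i => inert_gz o n⟩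

/-- an additive function on inertia is invariant under conjugation -/
theorem inv_cj (o : Ov l Q) (e : l % p = 1) {f : GQ → ZMod p}
    (ad : ∀ g h, Inert Q g → Inert Q h → f (g * h) = f g + f h) {W : Subgroup GQ}
    (hW : IsOpen (W : Set GQ)) (w0 : ∀ w ∈ W, Inert Q w → f w = 0) :
    ∃ n, (∀ g, Inert Q g → f g = ka p l g * n) ∧
      ∀ g ∈ dec Q, ∀ t, Inert Q t → f (g * t * g⁻¹) = f t := by
  obtain ⟨n, z⟩ := dgz o e
  obtain ⟨V, hV, le⟩ := ex_lv' hW
  obtain ⟨a, ha⟩ := (tam p l Q o n).2.2 (ZMod p) (ZMod p) f ad ⟨V, hV, fun w m => w0 w (le m)⟩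
  have k : ∀ g, Inert Q g → f g = ka p l g * a := fun g i => by simpa using ha g i
  refine ⟨a, k, fun g m t i => ?_⟩
  have c := ka_conj (p := p) (b := (l : Qb)) (by exact_mod_cast o.1.ne_zero) g (inert_gz o n i)
    (map_natCast t l)
  rw [map_natCast, mem_Gz.1 (z m), one_mul] at c
  have i' : Inert Q (g * t * g⁻¹) := conj_inP m i
  rw [k _ i', k _ i, c]

/-- **a Heisenberg triple on a tame decomposition group is abelian** -/
theorem trv (h2 : (2 : ZMod p) ≠ 0) (o : Ov l Q) (e : l % p = 1) {x z z' : GQ → ZMod p}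
    (ax : ∀ g ∈ dec Q, ∀ h ∈ dec Q, x (g * h) = x g + x h)
    (az : ∀ g ∈ dec Q, ∀ h ∈ dec Q, z (g * h) = z g + z h)
    (az' : ∀ g ∈ dec Q, ∀ h ∈ dec Q, z' (g * h) = z' g + z' h + x g * z h) {W : Subgroup GQ}
    (hW : IsOpen (W : Set GQ)) (w0 : ∀ w ∈ W, w ∈ dec Q → x w = 0 ∧ z w = 0 ∧ z' w = 0) {t : GQ}
    (i : Inert Q t) (x1 : x t = 1) {g : GQ} (m : g ∈ dec Q) : z g = x g * z t := by
  have d : ∀ {g}, Inert Q g → g ∈ dec Q := P004R.inert_dec o.2.1
  obtain ⟨a, ha, ca⟩ := inv_cj o e (fun g h u v => ax g (d u) h (d v)) hW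
    fun w u v => (w0 w u (d v)).1
  obtain ⟨b, hb, -⟩ := inv_cj o e (fun g h u v => az g (d u) h (d v)) hW
    fun w u v => (w0 w u (d v)).2.1
  have k : ∀ g, Inert Q g → z g = x g * z t := fun g u => by
    rw [ha t i] at x1
    rw [hb g u, ha g u, hb t i]
    linear_combination -(ka p l g * b) * x1
  obtain ⟨-, -, cc⟩ := inv_cj o e (f := fun g => 2 * z' g - z t * x g ^ 2) (fun g h u v => by
      rw [az' g (d u) h (d v), ax g (d u) h (d v), k h v]; ring) hW
    fun w u v => by rw [(w0 w u (d v)).1, (w0 w u (d v)).2.2]; ring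
  have c1 := cc g m t i
  have c2 := ca g m t i
  have i' : g * t * g⁻¹ ∈ dec Q := mul_mem (mul_mem m (d i)) (inv_mem m)
  have c3 := az' _ i' g m
  rw [inv_mul_cancel_right, az' g m t (d i), c2, x1] at c3
  simp only [c2] at c1
  refine mul_left_cancel₀ h2 ?_
  linear_combination -2 * c3 - c1

/-- the first two coefficients -/
theorem co2 {k : Type} [CommRing k] (n : ℕ) (w : k⟦X⟧) :
    coeff 0 ((1 + X) ^ n * w) = coeff 0 w ∧
      coeff 1 ((1 + X) ^ n * w) = coeff 1 w + n * coeff 0 w := by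
  induction n with
  | zero => simp
  | succ n ih =>
    rw [pow_succ', mul_assoc, add_mul, one_mul, map_add, map_add, ih.2, coeff_succ_X_mul, ih.1,
      coeff_zero_X_mul]
    exact ⟨add_zero _, by push_cast; ring⟩

end Mu

open Mu

/-- **no free part** -/
theorem mu (r1 : RC1) (r2 : RC2) (kuk : KUK) (val : VAL) : MU := by
  intro K _ _ j c M e S h P o sl R _ ρ J tq _ z
  obtain ⟨z1, z2, ⟨W, hW, z3⟩, z4, z5⟩ := z.2
  have c0 : 0 < c := zero_lt_one.trans h.one
  haveI : NeZero (3 * M) := ⟨by obtain ⟨m, rfl⟩ := h.pow; positivity⟩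
  have eb' : ∀ g, eb e g = ZMod.castHom (dvd_mul_right 3 M) (ZMod 3) (e g) := fun g => by
    rw [eb, ZMod.natCast_val, ZMod.castHom_apply]
  have ax : ∀ g ∈ GK j, ∀ h ∈ GK j, eb e (g * h) = eb e g + eb e h := fun g a g' b => by
    rw [eb', eb', eb', h.add g a g' b, map_add]
  have x0 : ∀ g ∈ Hc j c, eb e g = 0 := fun g a => by rw [eb', h.ker g a, map_zero]
  have oH := (r1 K j h.iq c c0).2.1
  choose Z hZ using fun g => tq.sur (z.1.1 g 0)
  have co : ∀ g ∈ GK j, ∀ g' ∈ GK j, X ^ J ∣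
      Z (g * g') - Z g - C (oz 3 g) * ((1 + X) ^ (e g).val * Z g') := fun g a g' b => by
    rw [← tq.ker, map_sub, map_sub, map_mul, map_mul, map_pow, map_add, map_one, hZ, hZ, hZ,
      z1 g a g' b]
    simp [P004F.Pr.ac, P004R.r1, tw, ch, mul_assoc]
  have st : ∀ i, i + 2 ≤ J → (∀ g, X ^ i ∣ Z g) → ∀ g, X ^ (i + 1) ∣ Z g := fun i hi d => by
    choose V hV using d
    have dv : ∀ w : (ZMod 3)⟦X⟧, X ^ J ∣ X ^ i * w → coeff 0 w = 0 ∧ coeff 1 w = 0 := fun w k => by
      have := (pow_dvd_pow X hi).trans k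
      rw [pow_add, mul_dvd_mul_iff_left (pow_ne_zero i X_ne_zero), X_pow_dvd_iff] at this
      exact ⟨this 0 (by norm_num), this 1 (by norm_num)⟩
    have v0 : ∀ g, z.1.1 g = 0 → coeff 0 (V g) = 0 ∧ coeff 1 (V g) = 0 := fun g k =>
      dv _ (by rw [← hV, ← tq.ker, hZ, k]; rfl)
    have v1 : ∀ g ∈ GK j, ∀ g' ∈ GK j,
        coeff 0 (V (g * g')) = coeff 0 (V g) + oz 3 g * coeff 0 (V g') ∧
        coeff 1 (V (g * g')) = coeff 1 (V g) + oz 3 g * coeff 1 (V g') +
          eb e g * oz 3 g * coeff 0 (V g') := fun g a g' b => by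
      have := dv (V (g * g') - V g - C (oz 3 g) * ((1 + X) ^ (e g).val * V g')) (by
        have k := co g a g' b
        rw [hV, hV g, hV g'] at k
        exact k.trans (dvd_of_eq (by ring)))
      simp only [map_sub, coeff_C_mul, co2] at this
      exact ⟨by linear_combination this.1, by rw [eb]; linear_combination this.2⟩
    obtain ⟨a, y, a0, hy, ky⟩ := kuk K j (fun g => coeff 0 (V g)) (fun g a g' b => (v1 g a g' b).1)
      ⟨W, hW, fun w _ m => (v0 w (z3 w m)).1⟩
    have y1 : ∀ g ∈ GK j, coeff 0 (V g) = 0 → g y = y := fun g m k => by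
      rw [ky g m, k, ZMod.val_zero, pow_zero, one_mul]
    have I := val K j h.iq c a y (eb e) _ (fun g => coeff 1 (V g)) c0 a0 hy ky ax
      (fun g a g' b => (v1 g a g' b).2)
      ⟨W ⊓ Hc j c, hW.inter oH, fun w _ m => ⟨x0 w m.2, (v0 w (z3 w m.1)).2⟩⟩ fun l Q q n => by
        by_cases s : l ∈ S
        · obtain ⟨le, u⟩ := (h.spl l s).2.2 Q q
          obtain ⟨φ, f⟩ := exists_phi q.1 q.2.1 q.2.2
          refine .inr ⟨le, fun g i => x0 g ?_, φ, f, ?_⟩
          · obtain ⟨-, -, -, -, a, -, b⟩ := r2 K j h.iq c c0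
            have l0 : (l : 𝓞 Qb) ≠ 0 := by exact_mod_cast q.1.ne_zero
            have d := b Q q.2.1 (fun k => l0 (by simpa [k] using q.2.2))
              (fun k => n (by exact_mod_cast P004S.ov_dvd q (a := c) (by exact_mod_cast k))) g
              (le (P004R.inert_dec q.2.1 i)) 0 fun x => by rw [pow_zero, pow_one]; exact i x
            rw [pow_zero, Ideal.one_eq_top] at d
            exact (a _ g (P004R.cop_top c) d).2 ⟨1, 0, by simp⟩
          · rw [eb']
            exact ((u φ f).map _).ne_zero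
        · exact .inl ⟨fun k => s (k ▸ h.thr), fun g _ i => (v0 g (z4 g ⟨l, fun k => by
            rcases Finset.mem_union.1 (Finset.mem_coe.1 k) with k | k
            exacts [s k, n (Nat.dvd_of_mem_primeFactors k)], Q, q, i⟩)).1⟩
    have le := ((h.spl 3 h.thr).2.2 P o).1
    have fin := sl a y a0 hy I (fun g m => y1 g (le m) (v0 g (by
        rw [z5 () g ⟨le m, m⟩]; funext i; simp [P004F.Pr.ac])).1) fun q Q u n g m k => by
      obtain ⟨q1, lq, t, i, t1⟩ := h.ram q Q u n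
      have oz1 : ∀ g ∈ dec Q, oz 3 g = 1 := fun g m => mem_Gz.1 ((dgz u q1).2 m)
      refine y1 g (lq m) ?_
      rw [trv (x := eb e) (z := fun g => coeff 0 (V g)) (z' := fun g => coeff 1 (V g)) (by decide)
        u q1 (fun g a g' b => ax g (lq a) g' (lq b))
        (fun g a g' b => by rw [(v1 g (lq a) g' (lq b)).1, oz1 g a, one_mul])
        (fun g a g' b => by rw [(v1 g (lq a) g' (lq b)).2, oz1 g a, one_mul, mul_one])
        (W := W ⊓ Hc j c) (hW.inter oH)
        (fun w a _ => ⟨x0 w a.2, v0 w (z3 w a.1)⟩) i (by rw [eb', t1, map_one]) m, k, zero_mul]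
    intro g
    rw [hV, pow_succ]
    refine mul_dvd_mul_left _ (X_dvd_iff.2 ?_)
    rw [← coeff_zero_eq_constantCoeff_apply]
    by_cases m : g ∈ GK j
    · have y0 : y ≠ 0 := fun k => a0 (by
        rw [k, zero_pow three_ne_zero, eq_comm, _root_.map_eq_zero] at hy
        exact RingOfIntegers.ext hy)
      have := ky g m
      rw [fin g m, eq_comm, mul_eq_right₀ y0] at this
      exact pw_inj (by rw [this, ZMod.val_zero, pow_zero])
    · exact (v0 g (z2 g m)).1
  have al : ∀ i, i + 1 ≤ J → ∀ g, X ^ i ∣ Z g := fun i => by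
    induction i with
    | zero => exact fun _ g => by rw [pow_zero]; exact one_dvd _
    | succ i ih => exact fun hi => st i hi (ih (by omega))
  intro g
  rw [← hZ, pow_one, ← map_mul, tq.ker]
  rcases J with _ | J
  · rw [pow_zero]; exact one_dvd _
  · rw [pow_succ']; exact mul_dvd_mul_left _ (al J le_rfl g)

end Vale.Agent.P014Y.Rd
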