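import Vale.Agent.P014Y.Rd.St
import Vale.Agent.P022K.G2.Kum

/-! # P014Y, route R: the classes of the first primes -/

set_option autoImplicit false
set_option linter.all false

noncomputable section

namespace Vale.Agent.P014Y.Rd

open NumberField Module
open Vale.Agent.P022 (Qb GQ GK)
open Vale.Agent.P022K.G2

namespace Ph

/-- products of congruent families are congruent -/
theorem prod_cg {G : Type} [Group G] {H N : Subgroup G} (cj : ∀ k ∈ H, ∀ g ∈ N, k⁻¹ * g * k ∈ N) :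
    ∀ {d : ℕ} (h φ : Fin d → G), (∀ i, h i ∈ H ∧ (h i)⁻¹ * φ i ∈ N) →
      (List.ofFn h).prod ∈ H ∧ (List.ofFn h).prod⁻¹ * (List.ofFn φ).prod ∈ N
  | 0, _, _, _ => by simp [H.one_mem, N.one_mem]
  | d + 1, h, φ, a => by
    obtain ⟨b, c⟩ := prod_cg cj (fun i => h i.succ) (fun i => φ i.succ) fun i => a i.succ
    rw [List.ofFn_succ, List.ofFn_succ, List.prod_cons, List.prod_cons]
    refine ⟨mul_mem (a 0).1 b, ?_⟩
    have := mul_mem (cj _ b _ (a 0).2) c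
    rwa [mul_assoc, mul_inv_cancel_left, mul_assoc, mul_assoc, ← mul_assoc _ (h 0)⁻¹,
      ← mul_inv_rev] at this

variable {K : Type} [Field K] (j : K →+* Qb)

/-- the elements which fix the field and the roots -/
def Ng (B : Set Qb) (N : ℕ) : Subgroup GQ where
  carrier := {g | g ∈ GK j ∧ Fx B N g}
  mul_mem' {g h} a b := ⟨mul_mem a.1 b.1, fun y k => by
    rw [AlgEquiv.mul_apply, b.2 y k, a.2 y k]⟩
  one_mem' := ⟨one_mem _, fun _ _ => rfl⟩
  inv_mem' {g} a := ⟨inv_mem a.1, fun y k => g.injective (by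
    rw [← AlgEquiv.mul_apply, mul_inv_cancel, a.2 y k]; rfl)⟩

theorem cj (A : Set K) (N : ℕ) (k : GQ) (hk : k ∈ GK j) (g : GQ)
    (h : g ∈ Ng j (insert 1 (j '' A)) N) : k⁻¹ * g * k ∈ Ng j (insert 1 (j '' A)) N := by
  refine ⟨mul_mem (mul_mem (inv_mem hk) h.1) hk, fun y e => ?_⟩
  have : k (y ^ N) = y ^ N := by
    rcases e with e | ⟨a, -, e⟩
    · rw [e, map_one]
    · rw [← e, hk a]
  rw [AlgEquiv.mul_apply, AlgEquiv.mul_apply, h.2 _ (by rwa [← map_pow, this]),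
    ← AlgEquiv.mul_apply, inv_mul_cancel]
  rfl

theorem down {B : Set Qb} {n : ℕ} {g : GQ} (hn : 0 < n) (h : Fx B (3 ^ n) g) : Fx B 3 g := by
  obtain ⟨n, rfl⟩ := Nat.exists_eq_add_of_le' hn
  intro y e
  obtain ⟨z, rfl⟩ := IsAlgClosed.exists_pow_nat_eq y (pow_pos three_pos n)
  rw [map_pow, h z (by rwa [pow_succ, pow_mul])]

/-- at most `d` members span -/
theorem ex_gen {G F : Type} [Group G] [Field F] (Γ : Subgroup G) {d : ℕ} (κ : G → Fin d → F) :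
    ∃ h : Fin d → G, (∀ i, h i ∈ Γ) ∧ ∀ l : (Fin d → F) →ₗ[F] F, (∀ i, l (κ (h i)) = 0) →
      ∀ g ∈ Γ, l (κ g) = 0 := by
  obtain ⟨f, f1, f2, -⟩ := Submodule.exists_fun_fin_finrank_span_eq F (κ '' Γ)
  choose h h1 h2 using f1
  have le : finrank F (Submodule.span F (κ '' Γ)) ≤ d :=
    (Submodule.finrank_le _).trans_eq (Module.finrank_fin_fun F)
  refine ⟨fun i => if k : i.1 < _ then h ⟨i, k⟩ else 1, fun i => ?_, fun l a g m => ?_⟩
  · dsimp only
    split_ifs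
    exacts [h1 _, one_mem _]
  · have : Submodule.span F (κ '' Γ) ≤ LinearMap.ker l := by
      rw [← f2, Submodule.span_le]
      rintro _ ⟨i, rfl⟩
      have := a ⟨i, i.2.trans_le le⟩
      dsimp only at this
      rwa [dif_pos i.2, h2] at this
    exact this (Submodule.subset_span ⟨g, m, rfl⟩)

end Ph

open Ph

/-- **the classes of the first primes** -/
theorem ph1 (ki0 : KI0) (kx : KX) : PH1 := by
  intro K _ _ j kd d x a A xc sur a0 _ fa n hn g₀ m₀ f₀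
  have : Fact (Nat.Prime 3) := ⟨Nat.prime_three⟩
  obtain ⟨h', h1, h2⟩ := ex_gen (Ng j {1} (3 ^ n)) fun g i => ka 3 (j (a i)) g
  let h : Fin (d + 1) → GQ := Fin.cons (g₀ * (List.ofFn h').prod⁻¹) h'
  have hm : ∀ i, h i ∈ Ng j {1} (3 ^ n) := Fin.cases (mul_mem ⟨m₀, f₀⟩ (inv_mem
    (list_prod_mem fun g m => by obtain ⟨i, rfl⟩ := List.mem_ofFn.1 m; exact h1 i))) h1
  have ex : ∀ i, ∃ k ∈ Ng j (insert 1 (j '' A)) (3 ^ n),
      ∀ i', x i' k = (if i' = i then 1 else 0) - x i' (h i) := fun i => by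
    obtain ⟨u, u1, u2⟩ := sur fun i' => (if i' = i then 1 else 0) - x i' (h i)
    obtain ⟨k, k1, k2, k3⟩ := kx K j kd A n 9 (by norm_num) u u1
    exact ⟨k, ⟨k1, k2⟩, fun i' => (k3 _ (xc i')).trans (u2 i')⟩
  choose k k1 k2 using ex
  refine ⟨fun i => h i * k i, fun i => ⟨mul_mem (hm i).1 (k1 i).1, fun y e => ?_, fun i' => ?_⟩,
    fun φ hφ => ?_⟩
  · rw [AlgEquiv.mul_apply, (k1 i).2 y (.inl e), (hm i).2 y e]
  · rw [(xc i').add _ (hm i).1 _ (k1 i).1, k2, add_sub_cancel]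
  have w : ∀ i, (h i)⁻¹ * φ i ∈ Ng j (insert 1 (j '' A)) (3 ^ n) := fun i => by
    have := mul_mem (k1 i) (show (h i * k i)⁻¹ * φ i ∈ Ng j _ _ from
      ⟨mul_mem (inv_mem (mul_mem (hm i).1 (k1 i).1)) (hφ i).1, (hφ i).2⟩)
    rwa [mul_inv_rev, mul_assoc, mul_inv_cancel_left] at this
  refine ⟨?_, fun m y e fy => ki0 K j kd _ y n e fun g g1 g2 => ?_⟩
  · have := (prod_cg (cj j A (3 ^ n)) h φ fun i => ⟨(hm i).1, w i⟩).2.2
    rwa [List.ofFn_succ (f := h), List.prod_cons, show h 0 = g₀ * (List.ofFn h').prod⁻¹ from rfl,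
      show (fun i => h (Fin.succ i)) = h' from rfl, inv_mul_cancel_right] at this
  have j0 : ∀ i, j (a i) ≠ 0 := fun i => (map_ne_zero j).2 (RingOfIntegers.coe_ne_zero_iff.2 (a0 i))
  let l : (Fin d → ZMod 3) →ₗ[ZMod 3] ZMod 3 := ∑ i, (m i : ZMod 3) • LinearMap.proj i
  simp only [map_prod, map_pow] at e
  have key : ∀ g ∈ GK j, Fx {1} 3 g → (l (fun i => ka 3 (j (a i)) g) = 0 ↔ g y = y) :=
      fun g g1 g2 => by
    have z : g ∈ Gz 3 := mem_Gz'.2 (g2 _ zt_pow)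
    rw [← ka_eq_zero (Finset.prod_ne_zero_iff.2 fun i _ => pow_ne_zero _ (j0 i)) e z
      (by simp only [map_prod, map_pow, g1 _]), ka_prod _ z fun i _ =>
        ⟨pow_ne_zero _ (j0 i), by rw [map_pow, g1]⟩]
    simp only [l, LinearMap.sum_apply, LinearMap.smul_apply, LinearMap.proj_apply, smul_eq_mul,
      ka_pow (j0 _) z (g1 _)]
  refine (key g g1 (down hn g2)).1 (h2 l (fun i => ?_) g ⟨g1, g2⟩)
  obtain ⟨w1, w2⟩ := w i.succ
  replace w2 := down hn w2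
  have w3 : Fx {1} 3 ((h i.succ)⁻¹ * φ i.succ) := fun y e => w2 y (.inl e)
  have z : (fun i' => ka 3 (j (a i')) ((h i.succ)⁻¹ * φ i.succ)) = 0 := funext fun i' =>
    (ka_eq_zero (j0 i') (rt_pow 3 _) (mem_Gz'.2 (w3 _ zt_pow)) (w1 _)).2
      (fa i' _ _ w1 (rt_pow 3 _) w2)
  have t := (key _ w1 w3).1 (by rw [z, map_zero])
  refine (key _ (h1 i).1 (down hn (h1 i).2)).2 ?_
  rw [← t, ← AlgEquiv.mul_apply, show h' i = h i.succ from rfl, mul_inv_cancel_left, t, fy]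

end Vale.Agent.P014Y.Rd
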