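import Vale.Agent.P014Y.Rd.Qf0

/-! # P014Y, route R, row QF: the depleted form is a sum of values of `1 / j` modulo three -/

set_option autoImplicit false
set_option linter.all false

open UpperHalfPlane NumberField CongruenceSubgroup PowerSeries
open scoped MatrixGroups Classical

noncomputable section

namespace Vale.Agent.P014Y.Rd

open Vale.Agent.P022 Vale.Agent.P022.H218.L3 Vale.Agent.P022.H231.L3 Vale.Agent.P022.H236.L3
  Vale.Agent.P022.H542.L3 P027H Vale.Agent.P027M.M P004K P004F.Qx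
open P004R.Qf (v_int Ae Ae.all ls_zero_eq val_add val_mul val_const val_uniq val_inv val_jN jN_ne iN
  iN_mem sp_list sp_sq sp_one sp_mem cop_mul cop_mem cn_nm not_mem ex_mul j_cj)
open P004Z.EF (Val jN)
open ArithmeticFunction (sigma)

namespace Qf

section absval

variable {V : AbsoluteValue ℂ ℝ} {P : Ideal (𝓞 Qb)}

theorem v_thr (hV : Vp V P) (hP : P.IsPrime) (h3 : (3 : 𝓞 Qb) ∈ P) : V 3 < 1 := by
  have := (hV.2 3).2.1 ⟨1, 3, fun h => hP.ne_top ((Ideal.eq_top_iff_one _).2 h), h3, by simp; rfl⟩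
  rwa [map_ofNat] at this

theorem v_one (hV : IsNonarchimedean V) (h3 : V 3 < 1) {d : ℕ} (hd : ¬ 3 ∣ d) : V d = 1 := by
  have d1 : V d ≤ 1 := by simpa using v_int hV d
  refine le_antisymm d1 ?_
  by_contra h
  obtain ⟨a, b, e⟩ : IsCoprime (3 : ℤ) d := (Nat.prime_three.coprime_iff_not_dvd.2 hd).cast
  have e' : (a : ℂ) * 3 + b * d = 1 := by exact_mod_cast e
  have h4 := hV (a * 3) (b * d)
  rw [e', V.map_one, V.map_mul, V.map_mul] at h4
  refine absurd h4 (not_le.2 (max_lt ?_ ?_))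
  · nlinarith [v_int hV a, V.nonneg 3, V.nonneg a]
  · nlinarith [v_int hV b, V.nonneg d, V.nonneg b, not_le.1 h]

end absval

/-- the coefficients of the two series agree modulo three -/
theorem coef {V : AbsoluteValue ℂ ℝ} (hV : IsNonarchimedean V) (h3 : V 3 < 1) {R : ℕ} {a : ℕ → ℤ}
    (hR : 3 ∣ R) (ha : ∀ n : ℕ, n.Coprime R → (3 : ℤ) ∣ a n - sigma 1 n) {s : LS}
    (hz : Zq 3 s) (hc : Cq 3 (dp R a) s) {W : PowerSeries ℤ}
    (hW : ∀ n, ((coeff n W : ℤ) : ZMod 3) = if n.Coprime R then (sigma 1 n : ZMod 3) else 0)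
    (n : ℤ) :
    V ((HahnSeries.C (3⁻¹ : ℂ) * (s + HahnSeries.C (-1 : ℂ) * ls 0 (toCi W))).coeff n) ≤ 1 := by
  rw [HahnSeries.C_mul_eq_smul, HahnSeries.C_mul_eq_smul, HahnSeries.coeff_smul,
    HahnSeries.coeff_add, HahnSeries.coeff_smul, smul_eq_mul, smul_eq_mul]
  rcases lt_or_ge n 0 with h | h
  · rw [hz.1 n h, coeff_ls_of_lt _ _ h]
    simp
  obtain ⟨n, rfl⟩ := Int.eq_ofNat_of_zero_le h
  have e := coeff_ls 0 (toCi W) n
  rw [zero_add, coeff_map, eq_intCast] at e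
  rw [e]
  obtain ⟨k, d, hd, e1⟩ := hc n
  have vd := v_one hV h3 hd
  have d0 : (d : ℂ) ≠ 0 := fun h => by simp [h] at vd
  have vk : V (k / d) ≤ 1 := by rw [map_div₀, vd, div_one]; exact v_int hV k
  by_cases hn : n.Coprime R
  · have on : ¬ 3 ∣ n := Nat.prime_three.coprime_iff_not_dvd.1 (hn.coprime_dvd_right hR).symm
    have vn := v_one hV h3 on
    have n0 : (n : ℂ) ≠ 0 := fun h => by simp [h] at vn
    obtain ⟨l, hl⟩ : ((3 : ℕ) : ℤ) ∣ a n - n * coeff n W := by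
      have := (ZMod.intCast_zmod_eq_zero_iff_dvd _ 3).2 (ha n hn)
      rw [← ZMod.intCast_zmod_eq_zero_iff_dvd]
      push_cast at this ⊢
      rw [hW, if_pos hn, sig_two on]
      exact this
    have hl' : (a n : ℂ) - n * (coeff n W : ℤ) = 3 * l := by exact_mod_cast hl
    rw [dp, if_pos hn] at e1
    have e3 : 3⁻¹ * (s.coeff n + -1 * ((coeff n W : ℤ) : ℂ)) = k / d + l / n := by
      push_cast at e1
      field_simp at e1 ⊢
      linear_combination e1 + d * hl'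
    rw [e3]
    exact (hV _ _).trans (max_le vk (by rw [map_div₀, vn, div_one]; exact v_int hV l))
  · obtain ⟨l, hl⟩ : ((3 : ℕ) : ℤ) ∣ coeff n W := by
      rw [← ZMod.intCast_zmod_eq_zero_iff_dvd, hW, if_neg hn]
    have hl' : ((coeff n W : ℤ) : ℂ) = 3 * l := by exact_mod_cast hl
    rw [dp, if_neg hn] at e1
    have e3 : 3⁻¹ * (s.coeff n + -1 * ((coeff n W : ℤ) : ℂ)) = k / d + (-l : ℤ) := by
      push_cast at e1 ⊢
      field_simp
      linear_combination e1 - d * hl'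
    rw [e3]
    exact (hV _ _).trans (max_le vk (v_int hV _))

/-- **the comparison** -/
theorem cmp (mpc : MPC) (tau : TAU) {V : AbsoluteValue ℂ ℝ} {P : Ideal (𝓞 Qb)} {M : ℕ} {L : List ℕ}
    (hP : P.IsPrime) (h3 : (3 : 𝓞 Qb) ∈ P) (hV : Vp V P) (hM : 0 < M) (hL : L.Nodup)
    (hp : ∀ p ∈ L, p.Prime ∧ p ≠ 3) (hd : L.prod ^ 2 ∣ M) {a : ℕ → ℤ}
    (ha : ∀ n : ℕ, n.Coprime (3 * L.prod) → (3 : ℤ) ∣ a n - sigma 1 n)
    {u : Mer} (hu : u ∈ MF (Gamma0 M)) {s : LS} (hs : ExM 1 s u) (hz : Zq 3 s)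
    (hc : Cq 3 (dp (3 * L.prod) a) s) :
    Ae P M fun τ => ∀ y, Val τ u y → ∀ t : ℕ → ℍ, (∀ k, 0 < k → (t k : ℂ) = k * τ) →
      V (y - dq (fun k => (jf (t k))⁻¹) L 1) ≤ V 3 := by
  have P0 : P ≠ ⊥ := fun h => by
    rw [h, Ideal.mem_bot] at h3
    norm_num at h3
  obtain ⟨W, hW1, hW2⟩ := tau
  obtain ⟨x1, x2⟩ := ex_dq hW1 L hd
  have a1 : Ae P M fun τ => ∀ k ∈ M.divisors, ∃ c, V c ≤ 1 ∧ Val τ (iN k) c :=
    Ae.all _ fun k hk => mpc V P M hP P0 hV hM _ (iN_mem (Nat.dvd_of_mem_divisors hk)) _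
      (ex_xp hW1 k) fun n => by
      obtain ⟨z, hz⟩ := coeff_ls_int (xp W k) 0 n
      rw [hz]
      exact v_int hV.1 z
  have a2 : Ae P M fun τ => ∃ c, V c ≤ 1 ∧ Val τ (algebraMap ℂ Mer 3⁻¹ *
      (u + algebraMap ℂ Mer (-1) * dq iN L 1)) c :=
    mpc V P M hP P0 hV hM _ (mul_mem (algebraMap_mem _ _) (add_mem hu (mul_mem (algebraMap_mem _ _)
      x2))) _ ((ExM.const 1 _).mul (hs.add ((ExM.const 1 _).mul x1)))
      (coef hV.1 (v_thr hV hP h3) (dvd_mul_right _ _) ha hz hc fun n => by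
        simpa only [one_dvd, true_and, Nat.div_one] using co_dq hW2 L hL hp n 1 one_pos)
  refine (a1.and a2).mono fun τ ⟨b1, c, c1, c2⟩ y hy t ht => ?_
  have b2 : Val τ (dq iN L 1) (dq (fun k => (jf (t k))⁻¹) L 1) := by
    refine dq_rel (Val τ) (fun n => by simpa only [map_intCast] using val_const τ (n : ℂ))
      (fun _ _ _ _ => val_add) (fun _ _ _ _ => val_mul) _ _ L 1 fun k hk => ?_
    rw [one_mul]
    have k0 := Nat.pos_of_dvd_of_pos (hk.trans hd) hM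
    obtain ⟨e, -, e2⟩ := b1 k (Nat.mem_divisors.2 ⟨hk.trans hd, hM.ne'⟩)
    have e3 := e2
    rw [iN, dif_pos k0] at e3
    obtain ⟨-, rfl⟩ := val_inv (jN_ne _) (val_jN k0 (ht k k0)) e3
    exact e2
  have e := val_uniq c2 (val_mul (val_const τ _) (val_add hy (val_mul (val_const τ _) b2)))
  rw [show y - dq (fun k => (jf (t k))⁻¹) L 1 = 3 * c by rw [e]; ring, V.map_mul]
  exact mul_le_of_le_one_right (V.nonneg _) c1

theorem dpl_dq (h : GQ → Qb) (φ : ℕ → GQ) (F : ℕ → ℂ) (L : List ℕ) : ∀ (k : ℕ) (g : GQ),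
    (∀ L' : List ℕ, L'.Subperm (L ++ L) → F (k * L'.prod) = io (h (g * (L'.map φ).prod))) →
    dq F L k = io (dpl φ h L g) := by
  induction L with
  | nil => intro k g e; simpa [dq, dpl] using e [] (List.nil_subperm)
  | cons p L ih =>
    intro k g e
    have pm : ((p :: L) ++ (p :: L)).Perm (p :: p :: (L ++ L)) := List.perm_middle.cons p
    simp only [pm.subperm_left] at e
    have up : ∀ {A B : List ℕ}, A.Subperm B → A.Subperm (p :: B) := fun s =>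
      s.trans (List.sublist_cons_self _ _).subperm
    rw [dq, dpl]
    beta_reduce
    rw [ih k g fun L' s => e L' (up (up s)), ih (k * p) (g * φ p) fun L' s => by
        simpa only [List.prod_cons, List.map_cons, ← mul_assoc] using
          e _ (up ((List.subperm_cons p).2 s)),
      ih (k * p ^ 2) (g * φ p ^ 2) fun L' s => by
        simpa only [List.prod_cons, List.map_cons, ← mul_assoc, pow_two] using
          e _ ((List.subperm_cons p).2 ((List.subperm_cons p).2 s))]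
    simp only [map_add, map_sub, map_mul, map_one, map_natCast]

section arith

variable {K : Type} [Field K] [NumberField K] {j : K →+* Qb} {N c : ℕ} {S : List ℕ}
  {P : ℕ → Ideal (𝓞 Qb)} {I I' : Ideal (𝓞 K)} {Q : ℕ → Ideal (𝓞 K)} {φ : ℕ → GQ}

theorem ar_list (rc2 : P004K.RC2) (hK : Iq K) (hp : ∀ p ∈ S, p.Prime) (h2 : 3 ∈ S)
    (hP : ∀ p ∈ S, (P p).IsPrime ∧ (p : 𝓞 Qb) ∈ P p) (ch : Ch j N I I' S P Q φ) (hc : 0 < c)
    (cp : c.Coprime S.prod) (L : List ℕ) (hL : ∀ p ∈ L, p ∈ S) :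
    Cop c (L.map fun p => below j (P p)).prod ∧
      Ar j c (L.map fun p => below j (P p)).prod (L.map φ).prod := by
  obtain ⟨-, -, r3, -, -, -, r7⟩ := rc2 K j hK c hc
  have c1 : ∀ p ∈ S, p.Coprime c := fun p h => (cp.coprime_dvd_right (List.dvd_prod h)).symm
  have n0 : ∀ p ∈ S, P p ≠ ⊥ := fun p h e =>
    (hp p h).ne_zero (Nat.cast_eq_zero.1 (Ideal.mem_bot.1 (e ▸ (hP p h).2)))
  have n1 : ∀ p ∈ S, (c : 𝓞 Qb) ∉ P p := fun p h =>
    not_mem (hP p h).1 (hP p h).2 (c1 p h) (n0 p h)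
  induction L with
  | nil =>
    have := r7 (P 3) (hP 3 h2).1 (n0 3 h2) (n1 3 h2) 1 (one_mem _) 0 (by simp)
    rw [pow_zero] at this
    simp only [List.map_nil, List.prod_nil]
    exact ⟨cop_mem (m := 1) (by simp) one_pos (Nat.coprime_one_left c), this⟩
  | cons p L ih =>
    have h1 := hL p List.mem_cons_self
    obtain ⟨i1, i2⟩ := ih fun q hq => hL q (List.mem_cons_of_mem _ hq)
    have a1 := cop_mem (sp_mem (ch.spl p h1)).1 (hp p h1).pos (c1 p h1)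
    have a2 := r7 (P p) (hP p h1).1 (n0 p h1) (n1 p h1) (φ p) (ch.mem p h1) 1 (by
      rw [pow_one, cn_nm (ch.spl p h1).cn]
      exact ch.frb p h1)
    rw [pow_one] at a2
    simp only [List.map_cons, List.prod_cons]
    exact ⟨cop_mul a1 i1, r3 _ _ _ _ a1 i1 a2 i2⟩

/-- `j (k τ)` is a conjugate of the singular modulus -/
theorem j_sub (hg1 : HG1) (rc1 : P004K.RC1) (rc2 : P004K.RC2) (hK : Iq K) (hN : 0 < N)
    (hp : ∀ p ∈ S, p.Prime) (h2 : 3 ∈ S) (hP : ∀ p ∈ S, (P p).IsPrime ∧ (p : 𝓞 Qb) ∈ P p)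
    (ch : Ch j N I I' S P Q φ) (hc : 0 < c) (cp : c.Coprime (N * S.prod)) {L : List ℕ}
    (hL : L.Subperm (S ++ S)) {τ τ0 : ℍ} (hτ : Hp (JJ j) (N * S.prod ^ 2) (IM j I S P) c τ)
    (h0 : (τ0 : ℂ) = (L.prod : ℕ) * τ) : jf τ0 = io ((L.map φ).prod (jc j c)) := by
  obtain ⟨L', pm⟩ : ∃ L', (S ++ S).Perm (L ++ L') := by
    obtain ⟨l, h1, h2⟩ := hL
    obtain ⟨L', pm⟩ := h2.exists_perm_append
    exact ⟨L', pm.trans (h1.append_right L')⟩
  have m0 : ∀ p ∈ L ++ L', p ∈ S := fun p h => (List.mem_append.1 (pm.mem_iff.2 h)).elim id id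
  have m1 : ∀ p ∈ L, p ∈ S := fun p h => m0 p (List.mem_append_left _ h)
  have m2 : ∀ p ∈ L', p ∈ S := fun p h => m0 p (List.mem_append_right _ h)
  have e1 : N * S.prod ^ 2 = N * L'.prod * L.prod := by
    rw [pow_two, ← List.prod_append, pm.prod_eq, List.prod_append]
    ring
  have e2 : IM j I S P = I * (L'.map fun p => below j (P p)).prod *
      (L.map fun p => below j (P p)).prod := by
    rw [IM, pow_two, ← List.prod_append, ← List.map_append, (pm.map _).prod_eq, List.map_append,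
      List.prod_append]
    ring
  have ps : ∀ A : List ℕ, (∀ p ∈ A, p ∈ S) → 0 < A.prod := fun A h =>
    List.prod_pos fun p k => (hp p (h p k)).pos
  have s0 := (sp_sq hp ch.spl (fun _ => id) hN ch.lev ch.cop).cn
  have s1 := (sp_list hp ch.spl L' m2 _ _ _ hN ch.lev ch.cop).cn
  have s2 := (sp_list hp ch.spl L m1 _ _ _ one_pos sp_one (by simp)).cn
  rw [one_mul, Ideal.top_mul] at s2
  have cM : c.Coprime (N * S.prod ^ 2) := cp.coprime_mul_right_right.mul_right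
    (cp.coprime_mul_left_right.pow_right 2)
  have j0 : jf τ = io (jc j c) := by
    rw [(rc1 K j hK c hc).1, ← jL_lat, jL_hom hτ.choose_spec.1 (isLat τ)]
  rw [← IM, e1, e2] at s0
  rw [e1] at cM
  rw [e1, e2] at hτ
  obtain ⟨σ, hσ⟩ := ex_ex (L.map φ).prod
  have := ((hg1 K j hK _ c _ (Nat.mul_pos hN (ps L' m2)) hc cM.coprime_mul_right_right
    s1).2.2.2.2 _ _ τ (ps L m1) cM.coprime_mul_left_right s0 s2 hτ).2 _ σ τ0
    (ar_list rc2 hK hp h2 hP ch hc cp.coprime_mul_left_right L m1).2 hσ h0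
  rw [this.jf, j0, hσ]

end arith

end Qf

open Qf in
theorem qf (mpc : MPC) (vex : VEX) (hg1 : HG1) (rc1 : P004K.RC1) (rc2 : P004K.RC2) (tr0 : TR0)
    (tau : TAU) : QF := by
  intro N a S hN nd hp h3 ha u hu s hs hz hc P hP
  have e0 : S.prod = 3 * (S.erase 3).prod := (List.prod_erase h3).symm
  have sl : (S.erase 3).Sublist S := List.erase_sublist
  have hp' : ∀ p ∈ S.erase 3, p.Prime ∧ p ≠ 3 := fun p h =>
    ⟨hp p (sl.subset h), (nd.mem_erase_iff.1 h).1⟩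
  have P3 : (3 : 𝓞 Qb) ∈ P 3 := by simpa using (hP 3 h3).2
  have P0 : P 3 ≠ ⊥ := fun h => by
    rw [h, Ideal.mem_bot] at P3
    norm_num at P3
  have hM : 0 < N * S.prod ^ 2 := Nat.mul_pos hN (pow_pos (List.prod_pos fun p h => (hp p h).pos) 2)
  have dv : (S.erase 3).prod ^ 2 ∣ N * S.prod ^ 2 :=
    (pow_dvd_pow_of_dvd (e0 ▸ dvd_mul_left _ _) 2).mul_left N
  obtain ⟨V, hV⟩ := vex (P 3) (hP 3 h3).1 P0
  obtain ⟨T, hT⟩ := cmp mpc tau (hP 3 h3).1 P3 hV hM (nd.sublist sl) hp' dv (e0 ▸ ha) hu hs hz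
    (e0 ▸ hc)
  refine ⟨T, fun δ d1 d2 K _ _ j hK θ hθ I I' Q φ ch c c0 cp _ g hg σ τ τ' hσ hτ cj y hy => ?_⟩
  have le : IM j I S P ≤ below j (P 3) := Ideal.mul_le_right.trans ((Ideal.pow_le_self
    two_ne_zero).trans (Ideal.le_of_dvd (List.dvd_prod (List.mem_map_of_mem h3))))
  have c2 : (c : 𝓞 Qb) ∉ P 3 := not_mem (hP 3 h3).1 (hP 3 h3).2
    (cp.coprime_mul_left_right.coprime_dvd_right (List.dvd_prod h3)).symm P0
  choose t ht using fun k : ℕ => ex_mul k τ'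
  have k1 := hT δ d1 d2 K j hK c θ _ _ hθ (sp_sq hp ch.spl (fun _ => id) hN ch.lev ch.cop) le c2
    g hg σ τ τ' hσ hτ cj _ hy t ht
  have k2 := dpl_dq (ij j c) φ (fun k => (jf (t k))⁻¹) (S.erase 3) 1 g fun L sb => by
    have sb' : L.Subperm (S ++ S) := sb.trans (sl.append sl).subperm
    have d : L.prod ∣ N * S.prod ^ 2 := by
      obtain ⟨l, h1, h2⟩ := sb'
      rw [← h1.prod_eq, pow_two, ← List.prod_append]
      exact h2.prod_dvd_prod.mul_left N
    have p0 := Nat.pos_of_dvd_of_pos d hM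
    obtain ⟨t0, h0⟩ := ex_mul L.prod τ
    rw [one_mul, j_cj tr0 hM d cj (h0 p0) (ht _ p0),
      j_sub hg1 rc1 rc2 hK hN hp h3 hP ch c0 cp sb' hτ (h0 p0), hσ, ij, map_inv₀,
      AlgEquiv.mul_apply]
  rw [(hV.2 _).2, map_sub, ← k2]
  exact k1.trans_lt (v_thr hV (hP 3 h3).1 P3)

end Vale.Agent.P014Y.Rd
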