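import Vale.Agent.P014Y.F.Rec.All
import Vale.Agent.P014Y.Rd.St1

/-!
# P014Y, route R: reciprocity at places of degree one (helper73)
-/

set_option linter.all false

noncomputable section

namespace Vale.Agent.P014Y.Rd

open NumberField Topology Filter
open Vale.Agent.P022 Vale.Agent.P022K Vale.Agent.P014U
open Vale.Agent.P027M.S (Inert)
open Vale.Agent.P022D.W (dec inP_le_dec conj_inP phi_mem dec_gen)
open Vale.Agent.P022.H443 (inP)
open Vale.Agent.P022E.GW (Ov Fb)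
open Vale.Agent.P014U.X4S.Ga (K O mem_O d2 d3 Z2 B2)
open Vale.Agent.P014U.X4S.Aq
open Vale.Agent.P014U.X4F.Rc
open F.Rc (co co_z2 cor_loc ex_hz nf unr2 km_tau)
open scoped Pointwise

variable [Pp] {n : ℕ}

namespace Rs

variable {Γ D D' : Subgroup GQ} {Z : GQ × GQ × GQ → K} {l : ℕ} {P : Ideal (𝓞 Qb)} {φ φ' g : GQ}

theorem fb_cj (f : Fb l P φ) (g : GQ) : Fb l (g • P) (g * φ * g⁻¹) := fun x => by
  rw [Ideal.mem_pointwise_smul_iff_inv_smul_mem, smul_sub, mul_smul, mul_smul, inv_smul_smul,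
    smul_pow']
  exact f _

theorem dec_cj (m : g ∈ dec P) (h : GQ) : h * g * h⁻¹ ∈ dec (h • P) := (GW.Pl.dec_iff _ _).2 (by
  rw [mul_smul, inv_smul_smul, mul_smul, (GW.Pl.dec_iff _ _).1 m])

theorem fb_fb (o : Ov l P) (f : Fb l P φ) (f' : Fb l P φ') : φ⁻¹ * φ' ∈ inP P := fun x => by
  rw [← phi_mem o.1 o.2.1 f, smul_sub, mul_smul, smul_inv_smul]
  simpa using sub_mem (f' x) (f x)

/-- the roots of unity are in the local field -/
theorem cyc (o : Ov l P) (ne : l ≠ pp) (dv : pp ^ n ∣ l - 1) (f : Fb l P φ) (hg : g ∈ dec P) :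
    hn n * (cy g - 1) ∈ O := by
  have p := ee_prim n
  have := NeZero.mk (pow_ne_zero n pp_ne)
  generalize ee n (hn n * 1) = ζ at p
  have e1 := cy_iff.2 (cy_fb o ne f n) ζ p.pow_eq_one
  obtain ⟨k, s, u, hs, hu, e⟩ :=
    dec_gen o.1 o.2.1 o.2.2 f hg (MulAction.stabilizer GQ ζ) (G2.stab_open ζ)
  have m1 : φ ∈ MulAction.stabilizer GQ ζ := show φ ζ = ζ by
    obtain ⟨b, hb⟩ := dv
    rw [e1, ← Nat.sub_add_cancel o.1.one_le, hb, pow_succ, pow_mul, p.pow_eq_one, one_pow, one_mul]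
  have m2 : s ∈ MulAction.stabilizer GQ ζ := show s ζ = ζ by
    simpa using (cy_iff (k := 1)).2 (by simp [cy_in o ne hs]) ζ p.pow_eq_one
  have m3 : g ∈ MulAction.stabilizer GQ ζ := e ▸ mul_mem (mul_mem hu (pow_mem m1 k)) m2
  have m : g ζ = ζ := m3
  simpa using (cy_iff (k := 1)).1 fun η hη => by
    obtain ⟨c, -, rfl⟩ := p.eq_pow_of_pow_eq_one hη
    rw [map_pow, m, pow_one]

/-- transport of the normal form to a conjugate place -/
theorem tr (h : Hz Γ Set.univ Z) (le : D' ≤ Γ) {t : GQ} (m : ∀ g ∈ D, t * g * t⁻¹ ∈ D')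
    {u κ : GQ → K} {β : Qb} (k : Km n β κ) (lu : ∀ g, (pp : K) ^ n * u g ∈ O)
    (hc : ∀ g ∈ D, hn n * (cy g - 1) ∈ O)
    (b : B2 cy D' fun g j => Z (1, g, g * j) - u g * (cy g * κ j)) :
    B2 cy D fun g j => cy t⁻¹ * Z (t • (1, g, g * j)) - u (t * g * t⁻¹) * (cy g * κ j) := by
  obtain ⟨θ, c, e⟩ := b
  have zc : Continuous Z := continuousOn_univ.1 (by simpa using h.cont)
  refine ⟨fun g => cy t⁻¹ * (θ (t * g * t⁻¹) + (Z (1, t, t * g) - Z (1, t * g * t⁻¹, t * g))),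
    continuousOn_const.mul ((c.comp (by fun_prop) m).add (Continuous.continuousOn (by fun_prop))),
    fun g hg j hj => ?_⟩
  have mg := le (m g hg)
  have q := fun a b c d => h.coc a trivial b trivial c trivial d trivial
  have e0 := e _ (m g hg) _ (m j hj)
  have e1 := h.eqv _ mg (1, t, t * j) (by simp)
  have e2 := h.eqv _ mg (1, t * j * t⁻¹, t * j) (by simp)
  have q1 := q 1 (t * g * t⁻¹) (t * (g * j) * t⁻¹) (t * (g * j))
  have q2 := q 1 (t * g * t⁻¹) (t * g) (t * (g * j))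
  have q3 := q 1 t (t * g) (t * (g * j))
  have cg : cy (t * g * t⁻¹) = cy g := by
    rw [map_mul, map_mul, mul_right_comm, mul_comm (cy t), cy_inv, one_mul]
  have k1 := k.coc (t * j * t⁻¹) t
  have k2 := k.coc t j
  have cj : cy (t * j * t⁻¹) = cy j := by
    rw [map_mul, map_mul, mul_right_comm, mul_comm (cy t), cy_inv, one_mul]
  have k3 : hn n * (κ (t * j * t⁻¹) - cy t * κ j) ∈ O := by
    rw [inv_mul_cancel_right, cj] at k1
    exact O_of (sub_mem (sub_mem k2 k1) (O_mul (hc j hj) (k.int t))) (by ring)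
  simp only [d2, cg] at e0 e1 e2
  simp only [d2, Prod.smul_mk, smul_eq_mul, mul_one, mul_assoc, inv_mul_cancel_left,
    inv_mul_cancel] at *
  refine O_of (O_mul (O_cy t⁻¹) (add_mem (add_mem (add_mem e0 (add_mem (sub_mem q3 q2) q1))
    (sub_mem e1 e2)) (O_mul (O_cy g) (O_lv (lu (t * (g * t⁻¹))) k3)))) ?_
  linear_combination (u (t * (g * t⁻¹)) * cy g * κ j) * cy_inv t

/-- reciprocity over the rational field -/
theorem rq {y : GQ → GQ → K} (hy : Z2 cy ⊤ y) (L : Finset ℕ) (P : ℕ → Ideal (𝓞 Qb)) (φ : ℕ → GQ)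
    (β : ℕ → Qb) (κ V : ℕ → GQ → K) (hL : ∀ l ∈ L, Ov l (P l) ∧ l ≠ pp ∧ Fb l (P l) (φ l) ∧
      β l ^ pp ^ n = l ∧ Km n (β l) (κ l) ∧ Ad (dec (P l)) (V l) ∧
      (∀ g, (pp : K) ^ n * V l g ∈ O) ∧ (∀ s ∈ inP (P l), V l s ∈ O) ∧
      B2 cy (dec (P l)) fun g j => y g j - V l g * (cy g * κ l j))
    (h1 : ∀ p : ℕ, p.Prime → p ∉ L → ∃ Q, Ov p Q ∧ B2 cy (dec Q) y)
    (h0 : ∃ w, B2 cy (G2.St (G2.ip w)) y) : ∑ l ∈ L, V l (φ l) ∈ O := by
  classical
  have key := recq n (ee_prim n) hy L P φ (fun l g => tz n (κ l g))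
    (fun l g => tz n ((pp : K) ^ n * V l g)) (fun l m => ?_) h1 h0
  · have e : ∀ s ⊆ L, (pp : K) ^ n * ∑ l ∈ s, V l (φ l) ∈ O ∧
        tz n ((pp : K) ^ n * ∑ l ∈ s, V l (φ l)) = ∑ l ∈ s, tz n ((pp : K) ^ n * V l (φ l)) := fun s => by
      induction s using Finset.induction_on with
      | empty => exact fun _ => ⟨by simp, by simpa using (tz_zero (zero_mem _)).2 (by simp)⟩
      | insert a s ha ih =>
        intro h
        obtain ⟨h1, h2⟩ := ih ((Finset.subset_insert _ _).trans h)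
        have h3 := (hL a (h (Finset.mem_insert_self _ _))).2.2.2.2.2.2.1 (φ a)
        rw [Finset.sum_insert ha, Finset.sum_insert ha, mul_add, tz_add h3 h1, h2]
        exact ⟨add_mem h3 h1, rfl⟩
    exact (tz_lev0 (e L subset_rfl).1).1 ((e L subset_rfl).2.trans key)
  · obtain ⟨a1, a2, a3, a6, a7, v1, v2, v3, v5⟩ := hL l m
    obtain ⟨W, hW, e⟩ := v1.lv
    refine ⟨a1, a2, a3, ⟨β l, a6, fun g => ?_⟩, fun g hg j hj => ?_, ⟨W, hW.opn, fun w a d =>
      (tz_lev0 (v2 w)).2 (e w d a)⟩, fun s hs => (tz_lev0 (v2 s)).2 (v3 s hs),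
      b2_congr v5 fun g hg j _ => ?_⟩
    · rw [a7.act g, ← ee_pow (lev O_one), mul_one, mul_comm _ (hn n), (ee_eq (lev (a7.int g))
        (lev (O_nat (tz n (κ l g)).val))).2 (O_of (tz_val (n := n) (a7.int g)) (by ring))]
    · have := v1.add g hg j hj
      rw [← tz_add (v2 g) (v2 j), show (pp : K) ^ n * V l (g * j) = (pp : K) ^ n * V l g +
        (pp : K) ^ n * V l j + (pp : K) ^ n * (V l (g * j) - V l g - V l j) by ring,
        tz_add (add_mem (v2 g) (v2 j)) (O_mul (O_pow n) this),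
        (tz_lev0 (O_mul (O_pow n) this)).2 this, add_zero]
    · exact O_of (add_mem (O_mul (O_cy g) (O_lv (v2 g) (tz_val (n := n) (a7.int j))))
        (O_mul (tz_lev (v2 g)) (O_mul (O_cy g) (O_nat (tz n (κ l j)).val)))) (by rw [hn]; ring)

/-- reciprocity over the quadratic field -/
theorem rk (o : IsOpen (Γ : Set GQ)) (i : Γ.index = 2) {z : GQ → GQ → K} (hz : Z2 cy Γ z)
    {ι : Type} [Fintype ι] (l : ι → ℕ) (P : ι → Ideal (𝓞 Qb)) (φ : ι → GQ) (β : ℕ → Qb)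
    (κ : ℕ → GQ → K) (u : ι → GQ → K) (hL : ∀ a, Ov (l a) (P a) ∧ l a ≠ pp ∧ pp ^ n ∣ l a - 1 ∧
      Fb (l a) (P a) (φ a) ∧ dec (P a) ≤ Γ ∧ β (l a) ^ pp ^ n = l a ∧ Km n (β (l a)) (κ (l a)) ∧
      Ad (dec (P a)) (u a) ∧ (∀ g, (pp : K) ^ n * u a g ∈ O) ∧ (∀ s ∈ inP (P a), u a s ∈ O) ∧
      B2 cy (dec (P a)) fun g j => z g j - u a g * (cy g * κ (l a) j))
    (inj : ∀ a a', ∀ g ∈ Γ, P a' = g • P a → a = a')
    (h1 : ∀ p Q, Ov p Q → (∀ a, ∀ g ∈ Γ, Q ≠ g • P a) → B2 cy (Γ ⊓ dec Q) z)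
    (h0 : ∀ v, B2 cy (Γ ⊓ G2.St (G2.ip v)) z) : ∑ a, u a (φ a) ∈ O := by
  classical
  rcases isEmpty_or_nonempty ι with _ | _
  · simp
  obtain ⟨c, hc⟩ : ∃ c, c ∉ Γ := by
    by_contra! e
    rw [(Subgroup.eq_top_iff' Γ).2 e, Subgroup.index_top] at i
    exact absurd i (by decide)
  obtain ⟨Z, hZ, eZ⟩ := ex_hz o i hz hc
  have b : ∀ {D}, B2 cy (Γ ⊓ D) z → B2 cy (Γ ⊓ D) fun g j => Z (1, g, g * j) := fun h =>
    b2_congr h fun g hg j hj => by rw [eZ g hg.1 j hj.1, sub_self]; exact zero_mem _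
  obtain ⟨r, hr⟩ : ∃ r : ℕ → ι, ∀ a, l (r (l a)) = l a :=
    ⟨Function.invFun l, fun a => Function.invFun_eq ⟨a, rfl⟩⟩
  choose t ht using fun a => GW.Pl.ov_trans (hr a ▸ (hL (r (l a))).1) (hL a).1
  have nr := Subgroup.normal_of_index_eq_two i
  have mi := @Subgroup.mul_mem_iff_of_index_two _ _ Γ i
  have cj : ∀ a, ∀ g ∈ dec (P (r (l a))), t a * g * (t a)⁻¹ ∈ dec (P a) := fun a g m =>
    ht a ▸ dec_cj m _
  have cl : ∀ a d, B2 cy (dec (P (r (l a)))) fun g j => cy d⁻¹ * Z (d • (1, g, g * j)) -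
      (∑ x with l x = l a ∧ t x * d⁻¹ ∈ Γ, u x (t x * g * (t x)⁻¹)) * (cy g * κ (l a) j) := fun a d => by
    obtain ⟨a1, a2, a3, a4, a5, -⟩ := hL (r (l a))
    have k := (hL a).2.2.2.2.2.2.1
    have hc := fun g m => cyc a1 a2 a3 a4 (g := g) m
    by_cases ex : ∃ x, l x = l a ∧ t x * d⁻¹ ∈ Γ
    · obtain ⟨x, x1, x2⟩ := ex
      have : ({y | l y = l a ∧ t y * d⁻¹ ∈ Γ} : Finset ι) = {x} :=
        Finset.eq_singleton_iff_unique_mem.2 ⟨by simp [x1, x2], fun y m => by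
          obtain ⟨y1, y2⟩ := (Finset.mem_filter.1 m).2
          refine inj y x (t x * (t y)⁻¹) (by
            simpa [mul_assoc] using mul_mem x2 (inv_mem y2)) ?_
          rw [← ht x, ← ht y, mul_smul, inv_smul_smul, x1, y1]⟩
      obtain ⟨-, -, -, -, b5, -, -, -, b9, -, b11⟩ := hL x
      simp only [this, Finset.sum_singleton]
      refine b2_congr (tr hZ b5 (x1 ▸ cj x) k b9 hc (b2_congr b11 fun g hg j hj => by
        rw [eZ g (b5 hg) j (b5 hj), x1, sub_self]; exact zero_mem _)) fun g _ j _ => ?_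
      have e := hZ.eqv _ x2 (d • (1, g, g * j)) (by simp)
      rw [mul_smul, inv_smul_smul, map_mul] at e
      refine O_of (neg_mem (O_mul (O_cy (t x)⁻¹) e)) ?_
      linear_combination (-cy d⁻¹ * Z (d • (1, g, g * j))) * cy_inv (t x)
    · have : ({y | l y = l a ∧ t y * d⁻¹ ∈ Γ} : Finset ι) = ∅ :=
        Finset.filter_eq_empty_iff.2 fun y _ m => ex ⟨y, m⟩
      simp only [this, Finset.sum_empty]
      refine tr (u := fun _ => 0) hZ inf_le_left (fun g m => ⟨nr.conj_mem g (a5 m) d, dec_cj m d⟩) k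
        (by simp) hc (b2_congr (b (h1 _ _ (GW.ov_smul a1 d) fun x g m e => ex ⟨x, ?_⟩)) (by simp))
      have x1 : l x = l a := (GW.Pl.ov_uniq (GW.ov_smul (hL x).1 g) (e ▸ GW.ov_smul a1 d)).trans (hr a)
      have : d⁻¹ * (g * t x) ∈ Γ := a5 ((GW.Pl.dec_iff _ _).2 (by
        rw [mul_smul, mul_smul, ← x1, ht x, ← e, x1, inv_smul_smul]))
      rw [mi, mi] at this
      exact ⟨x1, mi.2 (by tauto)⟩
  have key := rq (n := n) (co_z2 i hZ hc) (Finset.univ.image l) (fun p => P (r p)) (fun p => φ (r p))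
    β κ (fun p g => ∑ x with l x = p, u x (t x * g * (t x)⁻¹)) (fun p m => ?_) (fun p hp m => ?_)
    ⟨.mk P004S.Aq.em, cor_loc o i hZ hc fun g => b (h0 _)⟩
  · rw [Finset.sum_congr rfl (g := fun p => ∑ x with l x = p, u x (t x * φ (r (l x)) * (t x)⁻¹))
      fun p _ => Finset.sum_congr rfl fun x m => by rw [(Finset.mem_filter.1 m).2],
      Finset.sum_fiberwise_of_maps_to fun x m => Finset.mem_image_of_mem l m] at key
    refine O_of (sub_mem key (sum_mem (t := Finset.univ) (f := fun x =>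
      u x (t x * φ (r (l x)) * (t x)⁻¹) - u x (φ x)) fun x _ => ?_))
      (by rw [Finset.sum_sub_distrib]; ring)
    obtain ⟨a1, -, -, a4, -, -, -, a8, -, a10, -⟩ := hL x
    have f := fb_fb a1 a4 (ht x ▸ hr x ▸ fb_cj (hL (r (l x))).2.2.2.1 (t x))
    have e := a8.add _ (phi_mem a1.1 a1.2.1 a4) _ (inP_le_dec f)
    rw [mul_inv_cancel_left] at e
    exact O_of (add_mem e (a10 _ f)) (by ring)
  · obtain ⟨a, -, rfl⟩ := Finset.mem_image.1 m
    obtain ⟨a1, -, -, a4, -⟩ := hL (r (l a))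
    obtain ⟨-, a2, -, -, -, a6, a7, -⟩ := hL a
    have q : ∀ x ∈ ({x | l x = l a} : Finset ι), ∀ g ∈ dec (P (r (l a))),
        t x * g * (t x)⁻¹ ∈ dec (P x) := fun x m => (Finset.mem_filter.1 m).2 ▸ cj x
    rw [hr] at a1 a4
    refine ⟨a1, a2, a4, a6, a7, ⟨continuousOn_finset_sum _ fun x m =>
      (hL x).2.2.2.2.2.2.2.1.cont.comp (by fun_prop) (q x m), fun g hg j hj => ?_⟩, fun g => ?_,
      fun s hs => sum_mem fun x m => (hL x).2.2.2.2.2.2.2.2.2.1 _ ?_,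
      b2_congr (b2_add (cl a 1) (cl a c)) fun g _ j _ => O_of (zero_mem _) ?_⟩
    · rw [← Finset.sum_sub_distrib, ← Finset.sum_sub_distrib]
      exact sum_mem fun x m => by
        simpa [mul_assoc] using (hL x).2.2.2.2.2.2.2.1.add _ (q x m g hg) _ (q x m j hj)
    · rw [Finset.mul_sum]
      exact sum_mem fun x _ => (hL x).2.2.2.2.2.2.2.2.1 _
    · rw [← ht x, (Finset.mem_filter.1 m).2]
      exact GW.Pl.inert_conj hs _
    · rw [← Finset.sum_filter_add_sum_filter_not {x | l x = l a} fun x => t x ∈ Γ]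
      simp only [co, Finset.filter_filter, inv_one, mul_one, map_one, one_smul, one_mul, mi,
        inv_mem_iff, hc, iff_false]
      ring
  · obtain ⟨Q, hQ⟩ := GW.Pl.ex_ov hp
    refine ⟨Q, hQ, G2.st_fp Q ▸ cor_loc o i hZ hc fun g => b ?_⟩
    rw [G2.smul_fp, G2.st_fp]
    exact h1 p _ (GW.ov_smul hQ g) fun x s _ e => m (Finset.mem_image.2 ⟨x, Finset.mem_univ _,
      GW.Pl.ov_uniq (GW.ov_smul (hL x).1 s) (e ▸ GW.ov_smul hQ g)⟩)

end Rs

/-- **row RECS** -/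
theorem recs : RECS := by
  classical
  rintro (_ | N)
  · exact ⟨fun _ _ => 1, fun _ _ _ _ _ _ d => one_lt.ne' (Nat.dvd_one.1 d),
      fun _ _ _ _ _ _ _ _ _ _ _ _ _ _ _ _ _ _ _ _ _ hA _ _ _ _ _ _ => by simpa using hA _⟩
  choose β hβ using fun l : ℕ =>
    IsAlgClosed.exists_pow_nat_eq (l : Qb) (n := pp ^ (N + 1)) (pow_pos pp_pos _)
  have : ∀ l : ℕ, ∃ κ, l ≠ 0 → Km (N + 1) (β l) κ := fun l => by
    by_cases h : l = 0
    · exact ⟨0, fun e => absurd h e⟩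
    · exact (ex_km (fun e => h (by
        have := hβ l
        rw [e, zero_pow (pow_ne_zero _ pp_ne)] at this
        exact_mod_cast this.symm)) fun g => by rw [hβ, map_natCast]).imp fun _ k _ => k
  choose κ hκ using this
  have : ∀ (l : ℕ) (τ : GQ), ∃ w : ℕ, ∀ P, Ov l P → l ≠ pp → Gn l P τ →
      ¬ pp ∣ w ∧ hn (N + 1) * (w * κ l τ - 1) ∈ O := fun l τ => by
    by_cases h : ∃ P, Ov l P ∧ l ≠ pp ∧ Gn l P τ
    · obtain ⟨P, ov, ne, gn⟩ := h
      have k := hκ l ov.1.ne_zero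
      obtain ⟨y, hy, e⟩ := unit (k.int τ) (km_tau ov ne (hβ l) k gn)
      obtain ⟨w, hw⟩ := apx (N + 1) hy
      have m : hn (N + 1) * (w * κ l τ - 1) ∈ O :=
        O_of (neg_mem (O_mul hw (k.int τ))) (by rw [← e]; ring)
      refine ⟨w, fun _ _ _ _ => ⟨?_, m⟩⟩
      rintro ⟨c, rfl⟩
      exact half_not (O_of (sub_mem (O_mul (O_nat c) (k.int τ)) (O_mul (O_pow N) m)) (by
        have := pk_ne
        rw [hn]; push_cast; field_simp; ring))
    · exact ⟨0, fun P a b c => absurd ⟨P, a, b, c⟩ h⟩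
  choose w hw using this
  refine ⟨w, fun l P τ ov ne gn => (hw l τ P ov ne gn).1, ?_⟩
  intro Γ A M M' _ _ _ B ρ σ a b ι _ l P φ τ o i cx hA ha hb hB hL inj out
  by_contra ne
  obtain ⟨F, hF⟩ := ex_F (hA _) ne
  obtain ⟨f, fe⟩ : ∃ f : A → K, ∀ x, mq (f x) = F x := ⟨fun x => (F x).out, fun x => Quot.out_eq _⟩
  have nm : ∀ (k : ℕ) (x : K), mq (k * x) = k • mq x := fun k x => by
    rw [← map_nsmul, nsmul_eq_mul]
  have lv : ∀ x, (pp : K) ^ (N + 1) * f x ∈ O := fun x => mq_zero.1 (by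
    have := nm (pp ^ (N + 1)) (f x)
    rw [fe, ← map_nsmul, hA, map_zero] at this
    exact_mod_cast this)
  have cf : ∀ g ∈ Γ, ∀ x y, mq (cy g * f (B x y)) = F (B (ρ g x) (σ g y)) := fun g hg x y => by
    obtain ⟨k, hk⟩ := apx (N + 1) (O_cy g)
    rw [hB g hg k (cy_iff.2 hk), map_nsmul, ← fe, ← nm, mq_eq]
    exact O_of (O_lv (lv (B x y)) hk) (by ring)
  have c1 : ∀ {D}, D ≤ Γ → ∀ G : (M →+ M) × M → (M' →+ M') × M' → K,
      ContinuousOn (fun g => G (ρ g, a g) (σ g, b g)) D := fun le G =>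
    ContinuousOn.mono ((continuousOn_iff_continuous_restrict (s := (Γ : Set GQ))).2
      ((ha.loc.prodMk hb.loc).comp fun x => G x.1 x.2).continuous) le
  obtain ⟨z, hz⟩ : ∃ z : GQ → GQ → K, z = fun g h => f (B (a g) (σ g (b h))) := ⟨_, rfl⟩
  have z2 : Z2 cy Γ z := by
    refine ⟨?_, fun g hg h hh j hj => mq_zero.1 ?_⟩
    · have t : ∀ p : GQ × GQ → GQ, Continuous p → (∀ x ∈ (Γ : Set GQ) ×ˢ (Γ : Set GQ), p x ∈ Γ) →
          IsLocallyConstant fun x : ((Γ : Set GQ) ×ˢ (Γ : Set GQ) : Set (GQ × GQ)) =>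
            (a (p x), σ (p x), b (p x)) := fun p c m =>
        ((ha.loc.prodMk hb.loc).comp_continuous
          (f := fun x : ((Γ : Set GQ) ×ˢ (Γ : Set GQ) : Set (GQ × GQ)) => (⟨p x, m x x.2⟩ : Γ))
          (by fun_prop)).comp fun x => (x.1.2, x.2)
      exact hz ▸ continuousOn_iff_continuous_restrict.2 (((t _ continuous_fst fun _ m => m.1).prodMk
        (t _ continuous_snd fun _ m => m.2)).comp fun x => f (B x.1.1 (x.1.2.1 x.2.2.2))).continuous
    · simp only [hz, d3, map_sub, map_add, fe, cf g hg, ha.co g hg h hh, hb.co h hh j hj,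
        hb.mul g hg h hh, AddMonoidHom.add_apply]
      abel
  refine hF ?_
  have key := Rs.rk (n := N + 1) o i z2 l P φ β κ
    (fun x g => w (l x) (τ x) * z g (τ x) - w (l x) (τ x) * z (τ x) g) (fun x => ?_) inj
    (fun p Q ov m => ?_) fun v => ?_
  · rw [← neg_mem_iff, ← Finset.sum_neg_distrib, ← mq_zero, map_sum] at key
    rw [map_sum, ← key]
    refine Finset.sum_congr rfl fun x _ => ?_
    obtain ⟨-, -, -, -, gn, -, t, t'⟩ := hL x
    simp only [hz, map_sub, map_neg, nm, fe, (t _ (inP_le_dec gn.1)).2, t' _ gn.1, map_nsmul,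
      map_zero, smul_zero, zero_sub, neg_neg]
  · obtain ⟨ov, ne, dv, fb, gn, le, t, -⟩ := hL x
    have tρ := fun g (hg : g ∈ Γ ⊓ dec (P x)) => (t g hg.2).1
    have tσ := fun g (hg : g ∈ Γ ⊓ dec (P x)) => (t g hg.2).2
    have := nf o i ov ne (inP_le_dec.trans le)
      (hκ _ ov.1.ne_zero) (fun g hg => Rs.cyc ov ne dv fb hg.2) (z2_mono z2 inf_le_left)
      (fun h hh => ⟨hz ▸ c1 inf_le_left fun x y => f (B x.2 (y.1 (b h))), fun g hg j hj =>
        mq_zero.1 (by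
          simp only [hz, map_sub, map_add, fe, ha.co g hg.1 j hj.1, tρ g hg, tσ g hg, tσ j hj,
            tσ _ (mul_mem hg hj), AddMonoidHom.add_apply]
          abel)⟩)
      (fun g hg => ⟨hz ▸ c1 inf_le_left fun x y => f (B (a g) (σ g y.2)), fun h hh j hj =>
        mq_zero.1 (by
          simp only [hz, map_sub, map_add, fe, hb.co h hh.1 j hj.1, tσ h hh]
          abel)⟩) (fun g h => hz ▸ lv _) gn.1 (hw _ _ _ ov ne gn).2
    rw [inf_eq_right.2 le] at this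
    exact ⟨ov, ne, dv, fb, le, hβ _, hκ _ ov.1.ne_zero, this⟩
  · obtain ⟨s, hs, e | e | ⟨p2, e, e'⟩⟩ := out p Q ov m
    · obtain ⟨x, hx⟩ := e.conj ha hs
      refine ⟨fun h => f (B x (b h)), c1 inf_le_left fun _ y => f (B x y.2), fun g hg j hj =>
        mq_zero.1 ?_⟩
      simp only [hz, d2, map_sub, map_add, fe, cf g hg.1, hx g hg, hb.co g hg.1 j hj.1,
        AddMonoidHom.sub_apply]
      abel
    · obtain ⟨x, hx⟩ := e.conj hb hs
      refine ⟨fun g => -f (B (a g) (σ g x)), c1 inf_le_left fun y y' => -f (B y.2 (y'.1 x)),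
        fun g hg j hj => mq_zero.1 ?_⟩
      simp only [hz, d2, mul_neg, map_neg, map_sub, map_add, fe, cf g hg.1, hx j hj,
        ha.co g hg.1 j hj.1, hb.mul g hg.1 j hj.1, AddMonoidHom.add_apply]
      abel
    · have u := e.conj ha hs
      have u' := e'.conj hb hs
      refine unr2 o i ov p2 (z2_mono z2 inf_le_left) fun g hg j hj t ht => ?_
      simp only [hz, ha.co g hg.1 t ht.1, hb.co j hj.1 t ht.1, hb.mul g hg.1 t ht.1, (u t ht).2,
        (u' t ht).2, (u' t ht).1, map_zero, add_zero, sub_self, and_self]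
      exact zero_mem _
  · rw [cx v]
    exact ⟨fun _ => z 1 1, continuousOn_const, fun g hg j hj => by
      simp [Subgroup.mem_bot.1 hg, Subgroup.mem_bot.1 hj, d2]⟩

end Vale.Agent.P014Y.Rd
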