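import Vale.Agent.P014Y.Rd.St0
import Vale.Agent.P004R.Reg

/-!
# P014Y, route R: the index of the group of units (helper39)
-/

set_option autoImplicit false
set_option linter.all false

open NumberField NumberField.InfinitePlace Module Matrix Set
open NumberField.Units (regulator torsion fundSystem rank)

namespace Vale.Agent.P014Y.Rd

open P027M.M
open P004R.Rg (key ex_fund sum_shift pl pl_ap coe_ua ua_mul card_pl)

namespace Rg

theorem det_blk {ι κ : Type} [Fintype ι] [DecidableEq ι] [Fintype κ] [DecidableEq κ] (π : κ → ι)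
    (L : Matrix ι ι ℝ) (P : Matrix κ ι ℝ) (Q : Matrix κ κ ℝ) :
    (fromBlocks L (L.submatrix id π) P Q).det = L.det * (Q - P.submatrix id π).det := by
  have a := mul_submatrix_one (Equiv.refl ι) π L
  have b := mul_submatrix_one (Equiv.refl ι) π P
  have : fromBlocks L (L.submatrix id π) P Q = fromBlocks L 0 P (Q - P.submatrix id π) *
      fromBlocks 1 ((1 : Matrix ι ι ℝ).submatrix (Equiv.refl ι) π) 0 1 := by
    rw [fromBlocks_multiply, a, b]
    simp
  rw [this, det_mul, det_fromBlocks_zero₁₂, det_fromBlocks_zero₂₁, det_one, det_one, mul_one, mul_one]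

theorem prod_fa (M : ℕ) (f : ℕ → ℂ) :
    ∏ k ∈ Fa M, f k = ∏ j : Fin (2 * M), f (3 * (j / 2) + j % 2 + 1) := by
  rw [Fin.prod_univ_eq_prod_range fun j => f (3 * (j / 2) + j % 2 + 1)]
  refine Finset.prod_nbij' (fun k => 2 * (k / 3) + k % 3 - 1) (fun j => 3 * (j / 2) + j % 2 + 1)
    ?_ ?_ ?_ ?_ ?_ <;> simp only [Fa, Finset.mem_filter, Finset.mem_range] <;> intro a h
  · omega
  · omega
  · omega
  · omega
  · congr 1
    omega

/-- the determinant of the faithful part of a circulant matrix -/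
theorem det_circ {M : ℕ} (M0 : 0 < M) {ζ : ℂ} (hζ : IsPrimitiveRoot ζ (3 * M)) {x : ℕ → ℝ}
    (h : ∀ n, x (n + 3 * M) = x n) :
    |(of fun i j : Fin (2 * M) => x (i + j) - x (i + (j % M + 2 * M))).det| =
      ‖∏ k ∈ Fa M, ∑ i ∈ Finset.range (3 * M), ζ ^ (k * i) * x i‖ := by
  have n1 : ‖ζ‖ = 1 := hζ.norm'_eq_one (by omega)
  have zM : IsPrimitiveRoot (ζ ^ M) 3 := hζ.pow (by omega) (mul_comm _ _)
  set V : Matrix (Fin (2 * M)) (Fin (2 * M)) ℂ :=
    (vandermonde fun k : Fin (2 * M) => ζ ^ (3 * (k / 2) + k % 2 + 1 : ℕ))ᵀ with hV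
  have V0 : V.det ≠ 0 := by
    rw [hV, det_transpose, det_vandermonde_ne_zero_iff]
    exact fun k l e => Fin.ext (by have := hζ.pow_inj (by omega) (by omega) e; omega)
  have E : (of fun i j : Fin (2 * M) => x (i + j) - x (i + (j % M + 2 * M))).map
      Complex.ofRealHom * V = of fun i k : Fin (2 * M) => (∑ i ∈ Finset.range (3 * M),
        ζ ^ ((3 * (k / 2) + k % 2 + 1) * i) * x i) * V.map (starRingEnd ℂ) i k := by
    ext i k
    simp only [mul_apply, map_apply, of_apply, hV, transpose_apply, vandermonde_apply, ← pow_mul]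
    have d := (zM.pow_of_coprime (3 * (k / 2) + k % 2 + 1)
      ((Nat.prime_three.coprime_iff_not_dvd.2 (by omega)).symm)).geom_sum_eq_zero (by norm_num)
    generalize 3 * (k / 2 : ℕ) + k % 2 + 1 = m at d ⊢
    generalize (i : ℕ) = i
    have c : (starRingEnd ℂ) (ζ ^ (m * i : ℕ)) * ζ ^ (m * i : ℕ) = 1 := by
      rw [Complex.conj_mul', norm_pow, n1]; simp
    have s := sum_shift (f := fun n => ζ ^ (m * n) * x n) (N := 3 * M) (fun n => by
      rw [h, mul_add, pow_add, mul_comm _ (3 * M), pow_mul ζ (3 * M), hζ.pow_eq_one, one_pow,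
        mul_one]) i
    rw [← s, Fin.sum_univ_eq_sum_range fun j =>
      Complex.ofRealHom (x (i + j) - x (i + (j % M + 2 * M))) * ζ ^ (m * j),
      show 3 * M = M + M + M by ring, two_mul M, Finset.sum_range_add, Finset.sum_range_add,
      Finset.sum_range_add, ← Finset.sum_add_distrib, ← Finset.sum_add_distrib,
      ← Finset.sum_add_distrib, Finset.sum_mul]
    refine Finset.sum_congr rfl fun j hj => ?_
    rw [Nat.add_mod_left, Nat.mod_eq_of_lt (Finset.mem_range.1 hj), add_comm j]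
    simp only [Finset.sum_range_succ, Finset.sum_range_zero, ← pow_mul, mul_comm M m] at d
    simp only [Complex.ofRealHom_eq_coe, Complex.ofReal_sub, mul_add m, pow_add]
    rw [mul_two, pow_add] at d
    linear_combination (-(ζ ^ (m * j)) * (x (i + j) + ζ ^ (m * M) * x (i + (M + j)) +
      ζ ^ (m * M) * ζ ^ (m * M) * x (i + (M + M + j)))) * c - ζ ^ (m * j) * x (i + (M + M + j)) * d
  have D := congrArg (fun A => ‖det A‖) E
  simp only [det_mul, det_mul_row, norm_mul] at D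
  rw [← RingHom.mapMatrix_apply, ← RingHom.mapMatrix_apply, ← RingHom.map_det, ← RingHom.map_det,
    Complex.norm_conj, mul_left_inj' (norm_ne_zero_iff.2 V0)] at D
  rw [prod_fa, ← D]
  simp

variable {F H : Type} [Field F] [NumberField F] [Field H] [NumberField H] [Algebra F H]
  {σ : H ≃ₐ[ℚ] H} {M : ℕ} (c : Cp F σ M)
include c

theorem M_pos : 0 < M := by obtain ⟨m, h⟩ := c.pow; rw [h]; positivity

theorem ex_pl (w w' : InfinitePlace H) : ∃ i < 3 * M, pl σ w i = w' := by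
  obtain ⟨i, h⟩ := c.inf w w'
  refine ⟨i % (3 * M), Nat.mod_lt _ (by linarith [M_pos c]), InfinitePlace.ext _ _ fun x => ?_⟩
  rw [h, pl_ap, ← pow_eq_pow_mod i c.ord]

theorem pl_F (w : InfinitePlace H) (i k : ℕ) (y : F) :
    pl σ w (i + k * M) (algebraMap F H y) = pl σ w i (algebraMap F H y) := by
  induction k with
  | zero => rw [zero_mul, add_zero]
  | succ k ih => rw [add_mul, one_mul, ← add_assoc, pl_ap, pow_add, AlgEquiv.mul_apply,
      (c.fix _).2 ⟨y, rfl⟩, ← pl_ap, ih]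

theorem pl_m (w : InfinitePlace H) (i : ℕ) (y : F) :
    pl σ w i (algebraMap F H y) = pl σ w (i % M) (algebraMap F H y) := by
  rw [← pl_F c w (i % M) (i / M), Nat.mod_add_div']

theorem bij_H (w : InfinitePlace H) : Function.Bijective
    (Sum.elim (fun j : Fin M => pl σ w (j + 2 * M)) fun j : Fin (2 * M) => pl σ w j) := by
  have := c.cx
  have := isTotallyComplex_of_algebra F H
  refine (Fintype.bijective_iff_surjective_and_card _).2 ⟨fun w' => ?_, ?_⟩
  · obtain ⟨i, hi, rfl⟩ := ex_pl c w w'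
    rcases lt_or_ge i (2 * M) with a | a
    · exact ⟨.inr ⟨i, a⟩, rfl⟩
    · exact ⟨.inl ⟨i - 2 * M, by omega⟩, by simp [Nat.sub_add_cancel a]⟩
  · rw [card_pl H (n := 3 * M) (by rw [c.deg]; ring)]
    simp
    ring

theorem bij_F (w : InfinitePlace H) :
    Function.Bijective fun j : Fin M => (pl σ w j).comap (algebraMap F H) := by
  have := c.cx
  refine (Fintype.bijective_iff_surjective_and_card _).2 ⟨fun v => ?_, ?_⟩
  · obtain ⟨w', rfl⟩ := comap_surjective (K := H) v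
    obtain ⟨i, -, rfl⟩ := ex_pl c w w'
    exact ⟨⟨i % M, Nat.mod_lt _ (M_pos c)⟩, InfinitePlace.ext _ _ fun y => (pl_m c w i y).symm⟩
  · rw [card_pl F c.deg', Fintype.card_fin]

theorem fix_int {x : 𝓞 H} (h : (σ ^ M) x = x) : ∃ a : 𝓞 F, algebraMap (𝓞 F) (𝓞 H) a = x := by
  obtain ⟨y, hy⟩ := (c.fix _).1 h
  exact ⟨⟨y, (isIntegral_algebraMap_iff (algebraMap F H).injective).1 (hy ▸ x.isIntegral_coe)⟩,
    RingOfIntegers.ext hy⟩

theorem fix_unit {v : (𝓞 H)ˣ} (h : ua (σ ^ M) v = v) :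
    v ∈ (Units.map (algebraMap (𝓞 F) (𝓞 H) : 𝓞 F →* 𝓞 H)).range := by
  obtain ⟨a, ha⟩ := fix_int c (x := v) (by rw [← coe_ua, h])
  obtain ⟨b, hb⟩ := fix_int c (x := (v⁻¹ : (𝓞 H)ˣ)) (by rw [← coe_ua, map_inv, h])
  exact ⟨Units.mkOfMulEqOne a b (FaithfulSMul.algebraMap_injective (𝓞 F) (𝓞 H)
    (by rw [map_mul, ha, hb, map_one, v.mul_inv])), Units.ext ha⟩

theorem cu_eq {U : Fin M → (𝓞 F)ˣ} (hU : Subgroup.closure (range U) ⊔ torsion F = ⊤)
    (u : (𝓞 H)ˣ) : Subgroup.closure (range (Sum.elim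
      (fun i => Units.map (algebraMap (𝓞 F) (𝓞 H) : 𝓞 F →* 𝓞 H) (U i))
        fun i : Fin (2 * M) => ua (σ ^ (i : ℕ)) u)) ⊔ torsion H = CU F σ u := by
  refine le_antisymm (sup_le ((Subgroup.closure_le _).2 (range_subset_iff.2 ?_)) fun v hv => ?_) ?_
  · rintro (i | i)
    · exact Subgroup.mem_sup_left ⟨_, rfl⟩
    · exact Subgroup.mem_sup_right (Subgroup.subset_closure ⟨_, rfl⟩)
  · rcases c.tor v hv with rfl | rfl
    · exact one_mem _
    · exact Subgroup.mem_sup_left ⟨-1, Units.ext (by simp)⟩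
  generalize hG : Subgroup.closure _ ⊔ torsion H = G
  have a : (Units.map (algebraMap (𝓞 F) (𝓞 H) : 𝓞 F →* 𝓞 H)).range ≤ G := by
    rw [MonoidHom.range_eq_map, ← hU, Subgroup.map_sup, MonoidHom.map_closure, ← hG]
    refine sup_le_sup (Subgroup.closure_mono ?_) ?_
    · rintro _ ⟨_, ⟨i, rfl⟩, rfl⟩
      exact ⟨.inl i, rfl⟩
    · rintro _ ⟨v, hv, rfl⟩
      exact MonoidHom.isOfFinOrder _ hv
  refine sup_le a ((Subgroup.closure_le _).2 (range_subset_iff.2 fun i => ?_))
  induction i using Nat.strong_induction_on with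
  | _ i ih =>
  rcases lt_or_ge i (2 * M) with b | b
  · exact hG ▸ Subgroup.mem_sup_left (Subgroup.subset_closure ⟨.inr ⟨i, b⟩, rfl⟩)
  · obtain ⟨j, rfl⟩ := Nat.exists_eq_add_of_le b
    have M0 := M_pos c
    refine (G.mul_mem_cancel_right (mul_mem (ih (M + j) (by omega)) (ih j (by omega)))).1
      (a (fix_unit c ?_))
    rw [map_mul, map_mul, ← ua_mul, ← ua_mul, ← ua_mul, ← pow_add, ← pow_add, ← pow_add,
      show M + (2 * M + j) = 3 * M + j by ring, show M + (M + j) = 2 * M + j by ring,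
      pow_add σ (3 * M), c.ord, one_mul, mul_comm, mul_assoc]

end Rg

open Rg in
theorem reg : REG := by
  intro F H _ _ _ _ _ σ M c w u
  have := c.cx
  have := isTotallyComplex_of_algebra F H
  have M0 := M_pos c
  obtain ⟨U, U0, hU⟩ := ex_fund F (Equiv.ofBijective _ (bij_F c w)) ⟨0, M0⟩
  have a := key F (Equiv.ofBijective _ (bij_F c w)) _ U U0
  have b := key H (Equiv.ofBijective _ (bij_H c w)) (.inl ⟨0, M0⟩) (Sum.elim
    (fun i => Units.map (algebraMap (𝓞 F) (𝓞 H) : 𝓞 F →* 𝓞 H) (U i))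
      fun i : Fin (2 * M) => ua (σ ^ (i : ℕ)) u) (by simp [U0])
  have d := det_circ M0 (Complex.isPrimitiveRoot_exp (3 * M) (by omega))
    (x := fun n => 2 * Real.log (w ((σ ^ n) (u : 𝓞 H)))) fun n => by rw [pow_add, c.ord, mul_one]
  rw [hU, c.deg', Subgroup.index_top] at a
  rw [cu_eq c hU, c.deg] at b
  generalize hL : (of fun i j : Fin M => _ : Matrix _ _ ℝ) = L at a
  generalize hA : (of fun i j : Fin M ⊕ Fin (2 * M) => _ : Matrix _ _ ℝ) = A at b
  have e : A = fromBlocks L (L.submatrix id fun j : Fin (2 * M) => ⟨j % M, Nat.mod_lt _ M0⟩)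
      (of fun (i : Fin (2 * M)) (j : Fin M) =>
        2 * Real.log (w ((σ ^ (i + (j + 2 * M) : ℕ)) (u : 𝓞 H))))
      (of fun i j : Fin (2 * M) => 2 * Real.log (w ((σ ^ (i + j : ℕ)) (u : 𝓞 H)))) := by
    rw [← hA, ← hL]
    ext (i | i) (j | j)
    · simp only [of_apply, fromBlocks_apply₁₁, IsTotallyComplex.mult_eq, Sum.inl.injEq]
      exact congrArg (fun t => ite _ _ (_ * Real.log t)) (pl_F c w j 2 (U i : 𝓞 F))
    · simp only [of_apply, fromBlocks_apply₁₂, IsTotallyComplex.mult_eq, Sum.inl.injEq,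
        submatrix_apply]
      exact congrArg (fun t => ite _ _ (_ * Real.log t)) (pl_m c w j (U i : 𝓞 F))
    · simp only [of_apply, fromBlocks_apply₂₁, IsTotallyComplex.mult_eq, reduceCtorEq, if_false,
        add_comm (i : ℕ), pow_add σ (j + 2 * M)]; rfl
    · simp only [of_apply, fromBlocks_apply₂₂, IsTotallyComplex.mult_eq, reduceCtorEq, if_false]
      rw [add_comm, pow_add]; rfl
  have f : ∀ k : ℕ, Lg σ M w (u : 𝓞 H) k = ∑ i ∈ Finset.range (3 * M),
      Complex.exp (2 * Real.pi * Complex.I / (3 * M : ℕ)) ^ (k * i) *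
        (2 * Real.log (w ((σ ^ i) (u : 𝓞 H))) : ℝ) := fun k => Finset.sum_congr rfl fun i _ => by
    rw [ze, ← Complex.exp_nat_mul]
    congr 2; push_cast; ring
  rw [e, det_blk, abs_mul, ← a] at b
  simp only [f]
  rw [← d]
  refine mul_left_cancel₀ (show (2 * M : ℝ) ≠ 0 by positivity) ?_
  push_cast at b
  calc _ = 6 * M * ((CU F σ u).index * regulator H : ℝ) := by ring
    _ = _ := by rw [b, one_mul, mul_assoc]; rfl

end Vale.Agent.P014Y.Rd
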