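import Vale.Agent.P014Y.Rd.St2
import Vale.Agent.P004R.Shf

/-!
# P014Y, route R: the cost of the depletion, Eisenstein congruences (rows SHF, CSG)
-/

set_option autoImplicit false
set_option linter.all false

open NumberField Polynomial

noncomputable section

namespace Vale.Agent.P014Y.Rd

open Vale.Agent.P022 P004K
open Vale.Agent.P022E.GW (Ov)
open Vale.Agent.P022K.G2 (Tv)
open P004R.Sf (val_add conj sum_tr Th Ao Zo lf lf_coe vn_iff)

namespace Sf

variable {k : Type} [CommRing k] {Γ U : Subgroup GQ} {R : Finset GQ}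

theorem pow3 (h3 : (3 : k) = 0) (y : k) (n : ℕ) : (1 + y) ^ 3 ^ n = 1 + y ^ 3 ^ n := by
  induction n with
  | zero => simp
  | succ n ih => rw [pow_succ, pow_mul, ih, pow_succ, pow_mul]; linear_combination (y ^ 3 ^ n + (y ^ 3 ^ n) ^ 2) * h3

theorem exp2 (y : k) (n : ℕ) : ∃ v, (1 + y) ^ n = 1 + y * (n + y * v) := by
  induction n with
  | zero => exact ⟨0, by simp⟩
  | succ n ih =>
    obtain ⟨v, h⟩ := ih
    exact ⟨n + v + y * v, by rw [pow_succ, h]; push_cast; ring⟩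

theorem sq1 (h3 : (3 : k) = 0) {n : ℕ} (h : ¬ 3 ∣ n) : (n : k) * n = 1 := by
  obtain ⟨j, rfl | rfl⟩ : ∃ j, n = 3 * j + 1 ∨ n = 3 * j + 2 := ⟨n / 3, by omega⟩ <;> push_cast
  · linear_combination (3 * j ^ 2 + 2 * j) * h3
  · linear_combination (3 * j ^ 2 + 4 * j + 1) * h3

theorem cancel {l r : ℕ} {w v f : k[X]} (u : w * w = 1) (h : X ^ (l + r) ∣ X ^ r * (w + X * v) * f) :
    X ^ l ∣ f := by
  rw [pow_add, mul_comm, mul_assoc] at h
  obtain ⟨c, hc⟩ := h
  rw [mul_assoc] at hc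
  exact IsCoprime.dvd_of_dvd_mul_left (IsCoprime.pow_left ⟨-(v * w), w, by linear_combination u⟩)
    ⟨c, (monic_X_pow r).isRegular.left hc⟩

variable (h3 : (3 : k) = 0) {m : ℕ} {e : GQ → ZMod (3 * 3 ^ m)} (T : Tv Γ U R) (hU : U ≤ Γ)
  (hc : ∀ g ∈ Γ, ∀ g' ∈ Γ, g * g' * g⁻¹ * g'⁻¹ ∈ U)
  (ha : ∀ g ∈ Γ, ∀ g' ∈ Γ, e (g * g') = e g + e g') (h0 : ∀ g ∈ U, e g = 0)

include h3 T hU hc ha h0

theorem step {l r : ℕ} {f : GQ → k} (hf : ∀ g ∈ Γ, ∀ u ∈ U, f (g * u) = f g) {ψ : GQ} (hψ : ψ ∈ Γ)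
    {a : k} {w v : k[X]} (u : w * w = 1) (hv : (1 + X) ^ (e ψ).val - C a = X ^ r * (w + X * v))
    (hl : l + r ≤ 3 * 3 ^ m) (h : X ^ (l + r) ∣ Th R e fun g => f g - a * f (g * ψ)) :
    X ^ l ∣ Th R e f := by
  have p3 : (3 : k[X]) = 0 := by rw [← map_ofNat C, h3, map_zero]
  refine cancel (r := r) (v := v) u ?_
  rw [← hv, ← Ideal.mem_span_singleton, ← Ideal.Quotient.eq_zero_iff_mem]
  rw [← Ideal.mem_span_singleton, ← Ideal.Quotient.eq_zero_iff_mem] at h
  set q := Ideal.Quotient.mk (Ideal.span {(X : k[X]) ^ (l + r)})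
  have z : q (1 + X) ^ (3 * 3 ^ m) = 1 := by
    rw [← map_pow, ← pow_succ', pow3 p3, map_add, map_one, pow_succ' 3,
      Ideal.Quotient.eq_zero_iff_mem.2 (Ideal.mem_span_singleton.2 (pow_dvd_pow _ hl)), add_zero]
  have s := sum_tr (F := fun g => q (1 + X) ^ (e g).val * q (C (f g))) T hU hc
    (fun g hg u hu => by rw [ha g hg u (hU hu), h0 u hu, add_zero, hf g hg u hu]) hψ
  have s' : q (1 + X) ^ (e ψ).val * q (Th R e fun g => f (g * ψ)) = q (Th R e f) := by
    simp only [Th, map_sum, map_mul, map_pow, Finset.mul_sum]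
    refine (Finset.sum_congr rfl fun g hg => ?_).trans s
    rw [ha g (T.mem g hg) _ hψ, val_add z]
    ring
  rw [show (Th R e fun g => f g - a * f (g * ψ)) = Th R e f - C a * Th R e fun g => f (g * ψ) by
    simp only [Th, Finset.mul_sum, ← Finset.sum_sub_distrib, map_sub, map_mul]
    exact Finset.sum_congr rfl fun g _ => by ring, map_sub, map_mul] at h
  rw [map_mul, map_sub, map_pow]
  linear_combination q (1 + X) ^ (e ψ).val * h + q (C a) * s'

/-- one depletion -/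
theorem step2 {l p : ℕ} {f : GQ → k} (hf : ∀ g ∈ Γ, ∀ u ∈ U, f (g * u) = f g) {ψ : GQ} (hψ : ψ ∈ Γ)
    (hu : IsUnit (e ψ)) (hp : ¬ 3 ∣ p) (hl : l + 1 + (if p % 3 = 1 then 1 else 0) ≤ 3 * 3 ^ m)
    (h : X ^ (l + 1 + if p % 3 = 1 then 1 else 0) ∣
      Th R e fun g => f g - (1 + p) * f (g * ψ) + p * f (g * ψ ^ 2)) : X ^ l ∣ Th R e f := by
  have p3 : (3 : k[X]) = 0 := by rw [← map_ofNat C, h3, map_zero]
  obtain ⟨v, hv⟩ := exp2 (X : k[X]) (e ψ).val
  have n3 := sq1 p3 (n := (e ψ).val) (Nat.prime_three.coprime_iff_not_dvd.1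
    (Nat.Coprime.coprime_mul_right_right ((ZMod.isUnit_iff_coprime _ _).1
      (by rwa [ZMod.natCast_zmod_val]))).symm)
  have e1 : (1 + X) ^ (e ψ).val - C (1 : k) = X ^ 1 * (((e ψ).val : k[X]) + X * v) := by
    rw [hv, map_one]; ring
  have f1 : ∀ g ∈ Γ, ∀ u ∈ U, f (g * u) - 1 * f (g * u * ψ) = f g - 1 * f (g * ψ) := fun g a u b => by
    rw [hf g a u b, ← hf _ (mul_mem a hψ) _ (conj hU hc (inv_mem hψ) b)]
    simp only [mul_assoc, mul_inv_cancel_left, inv_inv]
  rw [show (fun g => f g - (1 + p) * f (g * ψ) + p * f (g * ψ ^ 2)) = fun g =>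
    (f g - 1 * f (g * ψ)) - (p : k) * (f (g * ψ) - 1 * f (g * ψ * ψ)) from funext fun g => by
      rw [pow_two, ← mul_assoc]; ring] at h
  refine step h3 T hU hc ha h0 hf hψ n3 e1 (by omega) ?_
  obtain ⟨j, hj⟩ : ∃ j, p = 3 * j + p % 3 := ⟨p / 3, by omega⟩
  split_ifs at h hl with c
  · refine step h3 T hU hc ha h0 f1 hψ n3 (v := v) ?_ hl h
    rwa [show (p : k) = 1 by rw [hj, c]; push_cast; rw [h3]; ring]
  · refine step (r := 0) (w := -1) (v := ((e ψ).val : k[X]) + X * v) h3 T hU hc ha h0 f1 hψ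
      (by ring) ?_ hl h
    rw [show (p : k) = 2 by rw [hj, show p % 3 = 2 by omega]; push_cast; rw [h3]; ring, hv, map_ofNat]
    ring

end Sf

theorem cs_cons (p : ℕ) (L : List ℕ) : cs (p :: L) = cs L + 1 + if p % 3 = 1 then 1 else 0 := by
  simp only [cs, List.filter_cons, List.length_cons, decide_eq_true_eq]
  split_ifs <;> simp <;> ring

open Sf in
/-- **row SHF** -/
theorem shf : SHF := by
  intro Γ U R m e P h φ L l T hU hc ha h0 o hh hL
  have := o.2.1
  have G : ∀ L : List ℕ, (∀ p ∈ L, φ p ∈ Γ) → ∀ g ∈ Γ, P004K.Ip P (dpl φ h L g) ∧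
      ∀ u ∈ U, dpl φ h L (g * u) = dpl φ h L g := fun L => by
    induction L with
    | nil => exact fun _ => hh
    | cons p L ih =>
      intro k g hg
      have i := ih fun q m => k q (List.mem_cons_of_mem _ m)
      have p1 := k p List.mem_cons_self
      have p2 := pow_mem p1 2
      refine ⟨(Ao P).add_mem ((Ao P).sub_mem (i g hg).1 ((Ao P).mul_mem
        (add_mem (one_mem _) (natCast_mem _ p)) (i _ (mul_mem hg p1)).1))
        ((Ao P).mul_mem (natCast_mem _ p) (i _ (mul_mem hg p2)).1), fun u hu => ?_⟩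
      have c1 := (i _ (mul_mem hg p1)).2 _ (conj hU hc (inv_mem p1) hu)
      have c2 := (i _ (mul_mem hg p2)).2 _ (conj hU hc (inv_mem p2) hu)
      simp only [dpl]
      rw [(i g hg).2 u hu, ← c1, ← c2]
      simp only [mul_assoc, mul_inv_cancel_left, inv_inv]
  have h3 : (3 : Ao P ⧸ Zo P) = 0 := by
    rw [← map_ofNat (Ideal.Quotient.mk (Zo P)), Ideal.Quotient.eq_zero_iff_mem]
    exact ⟨1, 3, (Ideal.ne_top_iff_one P).1 this.ne_top, by simpa using o.2.2, by simp; rfl⟩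
  induction L with
  | nil => exact fun _ => id
  | cons p L ih =>
    intro hl H
    have k := fun q m => hL q (List.mem_cons_of_mem _ m)
    have i := G L fun q m => (k q m).2.1
    obtain ⟨n, p1, u⟩ := hL p List.mem_cons_self
    rw [cs_cons, ← add_assoc, ← add_assoc] at hl H
    refine ih k (by omega) ((vn_iff fun g hg => (i g (T.mem g hg)).1).2
      (step2 h3 T hU hc ha h0 (fun g hg u hu => by rw [(i g hg).2 u hu]) p1 u n hl ?_))
    convert (vn_iff fun g hg => (G _ (fun q m => (hL q m).2.1) g (T.mem g hg)).1).1 H using 1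
    refine Finset.sum_congr rfl fun g hg => congrArg (_ * C ·) ?_
    have a := T.mem g hg
    unfold P004R.Sf.rs
    beta_reduce
    rw [← map_natCast (Ideal.Quotient.mk (Zo P)), ← map_one (Ideal.Quotient.mk (Zo P)),
      ← map_add, ← map_mul, ← map_mul, ← map_sub, ← map_add]
    exact congrArg _ (Subtype.ext (by
      rw [lf_coe (G _ (fun q m => (hL q m).2.1) g a).1]
      push_cast
      rw [lf_coe (i g a).1, lf_coe (i _ (mul_mem a p1)).1, lf_coe (i _ (mul_mem a (pow_mem p1 2))).1]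
      rfl))

open ArithmeticFunction in
theorem Sf.sig {p : ℕ} (hp : p.Prime) {m : ℕ} (h : m ≠ 0) :
    sigma 1 (p * m) + (if p ∣ m then p * sigma 1 (m / p) else 0) = (1 + p) * sigma 1 m := by
  obtain ⟨k, r, hr, rfl⟩ := Nat.exists_eq_pow_mul_and_not_dvd h p hp.ne_one
  have c i : sigma 1 (p ^ i * r) = (∑ j ∈ Finset.range (i + 1), p ^ j) * sigma 1 r := by
    rw [isMultiplicative_sigma.map_mul_of_coprime ((hp.coprime_iff_not_dvd.2 hr).pow_left i),
      sigma_one_apply_prime_pow hp]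
  rw [← mul_assoc, ← pow_succ', c, c]
  cases k with
  | zero => simp [hr, Finset.sum_range_succ]
  | succ k =>
    rw [if_pos ⟨p ^ k * r, by ring⟩, pow_succ', mul_assoc, Nat.mul_div_cancel_left _ hp.pos, c,
      Finset.sum_range_succ _ (k + 1 + 1), Finset.sum_range_succ _ (k + 1)]
    ring

/-- **row CSG** -/
theorem csg : CSG := fun N G a S rn h hS n hn => by
  induction n using Nat.strong_induction_on with
  | _ n ih =>
    rcases eq_or_ne n 1 with rfl | n1
    · simp [rn.one]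
    rcases eq_or_ne n 0 with rfl | n0
    · simp [rn.zero]
    obtain ⟨p, hp, m, rfl⟩ := Nat.exists_prime_and_dvd n1
    have m0 := right_ne_zero_of_mul n0
    have cm : m.Coprime S.prod := Nat.Coprime.coprime_mul_left hn
    obtain ⟨k1, s, k2⟩ := h p hp fun k =>
      hp.coprime_iff_not_dvd.1 (Nat.Coprime.coprime_mul_right hn) (List.dvd_prod k)
    have lt : m < p * m := lt_mul_of_one_lt_left (Nat.pos_of_ne_zero m0) hp.one_lt
    obtain ⟨t, k3⟩ := ih m lt cm
    have e1 := rn.te p hp k1 m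
    have e2 := congrArg (Nat.cast : ℕ → ℤ) (Sf.sig hp m0)
    beta_reduce at e1
    split_ifs at e1 e2 with d
    · obtain ⟨u, k4⟩ := ih (m / p) ((Nat.div_le_self _ _).trans_lt lt)
        (cm.coprime_dvd_left (Nat.div_dvd_of_dvd d))
      have e3 : a (p * m) + p * a (m / p) = a p * a m := by exact_mod_cast e1
      push_cast at e2
      exact ⟨s * a m + (1 + p) * t - p * u, by
        linear_combination e3 - e2 + a m * k2 + (1 + p) * k3 - p * k4⟩
    · have e3 : a (p * m) + 0 = a p * a m := by exact_mod_cast e1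
      push_cast at e2
      exact ⟨s * a m + (1 + p) * t, by linear_combination e3 - e2 + a m * k2 + (1 + p) * k3⟩

end Vale.Agent.P014Y.Rd
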