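import Vale.Agent.P014Y.Rd.St2
import Vale.Agent.P004R.Shp
import Vale.Agent.P022K.G2.Tam

/-!
# P014Y, route R, row SHP: Kummer cocycles and induced cocycles
-/

set_option autoImplicit false
set_option linter.all false

open NumberField IsDedekindDomain
open scoped Pointwise

noncomputable section

namespace Vale.Agent.P014Y.Rd.Sp

open Vale.Agent.P022 (Qb GQ GK below)
open Vale.Agent.P027M.S (Inert)
open Vale.Agent.P022D.W (dec)
open Vale.Agent.P022E.GW (Ov)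
open Vale.Agent.P022E.GW.Kc (ex_below)
open Vale.Agent.P022K.G2
open P004R.Sp (e_one e_inv e_pow ex_sec tw_mem)

section grp

variable {G R : Type} [Group G] [CommRing R] {N : ℕ} [NeZero N] (e : G → ZMod N) (s : ZMod N → G)
  (t : ZMod N → R) (o χ : G → R)

/-- the induced cocycle -/
def ind (g : G) : R := ∑ i, t (i + e g) * (o (s (i + e g)) * χ ((s (i + e g))⁻¹ * g * s i))

variable {e s t o χ} {Γ : Subgroup G} (he : ∀ g ∈ Γ, ∀ h ∈ Γ, e (g * h) = e g + e h)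
  (hs : ∀ i, s i ∈ Γ ∧ e (s i) = i)
include he hs

theorem ind_mul (ht : ∀ a b, t (a + b) = t a * t b) (ho : ∀ g h, o (g * h) = o g * o h)
    (hχ : ∀ g ∈ Γ, e g = 0 → ∀ h ∈ Γ, e h = 0 → χ (g * h) = χ g + o g * χ h) {g h : G} (hg : g ∈ Γ)
    (hh : h ∈ Γ) :
    ind e s t o χ (g * h) = ind e s t o χ g + o g * t (e g) * ind e s t o χ h := by
  simp only [ind, Finset.mul_sum]
  rw [← Equiv.sum_comp (Equiv.addRight (e h))
    fun i => t (i + e g) * (o (s (i + e g)) * χ ((s (i + e g))⁻¹ * g * s i)),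
    ← Finset.sum_add_distrib]
  refine Finset.sum_congr rfl fun i _ => ?_
  have a := tw_mem he hs hg (i + e h)
  have b := tw_mem he hs hh i
  have c := hχ _ a.1 a.2 _ b.1 b.2
  have d : o (s (i + e h + e g)) * o ((s (i + e h + e g))⁻¹ * g * s (i + e h)) =
      o g * o (s (i + e h)) := by
    rw [← ho, ← ho]
    congr 1
    group
  rw [show (s (i + e h + e g))⁻¹ * g * s (i + e h) * ((s (i + e h))⁻¹ * h * s i) =
    (s (i + e h + e g))⁻¹ * (g * h) * s i by group] at c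
  rw [he g hg h hh, add_comm (e g), ← add_assoc, Equiv.coe_addRight, c, ht (i + e h)]
  linear_combination t (i + e h) * t (e g) * χ ((s (i + e h))⁻¹ * h * s i) * d

end grp

section pol

open Polynomial

variable {N : ℕ} [NeZero N] {R : Type} [CommRing R] {ρ : PowerSeries (ZMod 3) →+* R} (hρ : Tq ρ N)
include hρ

theorem indep (c : ZMod N → ZMod 3)
    (h : ∑ i : ZMod N, (1 + ρ PowerSeries.X) ^ i.val * ρ (PowerSeries.C (c i)) = 0) : c 0 = 0 := by
  have k : X ^ N ∣ ∑ i : ZMod N, (1 + X) ^ i.val * C (c i) := X_pow_dvd_iff.2 fun d hd => by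
    rw [← coeff_coe]
    refine PowerSeries.X_pow_dvd_iff.1 ((hρ.ker _).1 ?_) d hd
    rw [← coeToPowerSeries.ringHom_apply, ← h]
    simp [map_sum]
  have := congrArg (eval (-1)) (eq_zero_of_dvd_of_degree_lt k (by
    rw [degree_X_pow]
    refine (degree_sum_le _ _).trans_lt ((Finset.sup_lt_iff (WithBot.bot_lt_coe _)).2 fun i _ => ?_)
    refine lt_of_le_of_lt ?_ (Nat.cast_lt.2 i.val_lt)
    compute_degree!))
  rw [eval_finsetSum, Finset.sum_eq_single 0 (fun i _ h => by simp [h]) (by simp)] at this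
  simpa using this

theorem t_add {m : ℕ} (hN : N = 3 ^ m) (a b : ZMod N) : (1 + ρ PowerSeries.X) ^ (a + b).val =
    (1 + ρ PowerSeries.X) ^ a.val * (1 + ρ PowerSeries.X) ^ b.val := by
  have : CharP (PowerSeries (ZMod 3)) 3 := charP_of_injective_ringHom PowerSeries.C_injective 3
  rw [← pow_add, ZMod.val_add, ← pow_eq_pow_mod]
  rw [← map_one ρ, ← map_add, ← map_pow, hN, add_pow_char_pow, one_pow, map_add,
    (hρ.ker (_ ^ _)).2 (by rw [← hN]), add_zero]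

end pol

open Classical in
/-- the Kummer cocycle of a root -/
def kb (β : Qb) (g : GQ) : ZMod 3 :=
  if h : ∃ k : ZMod 3, g β = zt 3 ^ k.val * β then h.choose else 0

theorem kb_spec {β : Qb} {g : GQ} (h : g (β ^ 3) = β ^ 3) : g β = zt 3 ^ (kb β g).val * β := by
  have k : ∃ k : ZMod 3, g β = zt 3 ^ k.val * β := ex_log (by rw [← map_pow, h])
  rw [kb, dif_pos k]
  exact k.choose_spec

theorem kb_coc {β : Qb} (h0 : β ≠ 0) {g h : GQ} (hg : g (β ^ 3) = β ^ 3) (hh : h (β ^ 3) = β ^ 3) :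
    kb β (g * h) = kb β g + oz 3 g * kb β h := by
  refine pw_inj (mul_right_cancel₀ h0 ?_)
  rw [← kb_spec (by rw [AlgEquiv.mul_apply, hh, hg]), AlgEquiv.mul_apply, kb_spec hh, map_mul,
    oz_pw, kb_spec hg, pw_add]
  ring

theorem kb_zero {β : Qb} (h0 : β ≠ 0) {g : GQ} (h : g β = β) : kb β g = 0 := by
  refine pw_inj (mul_right_cancel₀ h0 ?_)
  rw [← kb_spec (by rw [map_pow, h]), h, ZMod.val_zero, pow_zero, one_mul]

/-- elements which are cubes modulo `27` are local cubes -/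
theorem cube {P : Ideal (𝓞 Qb)} (hP : P.IsPrime) (h3 : (3 : 𝓞 Qb) ∈ P) {a y w : 𝓞 Qb}
    (hy : y ∉ P) (h : a = y ^ 3 + 27 * w) :
    ∃ β : Qb, β ^ 3 = a ∧ ∀ g ∈ dec P, g • a = a → g • y = y → g β = β := by
  have h' : (a : Qb) = y ^ 3 + 27 * w := congrArg Subtype.val h
  have z3 : zt 3 ^ 3 = 1 := zt_pow
  have z2 : zt 3 ^ 2 + zt 3 + 1 = 0 := mul_left_cancel₀ (sub_ne_zero.2 ((zt_prim 3).ne_one
    (by norm_num))) (by linear_combination z3)
  have r : ∀ β : Qb, β ^ 3 = a → (zt 3 * β) ^ 3 = a := fun β e => by rw [mul_pow, z3, one_mul, e]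
  have k : ∀ β : Qb, β ^ 3 = a → ∃ t : 𝓞 Qb, (t : Qb) = (β - y) ^ 2 / 3 ∧ (t ∈ P ∨ t + y ^ 2 ∈ P) :=
    fun β e => by
      have k : ((β - y) ^ 2 / 3) * ((β - y) ^ 2 / 3 + y ^ 2) ^ 2 =
          3 * (3 * w - y * ((β - y) ^ 2 / 3)) ^ 2 := by
        linear_combination ((β - y) ^ 3 + 3 * y ^ 2 * (β - y) + 27 * w - 3 * y * (β - y) ^ 2) / 27 *
          (e.trans h')
      obtain ⟨t, ht⟩ : ∃ t : 𝓞 Qb, (t : Qb) = (β - y) ^ 2 / 3 := by
        generalize (β - y) ^ 2 / 3 = z at k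
        refine ⟨⟨z, isIntegral_trans (A := 𝓞 Qb) z
          ⟨Polynomial.X ^ 3 + (Polynomial.C (-y ^ 2) * Polynomial.X ^ 2 +
            Polynomial.C (y ^ 4 + 18 * w * y) * Polynomial.X - Polynomial.C (27 * w ^ 2)),
          by monicity!, ?_⟩⟩, rfl⟩
        simp only [Polynomial.eval₂_add, Polynomial.eval₂_sub, Polynomial.eval₂_mul,
          Polynomial.eval₂_pow, Polynomial.eval₂_X, Polynomial.eval₂_C]
        simp only [map_mul, map_ofNat, map_neg, map_pow, map_add]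
        linear_combination k
      have e1 : t * (t + y ^ 2) ^ 2 = 3 * (3 * w - y * t) ^ 2 := RingOfIntegers.ext (by
        show (t : Qb) * (t + y ^ 2) ^ 2 = 3 * (3 * w - y * t) ^ 2
        rw [ht, k])
      exact ⟨t, ht, (hP.mem_or_mem (e1 ▸ P.mul_mem_right _ h3)).imp_right (hP.mem_of_pow_mem 2)⟩
  have uq : ∀ (β : Qb) (t t' : 𝓞 Qb), β ^ 3 = a → (t : Qb) = (β - y) ^ 2 / 3 →
      (t' : Qb) = (zt 3 * β - y) ^ 2 / 3 → t ∈ P → t' ∈ P → False := fun β t t' e e1 e2 m m' => by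
    obtain ⟨u, e3, m3⟩ := k _ (r _ (r _ e))
    have s : y ^ 2 = t + t' + u := RingOfIntegers.ext (by
      show (y : Qb) ^ 2 = t + t' + u
      rw [e1, e2, e3]
      linear_combination (2 * β * y - β ^ 2 * (zt 3 ^ 2 - zt 3 + 1)) / 3 * z2)
    refine hy (hP.mem_of_pow_mem 2 (m3.elim (fun m3 => s ▸ P.add_mem (P.add_mem m m') m3)
      fun m3 => ?_))
    have := P.sub_mem (P.mul_mem_right (y ^ 2) h3) (P.add_mem (P.add_mem m m') m3)
    rwa [show 3 * y ^ 2 - (t + t' + (u + y ^ 2)) = y ^ 2 by linear_combination s] at this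
  obtain ⟨β, t, e, e1, m⟩ : ∃ (β : Qb) (t : 𝓞 Qb), β ^ 3 = a ∧ (t : Qb) = (β - y) ^ 2 / 3 ∧ t ∈ P := by
    have e := rt_pow 3 (a : Qb)
    generalize rt 3 (a : Qb) = β at e
    obtain ⟨t, e1, -⟩ := k _ e
    obtain ⟨t', e2, -⟩ := k _ (r _ e)
    obtain ⟨u, e3, -⟩ := k _ (r _ (r _ e))
    have p : (β - y) * (zt 3 * β - y) * (zt 3 * (zt 3 * β) - y) = 27 * w := by
      linear_combination e.trans h' + β ^ 3 * z3 + (β * y ^ 2 - β ^ 2 * y * zt 3) * z2
    have s : t * t' * u = 3 * (9 * w ^ 2) := RingOfIntegers.ext (by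
      show (t : Qb) * t' * u = 3 * (9 * w ^ 2)
      rw [e1, e2, e3]
      linear_combination ((β - y) * (zt 3 * β - y) * (zt 3 * (zt 3 * β) - y) + 27 * w) / 27 * p)
    rcases hP.mem_or_mem (s ▸ P.mul_mem_right _ h3) with m | m
    · exact (hP.mem_or_mem m).elim (fun m => ⟨_, t, e, e1, m⟩) fun m => ⟨_, t', r _ e, e2, m⟩
    · exact ⟨_, u, r _ (r _ e), e3, m⟩
  refine ⟨β, e, fun g hg ga gy => ?_⟩
  have e2 : ((g • t : 𝓞 Qb) : Qb) = (g β - y) ^ 2 / 3 := by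
    show g (t : Qb) = _
    rw [e1, map_div₀, map_pow, map_sub, show g (y : Qb) = y from congrArg Subtype.val gy, map_ofNat]
  have m2 : g • t ∈ P := (hg t).2 m
  have e3 := kb_spec (β := β) (g := g) (by rw [e]; exact congrArg Subtype.val ga)
  have lt := (kb β g).val_lt
  generalize (kb β g).val = n at e3 lt
  interval_cases n
  · rw [e3, pow_zero, one_mul]
  · exact (uq β t _ e e1 (by rw [e2, e3, pow_one]) m m2).elim
  · exact (uq (g β) _ t (by rw [e3, sq, mul_assoc]; exact r _ (r _ e)) e2 (by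
      rw [e1, e3, ← mul_assoc, ← pow_succ', z3, one_mul]) m2 m).elim

variable {H : Type} [Field H] [NumberField H] (j : H →+* Qb)

theorem ad_ne {𝔪 J : Ideal (𝓞 H)} {a : 𝓞 H} (h : Ad 𝔪 J a) {v : Ideal (𝓞 H)} (hv : v.IsPrime)
    (hm : 𝔪 ≤ v) : a ≠ 0 := by
  rintro rfl
  obtain ⟨⟨y, y1, y2⟩, -⟩ := h
  rw [zero_sub, neg_mem_iff] at y2
  exact hv.ne_top (top_le_iff.1 (y1.ge.trans (sup_le
    ((Ideal.span_singleton_le_iff_mem _).2 (hv.mem_of_pow_mem 3 (hm y2))) hm)))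

theorem loc {P : Ideal (𝓞 Qb)} (hP : Ov 3 P) {v v' : Ideal (𝓞 H)} (hv : below j P = v)
    (hm : v * v' = Ideal.span {3}) (hc : v ⊔ v' = ⊤) {J : Ideal (𝓞 H)} {a : 𝓞 H}
    (h : Ad (v ^ 3) J a) : ∃ β : Qb, β ^ 3 = j a ∧ ∀ g ∈ GK j, g ∈ dec P → g β = β := by
  obtain ⟨⟨y, y1, y2⟩, -⟩ := h
  have pv : v.IsPrime := hv ▸ Ideal.IsPrime.comap _ (hK := hP.2.1)
  obtain ⟨s, s1, s2⟩ : ∃ s ∈ v', s ∉ v := SetLike.not_le_iff_exists.1 fun k =>
    pv.ne_top (by rw [← hc, sup_eq_left.2 k])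
  obtain ⟨w, hw⟩ : (27 : 𝓞 H) ∣ s ^ 3 * (a - y ^ 3) := by
    rw [← Ideal.mem_span_singleton, show (27 : 𝓞 H) = 3 ^ 3 by norm_num,
      ← Ideal.span_singleton_pow, ← hm, mul_pow, mul_comm (v ^ 3)]
    exact Ideal.mul_mem_mul (Ideal.pow_mem_pow s1 3) y2
  have s0 : j s ≠ 0 := (map_ne_zero j).2 fun k => s2 (by
    rw [RingOfIntegers.coe_eq_zero_iff.1 k]; exact v.zero_mem)
  have y3 : y ∉ v := fun k => pv.ne_top (top_le_iff.1 (y1.ge.trans (sup_le
    ((Ideal.span_singleton_le_iff_mem _).2 k) (Ideal.pow_le_self (by norm_num)))))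
  have f : ∀ g ∈ GK j, ∀ x : 𝓞 H,
      g • RingOfIntegers.mapRingHom j x = RingOfIntegers.mapRingHom j x :=
    fun g hg x => RingOfIntegers.ext (hg x)
  obtain ⟨β, e, hβ⟩ := cube hP.2.1 (by exact_mod_cast hP.2.2)
    (a := RingOfIntegers.mapRingHom j (s ^ 3 * a)) (y := RingOfIntegers.mapRingHom j (s * y))
    (w := RingOfIntegers.mapRingHom j w)
    (fun k => (pv.mem_or_mem (hv.le k)).elim s2 y3) (by
      rw [← map_pow, ← map_ofNat (RingOfIntegers.mapRingHom j) 27, ← map_mul, ← map_add]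
      congr 1
      linear_combination hw)
  refine ⟨β / j s, ?_, fun g hg hd => by rw [map_div₀, hβ g hd (f g hg _) (f g hg _), hg]⟩
  rw [div_pow, e, div_eq_iff (pow_ne_zero 3 s0), ← map_pow, ← map_mul, mul_comm]
  rfl

theorem unr {l : ℕ} {Q : Ideal (𝓞 Qb)} (hQ : Ov l Q) (h3 : l ≠ 3) {𝔪 J : Ideal (𝓞 H)} {a : 𝓞 H}
    (h : Ad 𝔪 J a) (h0 : a ≠ 0) (hJ : ¬ J ≤ below j Q) {g : GQ} (hg : g ∈ GK j) (hi : Inert Q g)
    {β : Qb} (hβ : β ^ 3 = j a) : g β = β := by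
  obtain ⟨-, A, B, n, e, d⟩ := h
  obtain ⟨v, hv, -⟩ := ex_below j hQ.1.ne_zero hQ.2.1 hQ.2.2
  have a0 := RingOfIntegers.coe_ne_zero_iff.2 h0
  refine (ka_eq_zero ((map_ne_zero j).2 a0) hβ (inert_gz hQ h3 hi) (hg _)).1
    (ka_of_dvd j hQ h3 hv a0 ?_ hg hi)
  have s0 : Ideal.span {a} ≠ 0 := by simpa using h0
  have f := FiniteMultiplicity.of_prime_left v.prime s0
  rw [P027M.S.Cls.ordv_of (n := multiplicity v.asIdeal (Ideal.span {a})) (by
    rw [← v.intValuation_eq_exp_neg_multiplicity h0, HeightOneSpectrum.valuation_of_algebraMap])]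
  rw [e] at f ⊢
  rw [multiplicity_mul v.prime f, (multiplicity_eq_zero (b := B)).2 fun k => hJ ?_, add_zero,
    FiniteMultiplicity.multiplicity_pow v.prime (pow_succ' A 2 ▸ f.mul_left).mul_left]
  · exact ⟨_, Nat.cast_mul _ _⟩
  · exact hv ▸ Ideal.le_of_dvd (v.prime.dvd_of_dvd_pow (k.trans d))

/-- the induced cocycles -/
theorem core {Γ : Subgroup GQ} {N m : ℕ} (hN : N = 3 ^ m) {e : GQ → ZMod N}
    (he : ∀ g ∈ Γ, ∀ h ∈ Γ, e (g * h) = e g + e h) (gH : ∀ g, g ∈ GK j ↔ g ∈ Γ ∧ e g = 0)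
    {P : Ideal (𝓞 Qb)} (hP : Ov 3 P) (hd : dec P ≤ Γ) {φ : GQ} (h1 : φ ∈ dec P)
    (hu : IsUnit (e φ)) {v v' : Ideal (𝓞 H)} (hv : below j P = v) (hm : v * v' = Ideal.span {3})
    (hc : v ⊔ v' = ⊤) {T : Finset ℕ} (h3 : 3 ∈ T) (hT : ∀ g ∈ Γ, g ∈ In T → e g = 0)
    {A : Ideal (𝓞 H)}
    (hA : ∀ Q : Ideal (𝓞 H), Q.IsPrime → A ≤ Q → ∃ l ∈ T, l.Prime ∧ (l : 𝓞 H) ∈ Q)
    {R : Type} [CommRing R] {ρ : PowerSeries (ZMod 3) →+* R} (hρ : Tq ρ N) :
    ∃ κ : 𝓞 H → Zr Γ T (tw ρ (ch ρ e)) P, ∀ a b, Ad (v ^ 3) A a → Ad (v ^ 3) A b → κ a = κ b →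
      ∃ y : H, (a : H) = y ^ 3 * b := by
  classical
  have : NeZero N := ⟨hN ▸ pow_ne_zero m three_ne_zero⟩
  obtain ⟨s, s0, hs⟩ := ex_sec he (hd h1) h1 hu
  have hs' : ∀ i, s i ∈ Γ ∧ e (s i) = i := fun i => ⟨(hs i).1, (hs i).2.2⟩
  have pv : v.IsPrime := hv ▸ Ideal.IsPrime.comap _ (hK := hP.2.1)
  have n0 : ∀ a, Ad (v ^ 3) A a → a ≠ 0 := fun a ha => ad_ne ha pv (Ideal.pow_le_self (by norm_num))
  have tm : ∀ g ∈ Γ, ∀ i, (s (i + e g))⁻¹ * g * s i ∈ GK j := fun g hg i =>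
    (gH _).2 (tw_mem he hs' hg i)
  choose β hβ fβ using fun (a : 𝓞 H) (ha : Ad (v ^ 3) A a) => loc j hP hv hm hc ha
  have b0 : ∀ a ha, β a ha ≠ 0 := fun a ha =>
    root_ne ((map_ne_zero j).2 (RingOfIntegers.coe_ne_zero_iff.2 (n0 a ha))) (hβ a ha)
  have fx : ∀ a ha, ∀ g ∈ GK j, g (β a ha ^ 3) = β a ha ^ 3 := fun a ha g hg => by rw [hβ, hg]
  let z : Qb → GQ → R := fun b => ind e s (fun i => (1 + ρ PowerSeries.X) ^ i.val)
    (fun g => ρ (PowerSeries.C (oz 3 g))) fun g => ρ (PowerSeries.C (kb b g))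
  have z0 : ∀ a ha g, (∀ i, ((s (i + e g))⁻¹ * g * s i) (β a ha) = β a ha) →
      (fun _ : Fin 1 => if g ∈ Γ then z (β a ha) g else 0) = 0 := fun a ha g h => funext fun _ =>
    ite_eq_right_iff.2 fun _ => Finset.sum_eq_zero fun i _ => by
      simp only [kb_zero (b0 a ha) (h i), map_zero, mul_zero]
  have key : ∀ a ha, ((fun g _ => if g ∈ Γ then z (β a ha) g else 0, 0) :
      (GQ → Fin 1 → R) × (Empty → R)) ∈ Zr Γ T (tw ρ (ch ρ e)) P := fun a ha => by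
    refine ⟨fun g hg h hh => funext fun i => ?_, fun g hg => funext fun _ => if_neg hg,
      ⟨GK j ⊓ ⨅ i, MulAction.stabilizer GQ (s i (β a ha)), ?_, fun w hw => z0 a ha w fun i => ?_⟩,
      fun g hi => ?_, fun _ g hg => (z0 a ha g fun i => ?_).trans (P004F.Pr.ac_zero _).symm⟩
    · have := ind_mul (t := fun i => (1 + ρ PowerSeries.X) ^ i.val)
        (o := fun g => ρ (PowerSeries.C (oz 3 g))) (χ := fun g => ρ (PowerSeries.C (kb (β a ha) g)))
        he hs' (t_add hρ hN) (fun g h => by rw [oz_mul, map_mul, map_mul]) (fun x x1 x2 y y1 y2 => by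
          rw [kb_coc (b0 a ha) (fx a ha _ ((gH _).2 ⟨x1, x2⟩)) (fx a ha _ ((gH _).2 ⟨y1, y2⟩)),
            map_add, map_add, map_mul, map_mul]) hg hh
      simpa [P004F.Pr.ac, r1, ch, tw, hg, hh, Γ.mul_mem hg hh, Subsingleton.elim i 0] using this
    · rw [Subgroup.coe_inf, Subgroup.coe_iInf]
      exact (P022.H916.isOpen_GK j).inter
        (isOpen_iInter_of_finite fun i => P022E.GW.Kc.stab_open _)
    · have k : w (s i (β a ha)) = s i (β a ha) := Subgroup.mem_iInf.1 hw.2 i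
      rw [((gH w).1 hw.1).2, add_zero, AlgEquiv.mul_apply, AlgEquiv.mul_apply, k,
        ← AlgEquiv.mul_apply, inv_mul_cancel]
      rfl
    · by_cases hg : g ∈ Γ
      swap
      · exact funext fun _ => if_neg hg
      refine z0 a ha g fun i => ?_
      have k := tm g hg i
      rw [hT g hg hi, add_zero] at k ⊢
      obtain ⟨l, hl, Q, hQ, hi⟩ := hi
      have q : Ov l ((s i)⁻¹ • Q) := ⟨hQ.1, haveI := hQ.2.1; inferInstance, by
        rw [mem_smul, inv_inv,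
          show s i • (l : 𝓞 Qb) = l from map_natCast (MulSemiringAction.toRingHom GQ (𝓞 Qb) _) l]
        exact hQ.2.2⟩
      refine unr j q (fun k => hl (k ▸ h3)) ha (n0 a ha) (fun k => hl ?_) k (fun x => ?_) (hβ a ha)
      · obtain ⟨l', l1, l2, l3⟩ := hA _ (Ideal.IsPrime.comap _ (hK := q.2.1)) k
        rw [Ideal.mem_comap, map_natCast] at l3
        exact (Nat.prime_dvd_prime_iff_eq hQ.1 l2).1 (by
          exact_mod_cast P004S.ov_dvd q (a := l') (by exact_mod_cast l3)) ▸ l1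
      · rw [mem_smul, inv_inv, smul_sub, mul_smul, mul_smul, smul_inv_smul]
        exact hi _
    · exact fβ a ha _ (tm g hg.1 i) ((dec P).mul_mem ((dec P).mul_mem
        ((dec P).inv_mem (hs _).2.1) hg.2) (hs _).2.1)
  refine ⟨fun a => if h : Ad (v ^ 3) A a then ⟨_, key a h⟩ else 0, fun a b ha hb h => ?_⟩
  simp only [dif_pos ha, dif_pos hb] at h
  obtain ⟨y, hy⟩ := P022.H916.fixed j (x := β a ha / β b hb) fun ⟨g, hg⟩ => by
    have f := congrFun (congrFun (congrArg (fun x => x.1.1) h) g) 0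
    have k := indep hρ (fun i => oz 3 (s i) * kb (β a ha) ((s i)⁻¹ * g * s i) -
        oz 3 (s i) * kb (β b hb) ((s i)⁻¹ * g * s i)) (by
      simpa only [z, ind, (gH g).1 hg, if_true, add_zero, map_sub, map_mul, mul_sub,
        Finset.sum_sub_distrib, sub_eq_zero] using f)
    rw [s0, inv_one, one_mul, mul_one, oz_one, one_mul, one_mul, sub_eq_zero] at k
    show g _ = _
    rw [map_div₀, kb_spec (fx a ha g hg), kb_spec (fx b hb g hg), k,
      mul_div_mul_left _ _ (pow_ne_zero _ zt_ne)]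
  refine ⟨y, j.injective ?_⟩
  rw [map_mul, map_pow, hy, div_pow, ← hβ a ha, ← hβ b hb,
    div_mul_cancel₀ _ (pow_ne_zero _ (b0 b hb))]

end Vale.Agent.P014Y.Rd.Sp

namespace Vale.Agent.P014Y.Rd

open Vale.Agent.P022 (Qb GQ GK below)

/-- **Kummer theory and the lemma of Shapiro** -/
theorem shp (rc2 : P004K.RC2) : SHP := by
  intro K _ _ j c M e L F H _ _ _ _ _ jH φ σ f _ P hP hφ hd v v' ip hv T h3 hT A hA R _ ρ hρ
  obtain ⟨m, hm⟩ := L.pow
  refine Sp.core jH (m := m + 2) (by rw [hm]; ring) L.add f.gH hP hd (fun x => ?_) f.gen hv.symm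
    (v' := up H v') ?_ ?_ h3 (fun g hg hi => L.ker g ?_) hA hρ
  · rw [← hP.2.1.pow_mem_iff_mem (r := x) 3 three_pos, ← P.add_mem_iff_right (b := x ^ 3) (hφ x),
      sub_add_cancel]
  · rw [← Ideal.map_mul, ip.mul, Ideal.map_span, Set.image_singleton, map_natCast, Nat.cast_ofNat]
  · rw [← Ideal.map_sup, ip.cop, Ideal.map_top]
  · obtain ⟨l, hl, Q, hQ, hi⟩ := hi
    obtain ⟨-, -, -, r4, -, -, r7⟩ := rc2 K j L.iq c (Nat.pos_of_ne_zero L.sq.ne_zero)
    have k := r7 Q hQ.2.1 (fun k => hQ.1.ne_zero (Nat.cast_eq_zero.1 (k.le hQ.2.2)))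
      fun k => hl (hT l hQ.1 (by exact_mod_cast P004S.ov_dvd hQ (a := c) (by exact_mod_cast k)))
    simpa using (r4 _ 1 g (k 1 (GK j).one_mem 0 fun x => by simp)).1
      (k g hg 0 fun x => by simpa using hi x)

end Vale.Agent.P014Y.Rd
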