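import Vale.Agent.P014Y.Rd.St2

/-! # P014Y, route R: the row TAU -/

set_option autoImplicit false
set_option linter.all false

open UpperHalfPlane ModularForm PowerSeries EisensteinSeries
open scoped MatrixGroups

noncomputable section

namespace Vale.Agent.P014Y.Rd

open Vale.Agent.P022 Vale.Agent.P022.H218.L3 Vale.Agent.P022.H231.L3 Vale.Agent.P022.H236.L3
  Vale.Agent.P022.H542.L3 Vale.Agent.P027M.M
open H790.A (DZ E4Z sg gs gg gg_mul toC)
open P004R.Qf (ls_zero_eq)

namespace Ta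

theorem inv0 : ∃ W : PowerSeries ℤ, DZ = W * E4Z ^ 3 ∧ ExM 1 (ls 0 (toCi W)) jM⁻¹ := by
  have hD : ExL 1 (ls 0 (toCi DZ)) discriminant := by
    have e : qExpansion 1 (discriminant : ℍ → ℂ) = toCi DZ := H790.A.qExp_disc
    have := isMF_exL (N := 1) one_ne_zero (Subgroup.mem_top _) isMF_disc
    rwa [Nat.cast_one, e, ← ls_zero_eq] at this
  have hE : E4i = E4Z := PowerSeries.map_injective (Int.castRingHom ℂ) Int.cast_injective
    (qExp_E4i.symm.trans H790.A.qExp_E4)
  have n0 : ls 0 (toCi DZ) ≠ 0 := hD.ne_zero isMF_disc.hol disc_ne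
  have hu : IsUnit (constantCoeff (E4i ^ 3)) := by rw [map_pow]; exact E4i_unit.pow 3
  obtain ⟨W, hW⟩ := div_ls DZ (E4i ^ 3) 0 0 hu
  have h3 : ls 0 (toCi E4i) ^ 3 = ls 0 (toCi (E4i ^ 3)) := by
    rw [pow_three, ls_mul, ls_mul, pow_three]
    simp only [toCi, map_mul, add_zero]
  have h4 : ExM 1 (ls 0 (toCi (E4i ^ 3)) / ls 0 (toCi DZ)) jM := by
    refine ExL.exM_inc _ ?_
    have := (exL_E4_one.pow 3).div one_ne_zero hD n0
    rwa [h3] at this
  have n1 : ls 0 (toCi (E4i ^ 3)) ≠ 0 := by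
    rw [← h3]
    exact pow_ne_zero _ (exL_E4_one.ne_zero isMF_E4.hol E4_ne)
  refine ⟨W, ?_, ?_⟩
  · rw [div_eq_iff n1, ls_mul] at hW
    rw [← hE]
    exact PowerSeries.map_injective (Int.castRingHom ℂ) Int.cast_injective
      (by rw [map_mul]; exact ls_inj (m := 0) hW)
  · have := h4.inv one_ne_zero
    rwa [inv_div, hW, sub_zero] at this

theorem q8 : qExpansion 1 (E (k := 8) (by norm_num)) = toC (1 + 480 * sg 7) := by
  ext n
  rw [E_qExpansion_coeff _ ⟨4, rfl⟩, toC, coeff_map,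
    show (480 : PowerSeries ℤ) = PowerSeries.C (480 : ℤ) from rfl, map_add, coeff_C_mul, coeff_one,
    sg, coeff_mk]
  by_cases h : n = 0
  · subst h
    simp
  · rw [if_neg h, if_neg h, show bernoulli 8 = -1 / 30 by decide +kernel]
    norm_num [ArithmeticFunction.sigma_apply]

/-- `E₄ ^ 2 = E₈` -/
theorem e8 : 120 * sg 3 ^ 2 + sg 3 = sg 7 := by
  let f : ModularForm 𝒮ℒ ((8 : ℕ) : ℤ) := E₄.mul E₄
  let g : ModularForm 𝒮ℒ ((8 : ℕ) : ℤ) := f - E (k := 8) (by norm_num)
  have q : qExpansion 1 g = toC (E4Z * E4Z - (1 + 480 * sg 7)) := by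
    rw [ModularForm.coe_sub, ModularForm.qExpansion_sub one_pos one_mem_strictPeriods_SL, q8,
      map_sub, map_mul, ← H790.A.qExp_E4]
    congr 1
    exact ModularForm.qExpansion_mul one_pos one_mem_strictPeriods_SL E₄ E₄
  have z : g = 0 := sturm_bound_levelOne_nat (by
    rw [q]
    refine lt_of_lt_of_le (by norm_num) (one_le_order_iff_constCoeff_eq_zero.2 ?_)
    have c : ∀ k, constantCoeff (sg k) = 0 := fun k => by
      rw [← coeff_zero_eq_constantCoeff_apply, sg, coeff_mk]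
      simp
    rw [← coeff_zero_eq_constantCoeff_apply, toC, coeff_map, coeff_zero_eq_constantCoeff_apply]
    simp [E4Z, c])
  rw [z, ModularForm.coe_zero, qExpansion_zero] at q
  have r : E4Z * E4Z - (1 + 480 * sg 7) = 0 :=
    PowerSeries.map_injective (Int.castRingHom ℂ) Int.cast_injective (q.symm.trans (map_zero _).symm)
  refine mul_left_cancel₀ (a := (480 : PowerSeries ℤ)) (by
    rw [show (480 : PowerSeries ℤ) = PowerSeries.C (480 : ℤ) from rfl]
    simpa using PowerSeries.C_injective.ne (by norm_num : (480 : ℤ) ≠ 0)) ?_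
  rw [E4Z] at r
  linear_combination r

theorem dv (d : ℤ) : 9 ∣ 50 * d ^ 3 + 70 * d ^ 5 + d ^ 7 - d ^ 3 - 120 * d := by
  have : ∀ x : ZMod 9, 50 * x ^ 3 + 70 * x ^ 5 + x ^ 7 - x ^ 3 - 120 * x = 0 := by decide
  exact_mod_cast (ZMod.intCast_zmod_eq_zero_iff_dvd _ 9).1 (by push_cast; exact this d)

theorem two (n : ℕ) : ((coeff n (gs + sg 3 ^ 2) : ℤ) : ZMod 3) = ∑ d ∈ n.divisors, (d : ZMod 3) := by
  have a := congrArg (coeff n) e8
  have b := congrArg (coeff n) H790.A.gs_mul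
  rw [show (120 : PowerSeries ℤ) = PowerSeries.C (120 : ℤ) from rfl, map_add, coeff_C_mul] at a
  rw [show (12 : PowerSeries ℤ) = PowerSeries.C (12 : ℤ) from rfl,
    show (5 : PowerSeries ℤ) = PowerSeries.C (5 : ℤ) from rfl,
    show (7 : PowerSeries ℤ) = PowerSeries.C (7 : ℤ) from rfl, map_add, coeff_C_mul, coeff_C_mul,
    coeff_C_mul] at b
  have c := Finset.dvd_sum fun (d : ℕ) (_ : d ∈ n.divisors) => dv d
  simp only [Finset.sum_sub_distrib, Finset.sum_add_distrib, ← Finset.mul_sum] at c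
  rw [map_add]
  generalize coeff n (sg 3 ^ 2) = x at a ⊢
  simp only [sg, coeff_mk] at a b
  have e : (3 : ℤ) ∣ coeff n gs + x - ∑ d ∈ n.divisors, (d : ℤ) := by omega
  have := (ZMod.intCast_zmod_eq_zero_iff_dvd _ 3).2 (by exact_mod_cast e)
  push_cast at this ⊢
  linear_combination this

theorem s3 (m : ℕ) : ∑ d ∈ (3 * m).divisors, (d : ZMod 3) = ∑ d ∈ m.divisors, (d : ZMod 3) := by
  rcases eq_or_ne m 0 with rfl | h
  · simp
  refine (Finset.sum_subset (Nat.divisors_subset_of_dvd (by omega) (dvd_mul_left _ _))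
    fun d a b => (ZMod.natCast_eq_zero_iff d 3).2 ?_).symm
  by_contra k
  exact b (Nat.mem_divisors.2 ⟨((Nat.prime_three.coprime_iff_not_dvd.2 k).symm).dvd_of_dvd_mul_left
    (Nat.dvd_of_mem_divisors a), h⟩)

end Ta

theorem tau : TAU := by
  obtain ⟨W, e, h⟩ := Ta.inv0
  refine ⟨W, h, fun n => ?_⟩
  let r : PowerSeries ℤ →+* PowerSeries (ZMod 3) := PowerSeries.map (Int.castRingHom (ZMod 3))
  have t : (3 : PowerSeries (ZMod 3)) = 0 := by
    rw [show (3 : PowerSeries (ZMod 3)) = PowerSeries.C (3 : ZMod 3) from rfl]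
    exact map_zero _
  have a : r W = r (gs + sg 3 ^ 2) - r (sg 3) ^ 3 := by
    have := congrArg r e
    simp only [DZ, E4Z, map_add, map_sub, map_mul, map_pow, map_ofNat, map_one] at this ⊢
    rw [show (240 : PowerSeries (ZMod 3)) = 0 by linear_combination 80 * t] at this
    linear_combination -this + (33 * r (sg 3) ^ 2 + 2667 * r (sg 3) ^ 3 - 49 * r (sg 5) ^ 2) * t
  have b : r (sg 3) ^ 3 = expand 3 (by norm_num) (r (sg 3)) := by
    rw [← MvPowerSeries.map_frobenius_expand 3 (by norm_num), ZMod.frobenius_zmod,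
      MvPowerSeries.map_id]
    rfl
  have c := congrArg (coeff n) a
  rw [b, map_sub, coeff_expand, coeff_map, coeff_map, eq_intCast, eq_intCast, Ta.two] at c
  rw [c]
  split_ifs with k
  · obtain ⟨m, rfl⟩ := k
    have : ∀ x : ZMod 3, x ^ 3 = x := by decide
    rw [Ta.s3, Nat.mul_div_cancel_left _ (by norm_num), coeff_map, sg, coeff_mk]
    simp [this]
  · simp [ArithmeticFunction.sigma_apply]

end Vale.Agent.P014Y.Rd
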