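import Vale.Agent.P014Y.Rd.St3
import Vale.Agent.P004R.Qf

/-!
# P014Y, route R: the anchor for the curves with a rational point of order three
-/

set_option autoImplicit false
set_option linter.all false

open NumberField Filter Matrix
open scoped Pointwise PowerSeries Classical

noncomputable section

namespace Vale.Agent.P014Y.Rd

open Vale.Agent.P022 P027H P027M.M P004K
open Vale.Agent.P027M.S (Inert)
open Vale.Agent.P022D.W (dec)
open Vale.Agent.P022E.GW (Ov Fb)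
open Vale.Agent.P022K.G2 (Tv In)
open F (Crv Fld Rb)

namespace To

variable (e : Crv)

theorem pr {p : ℕ} (h : p ∈ e.S) : p.Prime := (e.ov p h).1

variable {e}

theorem nd_prod {l : ℕ} (hl : l.Prime) : l ∣ e.S.prod ↔ l ∈ e.S :=
  ⟨fun k => by
    obtain ⟨p, hp, d⟩ := (Prime.dvd_prod_iff hl.prime).1 k
    rwa [(Nat.prime_dvd_prime_iff_eq hl (pr e hp)).1 d], List.dvd_prod⟩

theorem tv (b : Fld e) {c : ℕ} {T : Finset GQ} (h : b.Tv c T) : Tv (GK b.j) (Hc b.j c) T :=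
  ⟨h.1, fun g hg => (h.2 g hg).exists.imp fun r k => ⟨k.1, by simpa using inv_mem k.2⟩,
    fun r hr r' hr' k => (h.2 r (h.1 r hr)).unique ⟨hr, by simpa using one_mem _⟩ ⟨hr', k⟩⟩

end To

open To

/-- **the anchor for a rational point of order three** -/
theorem red3 (hg1 : HG1) (cj0 : P004K.CJ0) (qexp : P004F.Qx.QEXP) (qf : QF) (csg : CSG)
    (twr : TWR) (lev : LEV) (fac : FAC) : RED3 := by
  intro e hI
  by_cases ne : Nonempty (Fld e)
  swap
  · exact ⟨0, fun b => (ne ⟨b⟩).elim⟩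
  obtain ⟨b₀⟩ := ne
  have e3 : 3 ∈ e.S := e.pm
  have hP : ∀ p ∈ e.S, (e.P p).IsPrime ∧ (p : 𝓞 Qb) ∈ e.P p := fun p hp => (e.ov p hp).2
  obtain ⟨u, hu, s, us, cq, qx⟩ := qexp _ _ _ _ _ _ _ _ _ _ e.rn e.par e.S e.nd fun p => pr e
  obtain ⟨T₁, qx⟩ := qx e.P hP
  obtain ⟨T₂, qy⟩ := qf e.N e.a e.S e.rn.pos e.nd (fun p => pr e) e3
    (csg _ _ _ _ e.rn ((fac e b₀).2.2.2.2.2.2.1 hI) fun p => pr e) u hu s us
    (cq 3 e3).1 (cq 3 e3).2 e.P hP
  refine ⟨T₁ + T₂, fun b big => ?_⟩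
  obtain ⟨kd, spl, ⟨U, Gq, nq, gp⟩, gd, dt, typ, -, tq⟩ := fac e b
  obtain ⟨k, m, tw⟩ := twr b.K b.j _ U Gq kd (List.mem_toFinset.2 e.two) (List.mem_toFinset.2 e3)
    spl nq
  choose c x t sl ck gq using tw
  obtain ⟨m', gp⟩ := gp m
  obtain ⟨C, lv⟩ := lev b.K b.j e.S.toFinset k
  have fv : Fv (GK b.j) (rb e) := hI.imp fun v h =>
    ⟨h.1, h.2.imp (fun h g _ => h g trivial) fun h g _ => h g trivial⟩
  have ou : ∀ n q, q ∣ c n → q ∉ e.S := fun n q d h =>
    ((t n).spl q (List.mem_toFinset.2 h)).2.1 d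
  have lt : ∀ {J n : ℕ}, J ≤ n → J < 3 ^ (n + 1) := fun h =>
    (Nat.lt_succ_of_le h).trans (Nat.lt_pow_self (by decide))
  have lv' := fun n => lv _ _ _ (t n) (ck n) e.P b.φ (fun p hp =>
    have h := List.mem_toFinset.1 hp
    ⟨e.ov p h, b.ch.frb p h⟩) (sl n _ (e.ov 3 e3))
  have er : (e.S.erase 3).toFinset = e.S.toFinset.erase 3 := by
    ext p
    simp only [List.mem_toFinset, e.nd.mem_erase_iff, Finset.mem_erase]
  refine ⟨m' + k + 1, C, c, fun n g => (x n g).val,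
    Eventually.of_forall fun n => ?_, fun J => ?_, C, ?_⟩
  · have y := (t n).toLy
    have dv : 3 ^ n ∣ 3 * 3 ^ (n + 1) := (pow_dvd_pow 3 n.le_succ).mul_left 3
    refine ⟨⟨fun g hg h hh => ?_, fun g hg => ?_⟩, y.sq, y.one, (ck n).trans (by omega),
      fun q hq => ?_, fun q hq P o => ?_⟩
    · beta_reduce
      rw [y.add g hg h hh, ZMod.val_add]
      exact (Nat.mod_modEq _ _).of_dvd dv
    · beta_reduce
      rw [y.ker g hg, ZMod.val_zero]; exact dvd_zero _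
    · have p := Nat.prime_of_mem_primeFactors hq
      have d := Nat.dvd_of_mem_primeFactors hq
      obtain ⟨P, o⟩ := P022.H916.exists_prime p
      replace o : Ov q P := ⟨p, o⟩
      obtain ⟨nd, ty⟩ := typ q P o (fun z => ou n q d (z ▸ e.two)) (y.ram q P o d).2.1
      exact ⟨ou n q d, nd, ⟨_, ty, (gq n q p d).1⟩,
        fun z => gp q p (ou n q d) (gq n q p d).2 ((pow_dvd_pow 3 (by omega)).trans z)⟩
    · obtain ⟨-, -, g, g1, g2⟩ := y.ram q P o (Nat.dvd_of_mem_primeFactors hq)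
      have : Fact (1 < 3 * 3 ^ (n + 1)) := ⟨by have := lt (le_refl n); omega⟩
      have v : (x n g).val = 1 := by rw [g2, ZMod.val_one]
      refine ⟨g, g1, ?_, fun h _ => ⟨_, by beta_reduce; rw [v, mul_one]⟩⟩
      beta_reduce
      rw [v, Nat.dvd_one, Nat.pow_eq_one, pp3]
      omega
  · filter_upwards [eventually_ge_atTop J] with n hn
    obtain ⟨i⟩ := (tq J).2 (c n) _ (x n)
    rw [Nat.card_congr i]
    exact ((lv' n).1 _ _ J (tq J).1 (by have := lt hn; omega) _ (gd _) fv fun g _ => dt g).2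
  · filter_upwards [eventually_ge_atTop C] with n hn
    obtain ⟨j0, z⟩ := (lv' n).2 (lt hn)
    obtain ⟨l, an, z⟩ := z _ (e.nd.erase 3) er
    refine ⟨l, ?_, fun T hT => ?_⟩
    · obtain ⟨i⟩ := (tq C).2 (c n) _ (x n)
      rw [Nat.card_congr i]
      exact z _ _ _ (tq C).1 le_rfl (by have := lt hn; omega) _ (gd _) fv fun g _ => dt g
    have c0 := Nat.pos_of_ne_zero (t n).sq.ne_zero
    have co : (c n).Coprime (e.N * e.S.prod) := Nat.coprime_of_dvd fun q p d z =>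
      (p.dvd_mul.1 z).elim (fun z => (e.bad q p (ou n q d)).1 z)
        fun z => ou n q d ((nd_prod p).1 z)
    have R0 : 0 < e.N * e.S.prod ^ 2 := mul_pos e.rn.pos (pow_pos (List.prod_pos fun p h =>
      (pr e h).pos) 2)
    obtain ⟨τ, hτ⟩ := (hg1 b.K b.j b.iq _ _ _ R0 c0 (co.coprime_mul_right_right.mul_right
      (co.coprime_mul_left_right.pow_right 2)) (P004R.Qf.sp_sq (fun p => pr e) b.ch.spl (fun _ => id)
        e.rn.pos b.ch.lev b.ch.cop).cn).1
    have := an T (tv b hT) _ fun g hg => by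
      obtain ⟨σ, hσ⟩ := ex_ex g
      obtain ⟨τ', h'⟩ := (cj0 σ _ R0).1 τ
      exact qy _ (by omega) b.adm.sq b.K b.j b.iq b.θ b.th _ _ _ _ b.ch _ c0 co j0 g (hT.1 g hg) σ τ τ'
        hσ hτ h' _ ((qx _ (by omega) b.adm.sq b.K b.j b.iq b.θ b.th _ _ _ _ b.ch _ c0 co _
          (b.hg _ c0 co.coprime_mul_right_right) g (hT.1 g hg) 2 e.two).2 σ τ τ' hσ hτ h')
    by_contra k
    exact this fun i hi => by_contra fun w => k ⟨i, by omega, w⟩

end Vale.Agent.P014Y.Rd
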