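import Vale.Agent.P014Y.Rd.St4
import Vale.Agent.P014Y.Rd.Ph1
import Vale.Agent.P004R.Chb

/-!
# P014Y, route R: the first step of the tower
-/

set_option autoImplicit false
set_option linter.all false

open NumberField

noncomputable section

namespace Vale.Agent.P014Y.Rd

open Vale.Agent.P022 (Qb GQ GK below IsFrob)
open P004K
open Vale.Agent.P027M.S (Inert)
open Vale.Agent.P022D.W (dec)
open Vale.Agent.P022E.GW (Ov Fb)
open Vale.Agent.P004R.Cb (fxg fxg_open)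

namespace T1

/-- different primes with Frobenius elements in given open sets -/
theorem ex_pr : ∀ {k : ℕ} (O : Fin k → Set GQ), (∀ i, IsOpen (O i) ∧ (O i).Nonempty) →
    ∀ T : Finset ℕ, ∃ (q : Fin k → ℕ) (Q : Fin k → Ideal (𝓞 Qb)) (φ : Fin k → GQ),
      Function.Injective q ∧ ∀ i, q i ∉ T ∧ Ov (q i) (Q i) ∧ Fb (q i) (Q i) (φ i) ∧ φ i ∈ O i
  | 0, _, _, _ => ⟨Fin.elim0, Fin.elim0, Fin.elim0, fun i => i.elim0, fun i => i.elim0⟩
  | k + 1, O, h, T => by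
    obtain ⟨g, m⟩ := (h 0).2
    obtain ⟨l, ψ, a, b, ⟨P, c1, c2, c3⟩, d⟩ := P022K.Cheb.exists_fr (h 0).1 m T
    obtain ⟨q, Q, φ, i1, i2⟩ := ex_pr (fun i => O i.succ) (fun i => h i.succ) (insert l T)
    refine ⟨Fin.cons l q, Fin.cons P Q, Fin.cons ψ φ, Fin.cons_injective_iff.2 ⟨?_, i1⟩,
      Fin.cases ⟨b, ⟨a, c1, c2⟩, c3, d⟩ fun i =>
        ⟨fun z => (i2 i).1 (Finset.mem_insert_of_mem z), (i2 i).2⟩⟩
    rintro ⟨i, e⟩
    exact (i2 i).1 (e ▸ Finset.mem_insert_self l T)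

variable {K : Type} [Field K] [NumberField K] {j : K →+* Qb}

theorem cj_gk (h : Iq K) {g : GQ} (t : GQ) (m : t⁻¹ * g * t ∈ GK j) : g ∈ GK j := by
  by_cases c : t ∈ GK j
  · simpa [mul_assoc] using mul_mem (mul_mem c m) (inv_mem c)
  · simpa [mul_assoc] using P022.H20.conj_mem h.two (mt inv_mem_iff.1 c) m

/-- an unramified prime with a Frobenius element in the group of the field splits -/
theorem spl (h : Iq K) {l : ℕ} {P Q : Ideal (𝓞 Qb)} {φ : GQ} (o : Ov l P) (f : Fb l P φ)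
    (d : ¬ (l : ℤ) ∣ discr K) (m : φ ∈ GK j) (o' : Ov l Q) : dec Q ≤ GK j := fun g k => by
  obtain ⟨t, -, e⟩ := P004S.ex_conj o o'
  exact cj_gk h t (P004S.lt.dec_le o f (P022.H916.isOpen_GK j) m
    (fun i hi => P022.H20.inertia_mem h.two o.1 d j o.2.1 o.2.2 hi) (e g k))

theorem hc_open (c : ℕ) : IsOpen (Hc j c : Set GQ) :=
  (P022.H916.isOpen_GK j).inter (stabilizer_isOpen_of_isIntegral _)

theorem ng_open (A : Finset K) {N : ℕ} (h : 0 < N) :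
    IsOpen (Ph.Ng j (insert 1 (j '' A)) N : Set GQ) :=
  (P022.H916.isOpen_GK j).inter (fxg_open ((A.finite_toSet.image j).insert 1) h)

end T1

open T1 in
/-- **TW1** -/
theorem tw1 (cls : CLS) (ph1 : PH1) (ki : KI) (ext : EXT) : TW1 := by
  intro K _ _ j kd γ hγ B P A bs ga S U Gq nq
  classical
  obtain ⟨d, x, a, x1, x2, a1, a2⟩ := cls K j kd
  obtain ⟨h, h1, h2, h3, m, h4⟩ := nq.ex A ga.ne _ (hc_open (j := j) 9)
  refine ⟨d, m, fun n => ?_⟩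
  have e : 3 * 3 ^ (n + 1) = 3 ^ (n + 2) := (pow_succ' 3 (n + 1)).symm
  obtain ⟨ζ, hζ⟩ := HasEnoughRootsOfUnity.exists_primitiveRoot Qb (3 * 3 ^ (n + 1))
  obtain ⟨g₀, g1, g2, g3⟩ := ki K j kd γ hγ B P bs _ _ ζ 1 e hζ
  obtain ⟨g, p1, p2⟩ := ph1 K j kd d x a A x1 x2 (fun i => (a1 i).1) ga.ne
    (fun i y g m k => (a1 i).2.elim fun I s => ga.cub _ I y g m (a1 i).1 s k) (n + 2)
    (Nat.succ_pos _) g₀ g1 (e ▸ g2)
  choose k _ k2 using fun i => h4 (g i) (Ph.down (Nat.succ_pos _) (p1 i).2.1)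
  let V := U m ⊓ Hc j 9 ⊓ Ph.Ng j (insert 1 (j '' A)) (3 ^ (n + 2))
  have oV : IsOpen (V : Set GQ) :=
    ((nq.opn m).1.inter (hc_open 9)).inter (ng_open A (by positivity))
  obtain ⟨q, Q, φ, i1, i2⟩ := ex_pr (fun i => (fun y => (g i * h ^ k i)⁻¹ * y) ⁻¹' V)
    (fun i => ⟨oV.preimage (continuous_const.mul continuous_id), g i * h ^ k i, by
      simp [one_mem]⟩) (B ∪ (discr K).natAbs.primeFactors)
  have w : ∀ i, (g i)⁻¹ * φ i = h ^ k i * ((g i * h ^ k i)⁻¹ * φ i) := fun i => by group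
  have w1 : ∀ i, (g i)⁻¹ * φ i ∈ Ph.Ng j (insert 1 (j '' A)) (3 ^ (n + 2)) := fun i =>
    w i ▸ mul_mem (pow_mem (show h ∈ Ph.Ng j _ _ from ⟨h1, h3 _⟩) _) (i2 i).2.2.2.2
  have w2 : ∀ i, (g i)⁻¹ * φ i ∈ Hc j 9 := fun i =>
    w i ▸ mul_mem (pow_mem h2 _) (i2 i).2.2.2.1.2
  have f1 : ∀ i, φ i ∈ GK j := fun i => by simpa using mul_mem (p1 i).1 (w1 i).1
  have f2 : ∀ i, Fx {1} (3 * 3 ^ (n + 1)) (φ i) := fun i y z => by
    rw [← mul_inv_cancel_left (g i) (φ i), AlgEquiv.mul_apply, (w1 i).2 y (.inl (e ▸ z)),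
      (p1 i).2.1 y (e ▸ z)]
  have sp : ∀ i Q', Ov (q i) Q' → dec Q' ≤ GK j := fun i Q' o =>
    spl kd.iq (i2 i).2.1 (i2 i).2.2.1 (fun z => (i2 i).1 (Finset.mem_union_right _
      (Nat.mem_primeFactors.2 ⟨o.1, Int.natCast_dvd.1 z, Int.natAbs_ne_zero.2 (discr_ne_zero K)⟩)))
      (f1 i) o
  have nb : ∀ i, q i ∉ B := fun i z => (i2 i).1 (Finset.mem_union_left _ z)
  obtain ⟨r1, r2⟩ := p2 φ fun i => ⟨f1 i, (w1 i).2⟩
  have pm : (List.ofFn φ).prod ∈ GK j := list_prod_mem fun y z => by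
    obtain ⟨i, rfl⟩ := List.mem_ofFn.1 z
    exact f1 i
  have r3 := ga.stb _ ζ g₀ g1 _ (mul_mem (inv_mem g1) pm) 1 (by positivity) (e ▸ r1) g3
  rw [mul_inv_cancel_left] at r3
  obtain ⟨ε, e1, e2, e3, e4, -⟩ := ext K j kd γ hγ B P bs _ _ ζ 1 e hζ _ q Q φ i1
    (fun i => ⟨(i2 i).2.1, sp i _ (i2 i).2.1, (i2 i).2.2.1, nb i, f2 i⟩) r3
  have xv : ∀ i i', x i (φ i') = if i = i' then 1 else 0 := fun i i' => by
    rw [← mul_inv_cancel_left (g i') (φ i'), (x1 i).add _ (p1 i').1 _ (w1 i').1,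
      (x1 i).ker _ (w2 i'), add_zero, (p1 i').2.2]
  refine ⟨q, Q, φ, ε, ⟨i1, fun i => ⟨(i2 i).2.1, (i2 i).2.2.1, nb i, f2 i, ?_, fun Q' o =>
    ⟨sp i Q' o, e3 i Q' o⟩⟩, e1, e2, e4⟩, fun i => ⟨x i, x1 i, by simp [xv], fun i' z => by
      rw [xv, if_neg z.symm]⟩, fun b y z hy f => ?_⟩
  · have := nq.stb m _ _ (i2 i).2.2.2.1.1 (k2 i)
    rwa [mul_inv_cancel_left] at this
  obtain ⟨μ, t, ht⟩ := a2 b z
  have b0 : (b : K) ≠ 0 := RingOfIntegers.coe_ne_zero_iff.2 z.1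
  have y0 : y ≠ 0 := fun c => b0 ((map_eq_zero j).1 (by rw [← hy, c, zero_pow three_ne_zero]))
  obtain ⟨s, hs⟩ := r2 μ (j t / y) (by
    rw [div_pow, hy, ← map_pow, ← ht, ← map_div₀, mul_div_cancel_left₀ _ b0])
    fun i => by rw [map_div₀, f1 i, f i]
  have s0 : s ^ 3 ≠ 0 := hs ▸ Finset.prod_ne_zero_iff.2 fun i _ =>
    pow_ne_zero _ (RingOfIntegers.coe_ne_zero_iff.2 (a1 i).1)
  exact ⟨t / s, by rw [div_pow, ← ht, hs, mul_div_cancel_right₀ _ s0]⟩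

end Vale.Agent.P014Y.Rd
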