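import Vale.Agent.P014Y.Rd.St2
import Vale.Agent.P014U.G2.Dim
import Vale.Agent.P022E.GW.Kc

/-! # P014Y, route R, row `VAL`: the valuations of a Kummer class which lifts (helper4) -/

set_option autoImplicit false
set_option linter.all false

open NumberField IsDedekindDomain UniqueFactorizationMonoid

noncomputable section

namespace Vale.Agent.P014Y.Rd

open Vale.Agent.P022 Vale.Agent.P022.C Vale.Agent.P022.H443 Vale.Agent.P022.H916
open Vale.Agent.P027M.S (Inert)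
open Vale.Agent.P022D.W
open Vale.Agent.P022E.GW (Ov Fb)
open Vale.Agent.P022K.G2

namespace Vl

variable {K : Type} [Field K] [NumberField K]

/-- a place of the algebraic closure above `v` -/
theorem ex_pl (j : K →+* Qb) (v : HeightOneSpectrum (𝓞 K)) :
    ∃ l P, Ov l P ∧ below j P = v.asIdeal := by
  obtain ⟨P, hP, e⟩ := P022E.GW.Kc.ex_above j v
  have n0 : Ideal.absNorm v.asIdeal ≠ 0 := Ideal.absNorm_eq_zero_iff.not.2 v.ne_bot
  have m : ((Ideal.absNorm v.asIdeal : ℕ) : 𝓞 Qb) ∈ P := by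
    have : ((Ideal.absNorm v.asIdeal : ℕ) : 𝓞 K) ∈ below j P := e ▸ Ideal.absNorm_mem _
    have h : RingOfIntegers.mapRingHom j _ ∈ P := this
    rwa [map_natCast] at h
  generalize Ideal.absNorm v.asIdeal = n at n0 m
  induction n using induction_on_primes with
  | zero => exact absurd rfl n0
  | one => exact absurd ((Ideal.eq_top_iff_one _).2 (by simpa using m)) hP.ne_top
  | prime_mul p a hp ih =>
    rw [Nat.cast_mul] at m
    exact (hP.mem_or_mem m).elim (fun h => ⟨p, P, ⟨hp, hP, h⟩, e⟩) (ih (right_ne_zero_of_mul n0))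

/-- from orders to ideals -/
theorem idl {a c : 𝓞 K} (a0 : a ≠ 0)
    (h : ∀ v : HeightOneSpectrum (𝓞 K), c ∉ v.asIdeal → (3 : ℤ) ∣ ordv v (a : K)) :
    ∃ (I J : Ideal (𝓞 K)) (n : ℕ), Ideal.span {a} = I ^ 3 * J ∧ J ∣ Ideal.span {c} ^ n := by
  classical
  have hI : Ideal.span {a} ≠ ⊥ := by simpa using a0
  set s := normalizedFactors (Ideal.span {a}) with hs
  obtain ⟨u, hu⟩ := Multiset.exists_smul_of_dvd_count (s.filter fun q => c ∉ q) (k := 3)
    fun q hq => by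
      obtain ⟨m, n⟩ := Multiset.mem_filter.1 hq
      have pr := prime_of_normalized_factor q m
      have := h ⟨q, Ideal.isPrime_of_prime pr, pr.ne_zero⟩ n
      rw [ordv, P027M.S.Gen.val_int, HeightOneSpectrum.intValuation_eq_exp_neg_multiplicity _ a0,
        WithZero.log_exp, neg_neg, multiplicity_eq_count_normalizedFactors pr.irreducible hI,
        normalize_eq] at this
      rw [Multiset.count_filter_of_pos (p := fun q => c ∉ q) n]
      exact_mod_cast this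
  refine ⟨u.prod, (s.filter fun q => ¬ c ∉ q).prod, (s.filter fun q => ¬ c ∉ q).card, ?_, ?_⟩
  · rw [← Multiset.prod_nsmul, ← hu, ← Multiset.prod_add, Multiset.filter_add_not, hs,
      Ideal.prod_normalizedFactors_eq_self hI]
  · rw [← Multiset.prod_replicate, ← Multiset.map_const']
    conv_lhs => rw [← Multiset.map_id (s.filter fun q => ¬ c ∉ q)]
    exact Multiset.prod_dvd_prod_of_dvd _ _ fun q hq =>
      Ideal.dvd_span_singleton.2 (not_not.1 (Multiset.mem_filter.1 hq).2)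

theorem sq_gz (g : GQ) : g * g ∈ Gz 3 := by
  rw [mem_Gz, oz_mul]
  have := oz_ne (p := 3) g
  revert this
  generalize oz 3 g = t
  revert t; decide

/-- **the symbol of an unramified character and a class which lifts** -/
theorem loc (j : K →+* Qb) {l : ℕ} {P : Ideal (𝓞 Qb)} (h : Ov l P)
    {v : HeightOneSpectrum (𝓞 K)} (hv : below j P = v.asIdeal) {a : K} {y : Qb}
    {x z z' : GQ → ZMod 3} (a0 : a ≠ 0) (hy : y ^ 3 = j a)
    (hz : ∀ g ∈ GK j, g y = zt 3 ^ (z g).val * y)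
    (hx : ∀ g ∈ GK j, ∀ h ∈ GK j, x (g * h) = x g + x h)
    (hz' : ∀ g ∈ GK j, ∀ h ∈ GK j, z' (g * h) = z' g + oz 3 g * z' h + x g * oz 3 g * z h)
    {W : Subgroup GQ} (hW : IsOpen (W : Set GQ)) (h0 : ∀ w ∈ GK j, w ∈ W → x w = 0 ∧ z' w = 0)
    (hI : ∀ g, Inert P g → x g = 0) {φ : GQ} (m1 : φ ∈ GK j) (m2 : φ ∈ dec P) (x0 : x φ ≠ 0) :
    (3 : ℤ) ∣ ordv v a := by
  have a1 : j a ≠ 0 := (map_ne_zero j).2 a0
  obtain ⟨M, _, _, _, _, jM, ρ, D, hM, hker⟩ := exists_fld j (GK j ⊓ Gz 3)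
    ((isOpen_GK j).inter Gz_open) inf_le_left fun g hg u hu =>
      ⟨(GK j).mul_mem ((GK j).mul_mem hg hu.1) ((GK j).inv_mem hg), Gz_normal.conj_mem u hu.2 g⟩
  obtain ⟨V, hV, lV⟩ := ex_lv' hW
  obtain ⟨V', hV', lV'⟩ := ex_lv_fix y
  have y0 : y ≠ 0 := root_ne a1 hy
  have key := P014U.G2.Dm.uns1 (p := 3) jM (hM ▸ inf_le_right) h (v := blw jM h) rfl (u := x)
    (a := algebraMap K M a)
    ⟨fun g m k n => hx g (hM ▸ m.1).1 k (hM ▸ n.1).1, V, hV,
      fun w m n => (h0 w (hM ▸ m.1).1 (lV n)).1⟩ (fun g _ => hI g)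
    ⟨φ * φ, ⟨hM ▸ ⟨mul_mem m1 m1, sq_gz φ⟩, mul_mem m2 m2⟩, by
      rw [hx φ m1 φ m1]
      revert x0
      generalize x φ = t
      revert t; decide⟩ ((map_ne_zero _).2 a0)
    ⟨-z', ⟨V ⊓ V', hV.inf hV', fun g m w n k => by
      have m' : g ∈ GK j ⊓ Gz 3 := hM ▸ m.1
      have n' : w ∈ GK j ⊓ Gz 3 := hM ▸ n.1
      have : z w = 0 := (ka_eq a1 hy n'.2 (hz w n'.1)).symm.trans
        ((ka_eq_zero a1 hy n'.2 (n'.1 a)).2 (lV' w k.2))
      simp [hz' g m'.1 w n'.1, (h0 w n'.1 (lV k.1)).2, this]⟩, fun g m k n => by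
      have m' : g ∈ GK j ⊓ Gz 3 := hM ▸ m.1
      have n' : k ∈ GK j ⊓ Gz 3 := hM ▸ n.1
      rw [d1_apply, cup, D.comp, ka_eq a1 hy n'.2 (hz k n'.1)]
      simp only [tr, hz' g m'.1 k n'.1, mem_Gz.1 m'.2, Pi.neg_apply, Module.End.one_apply]
      ring⟩
  let w := blw jM h
  haveI := H269.liesOver_dn v w ((D.below_comap P).trans hv)
  have he := Ideal.card_inertia_eq_ramificationIdxIn (G := M ≃ₐ[K] M) v.asIdeal w.asIdeal
  rw [Ideal.ramificationIdxIn_eq_ramificationIdx v.asIdeal w.asIdeal (M ≃ₐ[K] M),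
    ← Ideal.ramificationIdx'_eq_ramificationIdx _ _ v.ne_bot] at he
  have e3 : ¬ 3 ∣ v.asIdeal.ramificationIdx' w.asIdeal := fun d => by
    rw [← he] at d
    obtain ⟨τ, hτ⟩ := exists_prime_orderOf_dvd_card' 3 (d.trans (Subgroup.card_subgroup_dvd_card _))
    obtain ⟨g, rfl⟩ := D.surj τ
    have : ρ g ^ 2 = 1 := by
      rw [sq, ← map_mul]
      exact (hker _).2 ⟨(g * g).2, sq_gz g⟩
    have := orderOf_dvd_of_pow_eq_one this
    rw [hτ] at this
    omega
  have e4 : ordv w (algebraMap K M a) = (v.asIdeal.ramificationIdx' w.asIdeal : ℕ) * ordv v a := by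
    rw [ordv, ordv, ← HeightOneSpectrum.valuation_liesOver M v w a, WithZero.log_pow]
    simp
  rw [e4] at key
  exact (Int.prime_three.dvd_or_dvd key).resolve_left fun d => e3 (by exact_mod_cast d)

end Vl

open Vl in
/-- **row VAL** -/
theorem val : VAL := by
  intro K _ _ j _ c a y x z z' _ a0 hy hz hx hz' ⟨W, hW, h0⟩ H
  have a1 : (a : K) ≠ 0 := by exact_mod_cast a0
  refine idl a0 fun v hc => ?_
  obtain ⟨l, P, h, hv⟩ := ex_pl j v
  rcases H l P h (fun ⟨d, e⟩ => hc (by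
    have : (l : 𝓞 K) ∈ below j P := by
      show RingOfIntegers.mapRingHom j (l : 𝓞 K) ∈ P
      rw [map_natCast]; exact h.2.2
    rw [e, Nat.cast_mul, ← hv]
    exact Ideal.mul_mem_right _ _ this)) with ⟨l3, b⟩ | ⟨le, hI, φ, f, x0⟩
  · exact dvd_ordv (p := 3) j h hv a1 fun g m i => ⟨inert_gz h l3 i,
      (ka_eq ((map_ne_zero j).2 a1) hy (inert_gz h l3 i) (hz g m)).trans (b g m i)⟩
  · have m := phi_mem h.1 h.2.1 f
    exact loc j h hv a1 hy hz hx hz' hW h0 hI (le m) m x0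

end Vale.Agent.P014Y.Rd
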