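import Vale.Agent.P014Y.Rd.St0
import Vale.Agent.P004R.Vel

/-! # P014Y, route R: the row VEL (the formulas of Velu for an isogeny of degree three) -/

set_option autoImplicit false
set_option linter.all false

open UpperHalfPlane Filter Topology WeierstrassCurve.Affine

noncomputable section

namespace Vale.Agent.P014Y.Rd

open P027H P027M.M P004K P004R.Ve
open Vale.Agent.P009.H844 (curve Pt)
open Vale.Agent.P009.Z (xc yc)
open Vale.Agent.P009.H883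

namespace Ve

variable {Λ M : Submodule ℤ ℂ} {p : ℂ}

theorem flex {A B : ℂ} {P : Pt A B} (h : P + P = -P) (hy : yc P ≠ 0) :
    (3 * xc P ^ 2 + A) ^ 2 = 12 * xc P * yc P ^ 2 := by
  rcases P with _ | ⟨x, y, n⟩
  · exact absurd rfl hy
  replace hy : y ≠ 0 := hy
  have k : y ≠ (curve A B).negY x y := fun e => hy (by
    simp only [negY, curve] at e; linear_combination e / 2)
  rw [Point.add_self_of_Y_ne k, Point.neg_some, Point.some.injEq, addX, slope_of_Y_ne rfl k] at h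
  have := h.1
  simp only [negY, curve] at this
  show (3 * x ^ 2 + A) ^ 2 = 12 * x * y ^ 2
  rw [show y - (-y - 0 * x - 0) = 2 * y by ring] at this
  field_simp at this
  linear_combination this

/-- the invariants in terms of `u = ℘'' / ℘'` and `B = ℘'` -/
theorem velu (hΛ : IsLat Λ) (hM : IsLat M) (h : Reps ![0, p, -p] Λ M) (h3 : 3 * p ∈ Λ) :
    dwp Λ p ≠ 0 ∧ ∃ u, 6 * wp Λ p ^ 2 - g2 Λ / 2 = u * dwp Λ p ∧
      g2 Λ = u ^ 4 / 12 - 2 * u * dwp Λ p ∧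
      g3 Λ = -u ^ 6 / 216 + u ^ 3 * dwp Λ p / 6 - dwp Λ p ^ 2 ∧
      g2 M = u ^ 4 / 12 + 18 * u * dwp Λ p ∧
      g3 M = -u ^ 6 / 216 + 5 * u ^ 3 * dwp Λ p / 2 + 27 * dwp Λ p ^ 2 := by
  have hp : p ∉ Λ := fun a => absurd (h.inj 1 0 (by simpa using a)) (by simp)
  have B0 : dwp Λ p ≠ 0 := fun e => hp (mem_of_eq (sub_mem h3 ((hΛ.dwp_eq_zero hp).1 e)) (by ring))
  obtain ⟨ex, -, hk, hx⟩ := hΛ.unif
  have f := flex (P := ex p) (by
    rw [← map_add, ← map_neg, ← sub_eq_zero, ← map_sub, hk]; exact mem_of_eq h3 (by ring))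
    fun e => B0 (by rw [← (hx p).2, e, mul_zero])
  obtain ⟨u, hu⟩ : ∃ u, 6 * wp Λ p ^ 2 - g2 Λ / 2 = u * dwp Λ p :=
    ⟨_, (div_mul_cancel₀ _ B0).symm⟩
  have e1 : wp Λ p = u ^ 2 / 12 := mul_left_cancel₀ (pow_ne_zero 2 B0) (by
    rw [(hx p).1, show yc (ex p) = dwp Λ p / 2 by linear_combination (hx p).2 / 2] at f
    linear_combination -f / 3 + (6 * wp Λ p ^ 2 - g2 Λ / 2 + u * dwp Λ p) / 12 * hu)
  have e2 : g2 Λ = u ^ 4 / 12 - 2 * u * dwp Λ p := by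
    rw [e1] at hu; linear_combination -2 * hu
  have e3 : g3 Λ = -u ^ 6 / 216 + u ^ 3 * dwp Λ p / 6 - dwp Λ p ^ 2 := by
    have := hΛ.ode hp
    rw [e1, e2] at this; linear_combination this
  have n : ∀ z, z ∉ M → z ∉ Λ ∧ wp Λ z - wp Λ p ≠ 0 := fun z hz => ⟨fun a => hz (h.le a),
    sub_ne_zero.2 (hΛ.wp_ne (fun a => hz (h.le a)) hp
      (fun a => hz (mem_of_eq (add_mem (h.le a) (h.mem 1)) (by simp)))
      fun a => hz (mem_of_eq (add_mem (h.le a) (h.mem 2)) (by simp)))⟩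
  have key : ∀ z, z ∉ M → (wp M z - wp Λ z) * (wp Λ z - wp Λ p) ^ 2 =
      u * dwp Λ p * (wp Λ z - wp Λ p) + dwp Λ p ^ 2 := fun z hz => by
    obtain ⟨n1, n2⟩ := n z hz
    have a1 := h.wp hΛ hM z
    simp only [Fin.sum_univ_three, Matrix.cons_val_zero, Matrix.cons_val_one, Matrix.cons_val_two,
      Matrix.head_cons, Matrix.tail_cons, sub_zero, hΛ.wp_mem (zero_mem _), hΛ.wp_neg,
      sub_neg_eq_add] at a1
    obtain ⟨-, k1, -⟩ := chord (mt (hk z).1 n1) (mt (hk p).1 hp)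
      (by rw [(hx z).1, (hx p).1]; exact sub_ne_zero.1 n2)
    obtain ⟨-, k2, -⟩ := chord (mt (hk z).1 n1) (neg_ne_zero.2 (mt (hk p).1 hp))
      (by rw [xc_neg, (hx z).1, (hx p).1]; exact sub_ne_zero.1 n2)
    rw [xc_neg, yc_neg, ← map_neg, ← map_add, ← sub_eq_add_neg] at k2
    rw [← map_add] at k1
    simp only [(hx _).1, cX] at k1 k2
    have o := hΛ.ode n1
    have o' := hΛ.ode hp
    rw [a1, k1, k2, ← hu, ← (hx p).2]
    rw [← (hx z).2] at o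
    rw [← (hx p).2] at o'
    field_simp
    linear_combination o - o'
  have he : ∀ z, z ∉ M → 0 * wp M z ^ 2 + (g2 M - (u ^ 4 / 12 + 18 * u * dwp Λ p)) * wp M z +
      (g3 M - (-u ^ 6 / 216 + 5 * u ^ 3 * dwp Λ p / 2 + 27 * dwp Λ p ^ 2)) = 0 := fun z hz => by
    obtain ⟨n1, n2⟩ := n z hz
    have w := (hΛ.hasDerivAt_wp n1).sub_const (wp Λ p)
    have d := ((((hM.hasDerivAt_wp hz).sub (hΛ.hasDerivAt_wp n1)).mul (w.pow 2))).unique
      (((w.const_mul (u * dwp Λ p)).add_const (dwp Λ p ^ 2)).congr_of_eventuallyEq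
        ((hM.notMem_nhds hz).mono key))
    have k := key z hz
    have o1 := hΛ.ode n1
    have o2 := hM.ode hz
    simp only [Pi.sub_apply, Pi.pow_apply, Nat.cast_ofNat] at d
    rw [e2, e3] at o1
    obtain ⟨s, hs⟩ : ∃ s, wp Λ z = s + u ^ 2 / 12 := ⟨_, (sub_add_cancel _ _).symm⟩
    rw [e1, hs, add_sub_cancel_right] at n2 k d
    rw [hs] at o1
    generalize wp M z = X at *
    generalize dwp M z = X' at *
    generalize dwp Λ z = x' at *
    generalize dwp Λ p = B at *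
    obtain rfl : X = s + u ^ 2 / 12 + (u * B * s + B ^ 2) / s ^ 2 := by
      field_simp; linear_combination 12 * k
    obtain rfl : X' = x' * (1 - u * B / s ^ 2 - 2 * B ^ 2 / s ^ 3) := by
      field_simp at d ⊢
      exact mul_left_cancel₀ n2 (by linear_combination d / 12)
    rw [mul_pow, o1] at o2
    field_simp at o2 ⊢
    exact mul_left_cancel₀ (pow_ne_zero 2 n2) (by linear_combination o2 / 36)
  obtain ⟨x, y, z, hx, hy, hz, -, -, -, n1, n2, n3⟩ := hM.exists_three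
  obtain ⟨-, k2, k3⟩ := quad3 n1 n2 n3 (he x hx) (he y hy) (he z hz)
  exact ⟨B0, u, hu, e2, e3, sub_eq_zero.1 k2, sub_eq_zero.1 k3⟩

theorem coe_three (τ : ℍ) : ((ofComplex (3 * τ) : ℍ) : ℂ) = 3 * τ := by
  rw [ofComplex_apply_of_im_pos (by simpa using τ.im_pos)]

theorem third (τ : ℍ) {k : ℤ} (h : (k / 3 : ℂ) ∈ lat τ) : 3 ∣ k := by
  obtain ⟨m, n, e⟩ := mem_lat.1 h
  have a := (int_indep τ (s := 3 * m) (t := 3 * n - k) (by push_cast; linear_combination 3 * e)).2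
  have : 3 * n - k = 0 := by exact_mod_cast a
  omega

theorem reps (τ : ℍ) :
    Reps ![0, 1 / 3, -(1 / 3)] (lat τ) (scl 3⁻¹ (lat (ofComplex (3 * τ)))) := by
  have m : ∀ z, z ∈ scl 3⁻¹ (lat (ofComplex (3 * τ))) ↔ ∃ m n : ℤ, (m : ℂ) * (3 * τ) + n = 3 * z :=
    fun z => by rw [mem_scl, inv_inv, mem_lat, coe_three]
  have r : ∀ i : Fin 3, ![0, 1 / 3, -(1 / 3)] i = ((![0, 1, -1] i : ℤ) / 3 : ℂ) := fun i => by
    fin_cases i <;> simp [neg_div]
  refine ⟨fun z hz => ?_, fun i => ?_, fun z hz => ?_, fun i k a => ?_⟩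
  · obtain ⟨a, b, rfl⟩ := mem_lat.1 hz
    exact (m _).2 ⟨a, 3 * b, by push_cast; ring⟩
  · exact (m _).2 ⟨0, ![0, 1, -1] i, by rw [r]; simp [mul_div_cancel₀]⟩
  · obtain ⟨a, b, e⟩ := (m z).1 hz
    obtain ⟨c, i, rfl⟩ : ∃ (c : ℤ) (i : Fin 3), b = 3 * c + ![0, 1, -1] i := by
      obtain k | k | k : b % 3 = 0 ∨ b % 3 = 1 ∨ b % 3 = 2 := by omega
      exacts [⟨b / 3, 0, by simp; omega⟩, ⟨b / 3, 1, by simp; omega⟩, ⟨b / 3 + 1, 2, by simp; omega⟩]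
    exact ⟨i, mem_lat.2 ⟨a, c, by rw [r]; push_cast at e; linear_combination e / 3⟩⟩
  · have := third τ (k := ![0, 1, -1] i - ![0, 1, -1] k) (by rwa [r, r, ← sub_div, ← Int.cast_sub] at a)
    clear a
    revert i k
    decide

/-- the quotient `℘'' / ℘'` at one third -/
def uu (τ : ℍ) : ℂ := (6 * wp (lat τ) (1 / 3) ^ 2 - g2 (lat τ) / 2) / dwp (lat τ) (1 / 3)

/-- the parameter -/
def tt (τ : ℍ) : ℂ := 729 * dwp (lat τ) (1 / 3) / (uu τ ^ 3 - 27 * dwp (lat τ) (1 / 3))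

theorem three (τ : ℍ) : ∀ u B, u = uu τ → B = dwp (lat τ) (1 / 3) → B ≠ 0 ∧ u ^ 3 - 27 * B ≠ 0 ∧
    g2 (lat τ) = u * (u ^ 3 - 24 * B) / 12 ∧ DL (lat τ) = B ^ 3 * (u ^ 3 - 27 * B) ∧
    g2 (lat (ofComplex (3 * τ))) = u * (u ^ 3 + 216 * B) / 972 ∧
    DL (lat (ofComplex (3 * τ))) = B * (u ^ 3 - 27 * B) ^ 3 / 729 ^ 2 := by
  have H := hom_scl (c := 3⁻¹) (by norm_num) (lat (ofComplex (3 * τ)))
  obtain ⟨B0, u, hu, k0, k1, k2, k3⟩ := velu (isLat τ) (H.isLat (isLat _)) (reps τ)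
    (mem_of_eq (int_mem τ 1) (by norm_num))
  rw [H.g2] at k2
  rw [H.g3] at k3
  rintro _ _ rfl rfl
  rw [uu, hu, mul_div_cancel_right₀ _ B0]
  have a : DL (lat τ) = dwp (lat τ) (1 / 3) ^ 3 * (u ^ 3 - 27 * dwp (lat τ) (1 / 3)) := by
    rw [DL, k0, k1]; ring
  have b : g2 (lat (ofComplex (3 * τ))) = u * (u ^ 3 + 216 * dwp (lat τ) (1 / 3)) / 972 := by
    linear_combination k2 / 81
  refine ⟨B0, right_ne_zero_of_mul (a ▸ DL_ne (isLat τ)), by rw [k0]; ring, a, b, ?_⟩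
  rw [DL, b, show g3 (lat (ofComplex (3 * τ))) = (3⁻¹⁻¹ ^ 6 * g3 (lat (ofComplex (3 * τ)))) / 729 by
    ring, k3]
  ring

end Ve

open Ve

/-- **VEL** -/
theorem vel : VEL := ⟨tt, fun τ => by
  obtain ⟨n1, n2, g, a, g', b⟩ := three τ _ _ rfl rfl
  refine ⟨div_ne_zero (mul_ne_zero (by norm_num) n1) n2, ?_, ?_, ?_, ?_⟩
  · rw [a, b, tt]; field_simp
  any_goals
    first | rw [jL, ← DL, a, g, tt] | rw [jL, ← DL, b, g', tt] | skip
  any_goals
    obtain ⟨D, hD⟩ : ∃ D, uu τ ^ 3 = D + 27 * dwp (lat τ) (1 / 3) := ⟨_, (sub_add_cancel _ _).symm⟩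
    rw [hD, add_sub_cancel_right] at n2
  · rw [div_pow (_ * _), mul_pow (uu τ), hD, add_sub_cancel_right]
    field_simp; ring
  · rw [div_pow (_ * _), mul_pow (uu τ), hD, add_sub_cancel_right]
    field_simp; ring
  · rintro σ τ' ⟨ψ, ⟨μ, m0, T⟩, k, hk⟩
    have H := hom_scl m0 (lat τ')
    simp only [Nat.cast_ofNat] at hk
    have w := T.wp (1 / 3)
    have d := T.dwp (1 / 3)
    have e := T.g23.1
    rw [H.g2] at e
    rw [H.wp] at w
    rw [H.dwp] at d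
    rw [RingHom.coe_coe] at w d e
    obtain ⟨ε, h1, w', d'⟩ : ∃ ε : ℂ, ε ^ 2 = 1 ∧ wp (lat τ') (ψ (1 / 3)) = wp (lat τ') (1 / 3) ∧
        dwp (lat τ') (ψ (1 / 3)) = ε * dwp (lat τ') (1 / 3) := by
      obtain ⟨c, rfl | rfl | rfl⟩ : ∃ c, k = 3 * c ∨ k = 3 * c + 1 ∨ k = 3 * c - 1 := by
        obtain l | l | l : k % 3 = 0 ∨ k % 3 = 1 ∨ k % 3 = 2 := by omega
        exacts [⟨k / 3, by omega⟩, ⟨k / 3, by omega⟩, ⟨k / 3 + 1, by omega⟩]
      · exact absurd (third τ (k := 1) (by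
          simpa using (T.mem _).1 ((H.2 _).1 (mem_of_eq (add_mem hk (int_mem τ' c))
            (by push_cast; ring))))) (by decide)
      · have m : ψ (1 / 3) - 1 / 3 ∈ lat τ' :=
          mem_of_eq (add_mem hk (int_mem τ' c)) (by push_cast; ring)
        exact ⟨1, one_pow 2, (isLat τ').wp_congr m, by rw [(isLat τ').dwp_congr m, one_mul]⟩
      · have m : ψ (1 / 3) + 1 / 3 ∈ lat τ' :=
          mem_of_eq (add_mem hk (int_mem τ' c)) (by push_cast; ring)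
        exact ⟨-1, neg_one_sq, (isLat τ').wp_congr' m, by rw [(isLat τ').dwp_congr' m, neg_one_mul]⟩
    obtain ⟨n3, n4, -⟩ := three τ' _ _ rfl rfl
    have ε0 : ε ≠ 0 := fun z => by simp [z] at h1
    have su : σ (uu τ) = ε * μ⁻¹ * uu τ' := by
      simp only [uu, map_div₀, map_mul, map_sub, map_pow, map_ofNat, ← w, ← d, ← e, w', d']
      field_simp
      rw [h1, mul_one]
    simp only [tt, map_div₀, map_mul, map_sub, map_pow, map_ofNat, su, ← d, d']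
    rw [show (ε * μ⁻¹ * uu τ') ^ 3 - 27 * (μ⁻¹ ^ 3 * (ε * dwp (lat τ') (1 / 3))) =
      ε * μ⁻¹ ^ 3 * (uu τ' ^ 3 - 27 * dwp (lat τ') (1 / 3)) by
        linear_combination ε * μ⁻¹ ^ 3 * uu τ' ^ 3 * h1]
    field_simp⟩

end Vale.Agent.P014Y.Rd
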