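import Vale.Agent.P014Y.Rd.Abs
import Vale.Agent.P014Y.Rd.Adj
import Vale.Agent.P014Y.Rd.Alg
import Vale.Agent.P014Y.Rd.Art
import Vale.Agent.P014Y.Rd.Bsx
import Vale.Agent.P014Y.Rd.Cls
import Vale.Agent.P014Y.Rd.Cnf
import Vale.Agent.P014Y.Rd.Cub
import Vale.Agent.P014Y.Rd.Dpt
import Vale.Agent.P014Y.Rd.Du
import Vale.Agent.P014Y.Rd.Du1
import Vale.Agent.P014Y.Rd.Ext
import Vale.Agent.P014Y.Rd.Fac
import Vale.Agent.P014Y.Rd.Fld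
import Vale.Agent.P014Y.Rd.Gdr
import Vale.Agent.P014Y.Rd.Gen
import Vale.Agent.P014Y.Rd.Ins
import Vale.Agent.P014Y.Rd.Ki
import Vale.Agent.P014Y.Rd.Kil
import Vale.Agent.P014Y.Rd.Kuk
import Vale.Agent.P014Y.Rd.Kx
import Vale.Agent.P014Y.Rd.Lev
import Vale.Agent.P014Y.Rd.Lex
import Vale.Agent.P014Y.Rd.Lfa
import Vale.Agent.P014Y.Rd.Lfb
import Vale.Agent.P014Y.Rd.Lin
import Vale.Agent.P014Y.Rd.Loc
import Vale.Agent.P014Y.Rd.Loi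
import Vale.Agent.P014Y.Rd.Low
import Vale.Agent.P014Y.Rd.Mu
import Vale.Agent.P014Y.Rd.Mul
import Vale.Agent.P014Y.Rd.Ort
import Vale.Agent.P014Y.Rd.Ph1
import Vale.Agent.P014Y.Rd.Qf
import Vale.Agent.P014Y.Rd.Recs
import Vale.Agent.P014Y.Rd.Reg
import Vale.Agent.P014Y.Rd.Shf
import Vale.Agent.P014Y.Rd.Shp
import Vale.Agent.P014Y.Rd.Tau
import Vale.Agent.P014Y.Rd.Top
import Vale.Agent.P014Y.Rd.Tw1
import Vale.Agent.P014Y.Rd.Twr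
import Vale.Agent.P014Y.Rd.Uni
import Vale.Agent.P014Y.Rd.Val
import Vale.Agent.P014Y.Rd.Vel
import Vale.Agent.P004K.Rc.All
import Vale.Agent.P004K.Hg.At
import Vale.Agent.P004K.Tr
import Vale.Agent.P004F.Qx.Exp
import Vale.Agent.P004F.Qx.Dep
import Vale.Agent.P004F.Qx.Vex

/-! # P014Y, block Rd: the rows together -/

set_option autoImplicit false

namespace Vale.Agent.P014Y.Rd

open P004K P004F

theorem lev_all : LEV :=
  have g := gdr x_rc1 x_rc2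
  lev x_rc1 (alg g lex (mu x_rc1 x_rc2 kuk val) loi (du recs du1 ort))
    (low (fld x_rc1 x_rc2) (uni vel Rc.iq (hg1 Rc.iq jh x_rc1 cj0) cj0 x_rc1 x_rc2 int_row jh)
      (cnf reg (lfa x_rc2) (lfb x_rc1 x_rc2 Rc.iq) x_rc1) (ins abs loc) (dpt x_rc1) (shp x_rc2))
    shf mul g

theorem tw1_all : TW1 :=
  tw1 (cls x_rc1 x_rc2 cub) (ph1 ki0 (kx x_rc1)) ki (ext x_rc1 x_rc2 x_rc3)

theorem red3_of (tw2 : TW2) : RED3 :=
  have h := hg1 Rc.iq jh x_rc1 cj0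
  red3 h cj0 (Qx.qexp Qx.vex h (Qx.dep_row h x_rc2))
    (qf Qx.mpc Qx.vex h x_rc1 x_rc2 tr0 tau) csg
    (twr x_rc1 bsx gen tw1_all tw2 (kil x_rc1 pls (art x_rc2 cub))) lev_all fac

end Vale.Agent.P014Y.Rd
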