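import Vale.Agent.P014Y.Rd.St2
import Vale.Agent.P022K.CH.Tame
import Vale.Agent.P022K.GW.Pl

/-!
# P014Y, route R: the local indices at the tame places
-/

set_option autoImplicit false
set_option linter.all false

open NumberField
open scoped Pointwise PowerSeries

noncomputable section

namespace Vale.Agent.P014Y.Rd

open Vale.Agent.P022
open Vale.Agent.P027M.S (Inert)
open Vale.Agent.P022D.W (dec inP_le_dec conj_inP phi_mem dec_gen exists_phi)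
open Vale.Agent.P022.H443 (inP)
open Vale.Agent.P022E.GW (Ov Fb)
open Vale.Agent.P022K.CH.Loc (WMod chi_data exists_tau)

namespace Li

variable {R : Type} [CommRing R] {ρ : (ZMod 3)⟦X⟧ →+* R} {J : ℕ}

theorem three (ρ : (ZMod 3)⟦X⟧ →+* R) : (3 : R) = 0 := by
  have h : ((3 : ℕ) : (ZMod 3)⟦X⟧) = 0 := by
    rw [← map_natCast (PowerSeries.C (R := ZMod 3)), ZMod.natCast_self, map_zero]
  have := congrArg ρ h
  rwa [map_natCast, map_zero, Nat.cast_ofNat] at this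

theorem nil (q : Tq ρ J) : tt ρ ^ J = 0 := by rw [← map_pow, q.ker]

theorem ann (q : Tq ρ J) (h : 2 ≤ J) {x : R} (e : tt ρ * x = 0) :
    ∃ c : ZMod 3, x = tt ρ * (tt ρ ^ (J - 2) * ρ (PowerSeries.C c)) := by
  obtain ⟨y, rfl⟩ := q.sur x
  obtain ⟨k, rfl⟩ := Nat.exists_eq_add_of_le h
  rw [← map_mul, q.ker, show 2 + k = k + 1 + 1 by omega, pow_succ',
    mul_dvd_mul_iff_left PowerSeries.X_ne_zero] at e
  obtain ⟨s, rfl⟩ := e
  refine ⟨PowerSeries.constantCoeff s, ?_⟩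
  obtain ⟨s', hs⟩ := PowerSeries.X_dvd_iff.2
    (show PowerSeries.constantCoeff (s - PowerSeries.C (PowerSeries.constantCoeff s)) = 0 by simp)
  have n := nil q
  rw [sub_eq_iff_eq_add.1 hs]
  simp only [map_mul, map_add, map_pow, Nat.add_sub_cancel_left, PowerSeries.constantCoeff_X,
    PowerSeries.constantCoeff_C, zero_mul, zero_add]
  linear_combination ρ s' * n

theorem uni (q : Tq ρ J) {x : R} (h : tt ρ ∣ x - 1) : x ^ 3 ^ J = 1 := by
  obtain ⟨b, hb⟩ := h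
  have k : ∀ n : ℕ, x ^ 3 ^ n = 1 + (tt ρ * b) ^ 3 ^ n := fun n => by
    induction n with
    | zero => rw [pow_zero, pow_one, pow_one, ← hb]; ring
    | succ n ih =>
      rw [pow_succ 3, pow_mul, pow_mul, ih]
      linear_combination ((tt ρ * b) ^ 3 ^ n + ((tt ρ * b) ^ 3 ^ n) ^ 2) * three ρ
  rw [k, mul_pow, pow_eq_zero_of_le (Nat.lt_pow_self (by norm_num)).le (nil q), zero_mul, add_zero]

/-- a character and a cocycle on `D`, trivial on `V` -/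
structure Cc (D V : Subgroup GQ) (χ z : GQ → R) : Prop where
  mul : ∀ g ∈ D, ∀ h ∈ D, χ (g * h) = χ g * χ h
  coc : ∀ g ∈ D, ∀ h ∈ D, z (g * h) = z g + χ g * z h
  tr : ∀ w ∈ D, w ∈ V → χ w = 1 ∧ z w = 0

variable {D D' V : Subgroup GQ} {χ z : GQ → R} {g h : GQ}

theorem Cc.mono (c : Cc D V χ z) (le : D' ≤ D) : Cc D' V χ z :=
  ⟨fun g a h b => c.mul g (le a) h (le b), fun g a h b => c.coc g (le a) h (le b),
    fun w a => c.tr w (le a)⟩

theorem Cc.one (c : Cc D V χ z) : χ 1 = 1 ∧ z 1 = 0 := c.tr 1 D.one_mem V.one_mem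

theorem Cc.pw (c : Cc D V χ z) (m : g ∈ D) (n : ℕ) : χ (g ^ n) = χ g ^ n ∧
    (χ g - 1) * z (g ^ n) = (χ g ^ n - 1) * z g ∧ (z g = 0 → z (g ^ n) = 0) ∧
    (χ g = 1 → z (g ^ n) = n * z g) := by
  induction n with
  | zero => simp [c.one.1, c.one.2]
  | succ n ih =>
    obtain ⟨i1, i2, i3, i4⟩ := ih
    rw [pow_succ g, c.mul _ (D.pow_mem m n) _ m, c.coc _ (D.pow_mem m n) _ m, i1]
    refine ⟨by ring, by linear_combination i2, fun e => by rw [i3 e, e]; ring, fun e => ?_⟩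
    rw [i4 e, e]
    push_cast
    ring

theorem Cc.cj (c : Cc D V χ z) (a : g ∈ D) (b : h ∈ D) : χ (g * h * g⁻¹) = χ h ∧
    z (g * h * g⁻¹) = (1 - χ h) * z g + χ g * z h := by
  have k := D.mul_mem (D.mul_mem a b) (D.inv_mem a)
  have e0 := c.mul g a _ (D.inv_mem a)
  have e1 := c.mul _ (D.mul_mem a b) _ (D.inv_mem a)
  have e2 := c.coc _ k g a
  rw [mul_inv_cancel, c.one.1] at e0
  rw [c.mul g a h b] at e1
  have e3 : χ (g * h * g⁻¹) = χ h := by linear_combination e1 - χ h * e0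
  rw [inv_mul_cancel_right, c.coc g a h b, e3] at e2
  exact ⟨e3, by linear_combination -e2⟩

theorem Cc.sub (c : Cc D V χ z) (r m : R) : Cc D V χ fun g => r * z g - (χ g - 1) * m :=
  ⟨c.mul, fun g a h b => by rw [c.coc g a h b, c.mul g a h b]; ring,
    fun w a b => ⟨(c.tr w a b).1, by rw [(c.tr w a b).1, (c.tr w a b).2]; ring⟩⟩

theorem Cc.wild (c : Cc D V χ z) (h3 : (3 : R) = 0) {l k : ℕ} (co : l.Coprime 3) (m : g ∈ D)
    (e : χ g ^ 3 ^ k = 1) (w : WMod l V g) : χ g = 1 ∧ z g = 0 := by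
  obtain ⟨n, w⟩ := w
  obtain ⟨w1, w2⟩ := c.tr _ (D.pow_mem m _) w
  obtain ⟨p1, -, -, p4⟩ := c.pw m (l ^ n)
  have e1 : χ g = 1 := by
    have := pow_gcd_eq_one.2 ⟨p1.symm.trans w1, e⟩
    rwa [Nat.Coprime.pow n k co, pow_one] at this
  refine ⟨e1, ?_⟩
  have cp := (Nat.isCoprime_iff_coprime.2 (co.pow_left n)).map (Int.castRingHom R)
  obtain ⟨a, b, ab⟩ := cp
  simp only [eq_intCast, Int.cast_natCast, Nat.cast_ofNat, Int.cast_ofNat] at ab
  rw [p4 e1] at w2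
  linear_combination a * w2 - z g * ab + b * z g * h3

variable {l : ℕ} {Q : Ideal (𝓞 Qb)} {τ φ : GQ}

/-- a generator of tame inertia -/
def Tg (l : ℕ) (Q : Ideal (𝓞 Qb)) (τ : GQ) : Prop := τ ∈ inP Q ∧ ∀ U : Subgroup GQ, U.Normal →
  IsOpen (U : Set GQ) → ∀ g ∈ inP Q, ∃ n : ℕ, WMod l U ((τ ^ n)⁻¹ * g)

/-- the standing hypotheses -/
structure Hy (l : ℕ) (Q : Ideal (𝓞 Qb)) (τ φ : GQ) (V : Subgroup GQ) (χ z : GQ → R) : Prop where
  ov : Ov l Q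
  co : l.Coprime 3
  h3 : (3 : R) = 0
  tg : Tg l Q τ
  fb : Fb l Q φ
  nrm : V.Normal
  opn : IsOpen (V : Set GQ)
  cc : Cc (dec Q) V χ z
  un : ∃ k, ∀ s ∈ inP Q, χ s ^ 3 ^ k = 1

theorem Hy.sub (H : Hy l Q τ φ V χ z) (r m : R) :
    Hy l Q τ φ V χ fun g => r * z g - (χ g - 1) * m := { H with cc := H.cc.sub r m }

theorem Hy.tame (H : Hy l Q τ φ V χ z) {s : GQ} (m : s ∈ inP Q) :
    ∃ n : ℕ, χ s = χ τ ^ n ∧ z s = z (τ ^ n) := by
  obtain ⟨n, w⟩ := H.tg.2 V H.nrm H.opn s m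
  obtain ⟨k, hk⟩ := H.un
  have t := (inP Q).pow_mem H.tg.1 n
  have r := (inP Q).mul_mem ((inP Q).inv_mem t) m
  obtain ⟨e1, e2⟩ := H.cc.wild H.h3 H.co (inP_le_dec r) (hk _ r) w
  have a := H.cc.mul _ (inP_le_dec t) _ (inP_le_dec r)
  have b := H.cc.coc _ (inP_le_dec t) _ (inP_le_dec r)
  rw [mul_inv_cancel_left, e1, mul_one, (H.cc.pw (inP_le_dec H.tg.1) n).1] at a
  rw [mul_inv_cancel_left, e2, mul_zero, add_zero] at b
  exact ⟨n, a, b⟩

theorem Hy.fm (H : Hy l Q τ φ V χ z) : φ ∈ dec Q := phi_mem H.ov.1 H.ov.2.1 H.fb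

theorem Hy.tm (H : Hy l Q τ φ V χ z) : τ ∈ dec Q := inP_le_dec H.tg.1

theorem Hy.van (H : Hy l Q τ φ V χ z) (e1 : z τ = 0) (e2 : z φ = 0) : ∀ g ∈ dec Q, z g = 0 := by
  intro g m
  obtain ⟨k, s, u, hs, hu, e⟩ := dec_gen H.ov.1 H.ov.2.1 H.ov.2.2 H.fb m V H.opn
  have f := (dec Q).pow_mem H.fm k
  have um : u ∈ dec Q := by
    have := (dec Q).mul_mem ((dec Q).mul_mem m ((dec Q).inv_mem (inP_le_dec hs))) ((dec Q).inv_mem f)
    rwa [e, mul_inv_cancel_right, mul_inv_cancel_right] at this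
  obtain ⟨n, -, b⟩ := H.tame hs
  rw [e, H.cc.coc _ ((dec Q).mul_mem um f) _ (inP_le_dec hs), H.cc.coc _ um _ f, b,
    (H.cc.pw H.tm n).2.2.1 e1, (H.cc.pw H.fm k).2.2.1 e2, (H.cc.tr u um hu).2]
  ring

theorem Hy.cob (H : Hy l Q τ φ V χ z) (r m : R) (e1 : r * z τ = (χ τ - 1) * m)
    (e2 : r * z φ = (χ φ - 1) * m) : ∀ g ∈ dec Q, r * z g = (χ g - 1) * m := fun g a =>
  sub_eq_zero.1 ((H.sub r m).van (sub_eq_zero.2 e1) (sub_eq_zero.2 e2) g a)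

theorem Hy.ram (H : Hy l Q τ φ V χ z) (m : g ∈ dec Q) :
    (χ τ - 1) ^ 2 * z g = (χ g - 1) * ((χ τ - 1) * z τ) := by
  obtain ⟨n, a, b⟩ := H.tame (conj_inP m H.tg.1)
  obtain ⟨c1, c2⟩ := H.cc.cj m H.tm
  have p := (H.cc.pw H.tm n).2.1
  rw [← b, c2, ← a, c1] at p
  linear_combination -p

theorem Hy.unr (H : Hy l Q τ φ V χ z) (u : ∀ t ∈ inP Q, χ t = 1) : (χ φ - l) * z τ = 0 := by
  have := H.nrm
  obtain ⟨k, _, _, c, -, -, w⟩ := chi_data V H.opn H.ov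
  have a := conj_inP H.fm H.tg.1
  have t := (inP Q).pow_mem H.tg.1 l
  have r := (inP Q).mul_mem a ((inP Q).inv_mem t)
  have e := (H.cc.wild (k := 0) H.h3 H.co (inP_le_dec r) (by rw [u _ r, one_pow])
    (w φ H.fb τ H.tg.1)).2
  have b := H.cc.coc _ (inP_le_dec r) _ (inP_le_dec t)
  rw [inv_mul_cancel_right, e, u _ r, (H.cc.cj H.fm H.tm).2,
    (H.cc.pw H.tm l).2.2.2 (u _ H.tg.1), u _ H.tg.1] at b
  linear_combination b

/-- one place -/
theorem loc (q : Tq ρ J) (o : Ov l Q) (n3 : l ≠ 3) (lt : Lt ρ χ l Q) {V₀ : Subgroup GQ}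
    (v1 : V₀.Normal) (v2 : IsOpen (V₀ : Set GQ)) (c0 : Cc (dec Q) V₀ χ 0) :
    ∃ (τ φ : GQ) (α β : R), ∀ (z : GQ → R) (V : Subgroup GQ), V.Normal → IsOpen (V : Set GQ) →
      Cc (dec Q) V χ z → (∃ m, ∀ g ∈ dec Q, tt ρ ^ 2 * z g = (χ g - 1) * m) ∧
      (2 ≤ J → (∀ g, tt ρ * z g = 0) → α * z τ + β * z φ = 0 →
        ∃ m, ∀ g ∈ dec Q, z g = (χ g - 1) * m) := by
  obtain ⟨τ, tg⟩ := exists_tau o
  obtain ⟨φ, fb⟩ := exists_phi o.1 o.2.1 o.2.2
  have co : l.Coprime 3 := (Nat.coprime_primes o.1 Nat.prime_three).2 n3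
  have hy : ∀ (z : GQ → R) (V : Subgroup GQ), V.Normal → IsOpen (V : Set GQ) → Cc (dec Q) V χ z →
      Hy l Q τ φ V χ z := fun z V a b c => ⟨o, co, three ρ, tg, fb, a, b, c, J, fun s m =>
    lt.elim (fun h => uni q (h.1 s (inP_le_dec m))) fun h => by rw [h.1 s m, one_pow]⟩
  have H0 := hy 0 V₀ v1 v2 c0
  obtain ⟨rt, t, ti, td⟩ | ⟨u, f⟩ := lt
  · obtain ⟨n, a, -⟩ := H0.tame (s := t) ti
    obtain ⟨u, hu⟩ := (sub_one_dvd_pow_sub_one (χ τ) n).trans (a ▸ td)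
    obtain ⟨b, hb⟩ := rt φ H0.fm
    refine ⟨τ, φ, -(b * u), 1, fun z V a1 a2 c => ⟨⟨tt ρ * u * z τ, fun g m => ?_⟩,
      fun j k e => ?_⟩⟩
    · have := (hy z V a1 a2 c).ram m
      rw [hu]
      linear_combination u ^ 2 * this
    · obtain ⟨s, hs⟩ := ann q j (k τ)
      generalize tt ρ ^ (J - 2) * ρ (PowerSeries.C s) = y at hs
      refine ⟨u * y, fun g m => (one_mul _).symm.trans ((hy z V a1 a2 c).cob 1 _ ?_ ?_ g m)⟩
      · linear_combination hs + y * hu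
      · linear_combination e + b * u * hs - u * y * hb
  · obtain ⟨⟨a, ha⟩, b, hb⟩ := f φ fb
    refine ⟨τ, φ, 1, 0, fun z V a1 a2 c => ⟨⟨tt ρ * a * z φ, (hy z V a1 a2 c).cob _ _ ?_ ?_⟩,
      fun j k e => ?_⟩⟩
    · have := (hy z V a1 a2 c).unr u
      rw [u τ tg.1]
      linear_combination tt ρ * z τ * hb + tt ρ * b * this
    · linear_combination tt ρ * z φ * ha
    · obtain ⟨s, hs⟩ := ann q j (k φ)
      generalize tt ρ ^ (J - 2) * ρ (PowerSeries.C s) = y at hs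
      refine ⟨a * y, fun g m => (one_mul _).symm.trans ((hy z V a1 a2 c).cob 1 _ ?_ ?_ g m)⟩
      · rw [u τ tg.1]
        linear_combination e
      · linear_combination hs + y * ha

variable {Γ : Subgroup GQ} {T : Finset ℕ} {P : Ideal (𝓞 Qb)}

theorem glob (G : G3 Γ T (r1 χ)) (x : Zr Γ T χ P) : ∃ V : Subgroup GQ, V.Normal ∧
    IsOpen (V : Set GQ) ∧ Cc Γ V χ fun g => x.1.1 g 0 := by
  obtain ⟨W, w1, w2⟩ := G.lc
  obtain ⟨x1, -, ⟨U, u1, u2⟩, -⟩ := x.2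
  have le := (W ⊓ U).normalCore_le
  refine ⟨(W ⊓ U).normalCore, inferInstance, P022K.GW.Pl.core_open (w1.inter u1),
    fun g a h b => ?_, fun g a h b => ?_, fun w a b => ⟨?_, ?_⟩⟩
  · simpa [r1, Matrix.mul_apply] using congrFun (congrFun (G.mul g a h b) 0) 0
  · simpa [r1, P004F.Pr.ac] using congrFun (x1 g a h b) 0
  · simpa [r1] using congrFun (congrFun (w2 w a (le b).1) 0) 0
  · exact congrFun (u2 w (le b).2) 0

theorem move (c : Cc Γ V χ z) (le : dec Q ≤ Γ) (a : g ∈ Γ)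
    (e : ∃ m, ∀ d ∈ dec Q, z d = (χ d - 1) * m) : ∃ m, ∀ d ∈ dec (g • Q), z d = (χ d - 1) * m := by
  obtain ⟨m, e⟩ := e
  refine ⟨χ g * m - z g, fun d k => ?_⟩
  have k' : g⁻¹ * d * g ∈ dec Q := by
    rw [P022K.GW.Pl.dec_iff] at k ⊢
    rw [mul_smul, mul_smul, k, inv_smul_smul]
  obtain ⟨c1, c2⟩ := c.cj a (le k')
  rw [show g * (g⁻¹ * d * g) * g⁻¹ = d by group] at c1 c2
  rw [c2, e _ k', c1]
  ring

end Li

open Li in
theorem loi : LOI := fun R _ ρ J q Γ T χ P G h => by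
  obtain ⟨V₀, v1, v2, c0⟩ := glob (P := P) G 0
  have L := fun l (m : l ∈ T) (n : l ≠ 3) Q (o : Ov l Q) =>
    loc q o n (h l m n Q o).2 v1 v2 (c0.mono (h l m n Q o).1)
  refine ⟨fun x l m n Q o => ?_, fun j ki fin => ?_⟩
  · obtain ⟨V, a1, a2, c⟩ := glob G x
    obtain ⟨τ, φ, α, β, k⟩ := L l m n Q o
    exact (k _ V a1 a2 (c.mono (h l m n Q o).1)).1
  obtain ⟨γ, hγ⟩ := Subgroup.index_eq_two_iff.1 G.idx
  have pr : ∀ i : T.erase 3, ∃ Q, Ov i.1 Q := fun i =>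
    P022K.GW.Pl.ex_ov (G.pr _ (Finset.mem_of_mem_erase i.2))
  choose Q₀ o₀ using pr
  let Q : T.erase 3 × Bool → Ideal (𝓞 Qb) := fun i => if i.2 then Q₀ i.1 else γ⁻¹ • Q₀ i.1
  have o : ∀ i, Ov i.1.1 (Q i) := fun ⟨i, b⟩ => by
    cases b
    exacts [P022K.GW.ov_smul (o₀ i) _, o₀ i]
  choose τ φ α β k using fun i : T.erase 3 × Bool =>
    L _ (Finset.mem_of_mem_erase i.1.2) (Finset.ne_of_mem_erase i.1.2) _ (o i)
  have kt : ∀ (x : Zr Γ T χ P) g, tt ρ * x.1.1 g 0 = 0 := fun x g => by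
    simpa using ki x g
  let F : Zr Γ T χ P →+ (T.erase 3 × Bool → R) := AddMonoidHom.mk'
    (fun x i => α i * x.1.1 (τ i) 0 + β i * x.1.1 (φ i) 0) fun x y => funext fun i => by
      simp only [Submodule.coe_add, Prod.fst_add, Pi.add_apply]
      ring
  have k1 : ∀ x ∈ F.ker, x ∈ Y0 Γ T χ P := fun x e l m n Q' o' => by
    obtain ⟨V, a1, a2, c⟩ := glob G x
    let i : T.erase 3 := ⟨l, Finset.mem_erase.2 ⟨n, m⟩⟩
    have le := fun b => (h l m n _ (o (i, b))).1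
    have u := fun b => (k (i, b) _ V a1 a2 (c.mono (le b))).2 j (kt x) (congrFun e (i, b))
    obtain ⟨g, rfl⟩ := P022K.GW.Pl.ov_trans (o₀ i) o'
    obtain ⟨a, -⟩ | ⟨a, -⟩ := hγ g
    · have := move c (le false) a (u false)
      rwa [show (g * γ) • Q (i, false) = g • Q₀ i by
        rw [show Q (i, false) = γ⁻¹ • Q₀ i from rfl, mul_smul, smul_inv_smul]] at this
    · exact move c (le true) a (u true)
  have k2 : ∀ y : F.range, ∃ c : T.erase 3 × Bool → ZMod 3,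
      y.1 = fun i => tt ρ * (tt ρ ^ (J - 2) * ρ (PowerSeries.C (c i))) := fun ⟨_, x, rfl⟩ => by
    choose c hc using fun i => ann q j (x := F x i) (by
      show tt ρ * (α i * x.1.1 (τ i) 0 + β i * x.1.1 (φ i) 0) = 0
      linear_combination α i * kt x (τ i) + β i * kt x (φ i))
    exact ⟨c, funext hc⟩
  choose c hc using k2
  have n1 : Nat.card F.range ≤ 3 ^ (2 * (T.erase 3).card) := by
    refine (Nat.card_le_card_of_injective c fun y y' e => Subtype.ext ?_).trans_eq ?_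
    · rw [hc, hc, e]
    · rw [Nat.card_fun, Nat.card_zmod, Nat.card_prod, Nat.card_eq_fintype_card, Fintype.card_coe,
        Nat.card_eq_fintype_card, Fintype.card_bool, mul_comm]
  have n2 : Nat.card F.ker ≤ Nat.card (Y0 Γ T χ P) :=
    Nat.card_le_card_of_injective (fun x => ⟨x.1, k1 x.1 x.2⟩) fun x y e =>
      Subtype.ext (congrArg (fun t : Y0 Γ T χ P => t.1) e)
  rw [← F.ker.index_mul_card, AddSubgroup.index_ker]
  exact Nat.mul_le_mul n1 n2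

end Vale.Agent.P014Y.Rd
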