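import Vale.Agent.P014Y.Rd.St2
import Vale.Agent.P004R.Qf

/-! # P014Y, route R, row QF, part 0: the depletion of `1 / j` modulo three -/

set_option autoImplicit false
set_option linter.all false

open UpperHalfPlane NumberField CongruenceSubgroup PowerSeries
open scoped MatrixGroups Classical

noncomputable section

namespace Vale.Agent.P014Y.Rd.Qf

open Vale.Agent.P022 Vale.Agent.P022.H218.L3 Vale.Agent.P022.H231.L3 Vale.Agent.P022.H236.L3
  Vale.Agent.P022.H542.L3 P027H Vale.Agent.P027M.M P004K P004F.Qx P004R.Qf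
open P004Z.EF (Val jN)
open ArithmeticFunction (sigma)

/-- the recursion for the sum of the divisors -/
theorem sig_mul {p : ℕ} (hp : p.Prime) (m : ℕ) :
    sigma 1 (p * m) + (if p ∣ m then p * sigma 1 (m / p) else 0) = (1 + p) * sigma 1 m := by
  rcases eq_or_ne m 0 with rfl | m0
  · simp
  obtain ⟨a, n, hn, rfl⟩ := Nat.exists_eq_pow_mul_and_not_dvd m0 p hp.ne_one
  have ml : ∀ i, sigma 1 (p ^ i * n) = (∑ k ∈ Finset.range (i + 1), p ^ k) * sigma 1 n := fun i => by
    rw [ArithmeticFunction.isMultiplicative_sigma.map_mul_of_coprime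
      ((hp.coprime_iff_not_dvd.2 hn).pow_left i), ArithmeticFunction.sigma_one_apply_prime_pow hp]
  rw [← mul_assoc, ← pow_succ', ml, ml]
  rcases a with _ | a
  · rw [if_neg (by simpa using hn)]
    simp [Finset.sum_range_succ]
  · rw [if_pos ⟨p ^ a * n, by ring⟩, show p ^ (a + 1) * n = p * (p ^ a * n) by ring,
      Nat.mul_div_cancel_left _ hp.pos, ml, Finset.sum_range_succ _ (a + 1 + 1),
      Finset.sum_range_succ _ (a + 1)]
    ring

theorem sig_two {n : ℕ} (h : ¬ 3 ∣ n) : (n : ZMod 3) * sigma 1 n = sigma 1 n := by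
  have e : (2 : ZMod 3) * sigma 1 n = ∑ d ∈ n.divisors, ((d : ZMod 3) + (n / d : ℕ)) := by
    rw [Finset.sum_add_distrib, Nat.sum_div_divisors n fun d => (d : ZMod 3),
      ArithmeticFunction.sigma_one_apply, Nat.cast_sum, two_mul]
  have k : ∀ x y : ZMod 3, x * y ≠ 0 → x * y * (x + y) = x + y := by decide
  have e2 : (n : ZMod 3) * (2 * sigma 1 n) = 2 * sigma 1 n := by
    rw [e, Finset.mul_sum]
    refine Finset.sum_congr rfl fun d hd => ?_
    have e3 : (n : ZMod 3) = d * (n / d : ℕ) := by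
      rw [← Nat.cast_mul, Nat.mul_div_cancel' (Nat.dvd_of_mem_divisors hd)]
    have := k d (n / d : ℕ) (by rw [← e3]; exact fun e => h ((ZMod.natCast_eq_zero_iff n 3).1 e))
    rwa [← e3] at this
  have k2 : ∀ x y : ZMod 3, x * (2 * y) = 2 * y → x * y = y := by decide
  exact k2 _ _ e2

/-- depletion of a family which is indexed by the level -/
def dq {A : Type} [CommRing A] (F : ℕ → A) : List ℕ → ℕ → A
  | [] => F
  | p :: L => fun k => dq F L k - (1 + p) * dq F L (k * p) + p * dq F L (k * p ^ 2)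

theorem dq_rel {A B : Type} [CommRing A] [CommRing B] (r : A → B → Prop) (hi : ∀ n : ℤ, r n n)
    (ha : ∀ x y x' y', r x x' → r y y' → r (x + y) (x' + y'))
    (hm : ∀ x y x' y', r x x' → r y y' → r (x * y) (x' * y')) (F : ℕ → A) (G : ℕ → B)
    (L : List ℕ) : ∀ k, (∀ d, d ∣ L.prod ^ 2 → r (F (k * d)) (G (k * d))) →
    r (dq F L k) (dq G L k) := by
  induction L with
  | nil => intro k h; simpa [dq] using h 1 (one_dvd _)
  | cons p L ih =>
    intro k h
    rw [List.prod_cons, mul_pow] at h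
    have h0 := ih k fun d hd => h d (hd.mul_left _)
    have h1 := ih (k * p) fun d hd => by
      rw [mul_assoc]
      exact h _ (mul_dvd_mul (dvd_pow_self p two_ne_zero) hd)
    have h2 := ih (k * p ^ 2) fun d hd => by
      rw [mul_assoc]
      exact h _ (mul_dvd_mul_left _ hd)
    have := ha _ _ _ _ (ha _ _ _ _ h0 (hm _ _ _ _ (hi (-(1 + p))) h1)) (hm _ _ _ _ (hi p) h2)
    simpa only [dq, Int.cast_neg, Int.cast_add, Int.cast_one, Int.cast_natCast, neg_mul,
      ← sub_eq_add_neg] using this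

/-- the expansions of `1 / j (k τ)` -/
def xp (W : PowerSeries ℤ) (k : ℕ) : PowerSeries ℤ := if h : 0 < k then expand k h.ne' W else 0

theorem ex_xp {W : PowerSeries ℤ} (h2 : ExM 1 (ls 0 (toCi W)) jM⁻¹) (k : ℕ) :
    ExM 1 (ls 0 (toCi (xp W k))) (iN k) := by
  rw [xp, iN]
  split_ifs with hk
  · have h3 := h2.mulTau hk (pb_pbz _ (diag_pos hk)) (dg_coe hk)
    have e : expand k hk.ne' (toCi W) = toCi (expand k hk.ne' W) := by
      ext n
      simp only [coeff_expand, coeff_map]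
      split_ifs <;> simp
    rw [sb_ls hk.ne' hk, mul_zero, e, map_inv₀] at h3
    exact h3
  · simpa [ls_zero_eq] using ExM.const 1 0

theorem ex_dq {W : PowerSeries ℤ} (h2 : ExM 1 (ls 0 (toCi W)) jM⁻¹) (L : List ℕ) {M : ℕ}
    (hd : L.prod ^ 2 ∣ M) :
    ExM 1 (ls 0 (toCi (dq (xp W) L 1))) (dq iN L 1) ∧ dq iN L 1 ∈ MF (Gamma0 M) := by
  refine dq_rel (fun X x => ExM 1 (ls 0 (toCi X)) x ∧ x ∈ MF (Gamma0 M)) (fun n => ⟨?_, ?_⟩)
    (fun x y x' y' h h' => ⟨?_, add_mem h.2 h'.2⟩) (fun x y x' y' h h' => ⟨?_, mul_mem h.2 h'.2⟩)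
    _ _ L 1 fun d h => ⟨ex_xp h2 _, iN_mem (by rw [one_mul]; exact h.trans hd)⟩
  · have := ExM.const 1 (n : ℂ)
    simpa only [ls_zero_eq, map_intCast] using this
  · exact intCast_mem _ n
  · simpa only [ls_zero_eq, map_add] using h.1.add h'.1
  · simpa only [ls_zero_eq, map_mul] using h.1.mul h'.1

/-- the coefficients of the depleted series -/
theorem co_dq {W : PowerSeries ℤ}
    (hW : ∀ n, ((coeff n W : ℤ) : ZMod 3) = if 3 ∣ n then 0 else (sigma 1 n : ZMod 3))
    (L : List ℕ) (hL : L.Nodup) (hp : ∀ p ∈ L, p.Prime ∧ p ≠ 3) (n : ℕ) : ∀ k, 0 < k →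
    ((coeff n (dq (xp W) L k) : ℤ) : ZMod 3) =
      if k ∣ n ∧ (n / k).Coprime (3 * L.prod) then (sigma 1 (n / k) : ZMod 3) else 0 := by
  induction L with
  | nil =>
    intro k hk
    rw [dq, xp, dif_pos hk, coeff_expand, List.prod_nil, mul_one]
    by_cases h : k ∣ n
    · rw [if_pos h, hW]
      by_cases h3 : 3 ∣ n / k
      · rw [if_pos h3, if_neg fun e => Nat.prime_three.coprime_iff_not_dvd.1 e.2.symm h3]
      · rw [if_neg h3, if_pos ⟨h, (Nat.prime_three.coprime_iff_not_dvd.2 h3).symm⟩]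
    · simp [h]
  | cons p L ih =>
    intro k hk
    obtain ⟨h1, h3⟩ := hp p List.mem_cons_self
    have h2 : ∀ q ∈ L, q.Prime ∧ q ≠ 3 := fun q hq => hp q (List.mem_cons_of_mem _ hq)
    have cp : p.Coprime (3 * L.prod) := ((Nat.coprime_primes h1 Nat.prime_three).2 h3).mul_right
      (Nat.coprime_list_prod_right_iff.2 fun q hq => (Nat.coprime_primes h1 (h2 q hq).1).2
        fun e => (List.nodup_cons.1 hL).1 (e ▸ hq))
    replace ih := ih (List.nodup_cons.1 hL).2 h2
    have e : coeff n (dq (xp W) (p :: L) k) = coeff n (dq (xp W) L k) -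
        (1 + p) * coeff n (dq (xp W) L (k * p)) + p * coeff n (dq (xp W) L (k * p ^ 2)) := by
      rw [dq, map_add, map_sub, show (1 + p : PowerSeries ℤ) = C (1 + p : ℤ) by simp,
        show (p : PowerSeries ℤ) = C (p : ℤ) by simp, coeff_C_mul, coeff_C_mul]
    rw [e]
    push_cast
    rw [ih k hk, ih _ (Nat.mul_pos hk h1.pos), ih _ (Nat.mul_pos hk (pow_pos h1.pos 2)),
      List.prod_cons, mul_left_comm 3 p]
    simp only [Nat.coprime_mul_iff_right (m := p)]
    by_cases a1 : k ∣ n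
    swap
    · rw [if_neg fun h => a1 h.1, if_neg fun h => a1 (dvd_of_mul_right_dvd h.1),
        if_neg fun h => a1 (dvd_of_mul_right_dvd h.1), if_neg fun h => a1 h.1]
      simp
    obtain ⟨m, rfl⟩ := a1
    simp only [Nat.mul_dvd_mul_iff_left hk, Nat.mul_div_mul_left _ _ hk,
      Nat.mul_div_cancel_left _ hk, dvd_mul_right, true_and]
    by_cases a2 : p ∣ m
    swap
    · rw [if_neg fun h : p ∣ m ∧ _ => a2 h.1,
        if_neg fun h : p ^ 2 ∣ m ∧ _ => a2 ((dvd_pow_self p two_ne_zero).trans h.1)]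
      rw [mul_zero, mul_zero, sub_zero, add_zero]
      exact if_congr (and_iff_right (h1.coprime_iff_not_dvd.2 a2).symm).symm rfl rfl
    obtain ⟨l, rfl⟩ := a2
    have s := congrArg (Nat.cast : ℕ → ZMod 3) (sig_mul h1 l)
    rw [if_neg (c := (p * l).Coprime p ∧ _) fun h => h1.coprime_iff_not_dvd.1 h.1.symm
      (dvd_mul_right p l), pow_two, Nat.mul_div_mul_left _ _ h1.pos, Nat.mul_div_cancel_left _ h1.pos]
    simp only [Nat.mul_dvd_mul_iff_left h1.pos, dvd_mul_right, true_and, Nat.coprime_mul_iff_left]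
    by_cases a3 : l.Coprime (3 * L.prod)
    · rw [if_pos a3, if_pos ⟨cp, a3⟩]
      by_cases a4 : p ∣ l
      · rw [if_pos a4] at s
        rw [if_pos ⟨a4, a3.coprime_div_left a4⟩]
        push_cast at s
        linear_combination s
      · rw [if_neg a4] at s
        rw [if_neg fun h => a4 h.1]
        push_cast at s
        linear_combination s
    · rw [if_neg a3, if_neg fun h : _ ∧ _ => a3 h.2, if_neg]
      · simp
      · rintro ⟨⟨l', rfl⟩, h⟩
        rw [Nat.mul_div_cancel_left _ h1.pos] at h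
        exact a3 (cp.mul_left h)

end Vale.Agent.P014Y.Rd.Qf
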