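import Vale.Agent.P014Y.Rd.St0
import Vale.Agent.P004R.St

/-!
# P014Y, route R: the class number formula and the tower (words and rows)
-/

set_option autoImplicit false
set_option linter.all false

open UpperHalfPlane NumberField Filter Topology Module IsDedekindDomain
open scoped Real Pointwise

noncomputable section

namespace Vale.Agent.P014Y.Rd

open Vale.Agent.P022 (Qb GQ GK below IsConj IsFrob)
open P027H P027M.M P004K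
open Vale.Agent.P027M.S (Inert LI)
open Vale.Agent.P022D.W (dec)
open Vale.Agent.P022E.GW (Ov Fb)
open Vale.Agent.P022K.G2 (Tv ka oz zt)
open Vale.Agent.P004S (UnS)

export Vale.Agent.P004R (Fx)

section layer

variable {K : Type} [Field K] [NumberField K] (j : K →+* Qb) (c M : ℕ) (e : GQ → ZMod (3 * M))

/-- a cyclic layer of degree `3 M` in the ring class field of conductor `c`, totally ramified at
the primes of `c`, which split in `K` -/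
structure Ly : Prop where
  iq : Iq K
  upm : Upm K
  pow : ∃ m, M = 3 ^ (m + 1)
  sq : Squarefree c
  one : 1 < c
  add : ∀ g ∈ GK j, ∀ h ∈ GK j, e (g * h) = e g + e h
  ker : ∀ g ∈ Hc j c, e g = 0
  ram : ∀ q P, Ov q P → q ∣ c → q % 3 = 1 ∧ dec P ≤ GK j ∧ ∃ t, Inert P t ∧ e t = 1

/-- the fields of the layer; `φ` induces `σ` -/
structure Fl (F : Type) {H : Type} [Field F] [Field H] [Algebra F H] [Algebra ℚ H] (jH : H →+* Qb)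
    (φ : GQ) (σ : H ≃ₐ[ℚ] H) : Prop where
  gH : ∀ g, g ∈ GK jH ↔ g ∈ GK j ∧ e g = 0
  gF : ∀ g, g ∈ GK (jH.comp (algebraMap F H)) ↔ g ∈ GK j ∧ 3 * e g = 0
  mem : φ ∈ GK j
  gen : IsUnit (e φ)
  act : ∀ x, jH (σ x) = φ (jH x)

open Classical in
/-- the characters of ideals -/
def th (k : ℕ) (I : Ideal (𝓞 K)) : ℂ :=
  if h : Cop c I ∧ ∃ g, Ar j c I g then ze (3 * M) (k * (e h.2.choose).val) else 0

/-- `s ^ 2 = 3 ^ 12 Δ(O_c) / Δ(𝔭⁻¹ O_c)`, `𝔭` the prime below `P`, `φ` a Frobenius element at `P` -/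
structure Us (P : Ideal (𝓞 Qb)) (φ : GQ) (s : 𝓞 Qb) : Prop where
  fix : ∀ g ∈ Hc j c, g • s = s
  unit : ∀ g ∈ GK j, g • s ∉ P ∧ Associated (g • s) s
  e1 : jc j c * (s : Qb) ^ 3 = ((s : Qb) + 27) * ((s : Qb) + 243) ^ 3
  e2 : φ (jc j c) * (s : Qb) = ((s : Qb) + 27) * ((s : Qb) + 3) ^ 3
  lg : ∀ g ∈ GK j, ∀ τ τ' : ℍ, jL (lat τ) = io (g (jc j c)) → jL (lat τ') = io ((g * φ) (jc j c)) →
    2 * Real.log ‖io (g (s : Qb))‖ = Gl τ - Gl τ' + 6 * Real.log 3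

/-- the primes of `S` split in `K` and are inert in the layer -/
structure Lv (S : Finset ℕ) : Prop extends Ly j c M e where
  two : 2 ∈ S
  thr : 3 ∈ S
  spl : ∀ p ∈ S, p.Prime ∧ ¬ p ∣ c ∧ ∀ Q, Ov p Q → dec Q ≤ GK j ∧ ∀ φ, Fb p Q φ → IsUnit (e φ)

end layer

/-! ### the class number formula -/

/-- the fields and their primes -/
def FLD : Prop := ∀ (K : Type) [Field K] [NumberField K] (j : K →+* Qb) (c M : ℕ)
  (e : GQ → ZMod (3 * M)), Ly j c M e → ∀ φ ∈ GK j, IsUnit (e φ) →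
  ∃ (F H : Type) (_ : Field F) (_ : NumberField F) (_ : Field H) (_ : NumberField H)
    (_ : Algebra F H) (jH : H →+* Qb) (σ : H ≃ₐ[ℚ] H), Fl j M e F jH φ σ ∧ Cp F σ M ∧
    ∀ l P ψ, Ov l P → ¬ l ∣ c → dec P ≤ GK j → Fb l P ψ → IsUnit (e ψ) → ∀ γ ∉ GK j,
      Ip σ M l (below (jH.comp (algebraMap F H)) P) (below (jH.comp (algebraMap F H)) (γ • P)) ∧
      up H (below (jH.comp (algebraMap F H)) P) = below jH P ∧
      up H (below (jH.comp (algebraMap F H)) (γ • P)) = below jH (γ • P) ∧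
      ¬ (l : ℤ) ∣ discr K ∧ ¬ (l : ℤ) ∣ discr F ∧ ¬ (l : ℤ) ∣ discr H

/-- the factorisation of the zeta functions -/
def LFA : Prop := ∀ (K : Type) [Field K] [NumberField K] (j : K →+* Qb) (c M : ℕ)
  (e : GQ → ZMod (3 * M)), Ly j c M e → ∀ (F H : Type) [Field F] [NumberField F] [Field H]
  [NumberField H] [Algebra F H] (jH : H →+* Qb) (φ : GQ) (σ : H ≃ₐ[ℚ] H), Fl j M e F jH φ σ →
  ∀ s : ℝ, 1 < s → dedekindZeta H s = dedekindZeta F s * ∏ k ∈ Fa M, LI (th j c M e k) s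

/-- the series of a primitive character is a sum of Epstein zeta functions -/
def LFB : Prop := ∀ (K : Type) [Field K] [NumberField K] (j : K →+* Qb) (c M : ℕ)
  (e : GQ → ZMod (3 * M)), Ly j c M e → ∀ R, Tv (GK j) (Hc j c) R → ∀ τ : GQ → ℍ,
  (∀ g ∈ R, jL (lat (τ g)) = io (g (jc j c))) → ∀ k, ¬ 3 ∣ k → ∀ s : ℝ, 1 < s →
  LI (th j c M e k) s = 1 / 2 * ((c * √|(discr K : ℝ)| / 2) ^ (-s) : ℝ) *
    ∑ g ∈ R, ze (3 * M) (k * (e g).val) * Ze (τ g) s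

/-- the elliptic unit -/
def UNI : Prop := ∀ (K : Type) [Field K] [NumberField K] (j : K →+* Qb) (c : ℕ), Iq K → ¬ 3 ∣ c →
  ∀ P φ, Ov 3 P → dec P ≤ GK j → Fb 3 P φ → ∃ s, Us j c P φ s

open Classical in
/-- **the index formula** -/
def CNF : Prop := ∀ (K : Type) [Field K] [NumberField K] (j : K →+* Qb) (c M : ℕ)
  (e : GQ → ZMod (3 * M)), Ly j c M e → ∀ (F H : Type) [Field F] [NumberField F] [Field H]
  [NumberField H] [Algebra F H] (jH : H →+* Qb) (φ : GQ) (σ : H ≃ₐ[ℚ] H), Fl j M e F jH φ σ →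
  Cp F σ M → ¬ 3 ∣ discr K → ¬ 3 ∣ discr F → ¬ 3 ∣ discr H → ∀ P s, Us j c P φ s →
  ∀ R, Tv (GK j) (Hc j c) R → ∀ u : (𝓞 H)ˣ,
  jH (u : 𝓞 H) * ∏ g ∈ R with e g = 0, g (s : Qb) = φ (∏ g ∈ R with e g = 0, g (s : Qb)) →
  (CU F σ u).index ≠ 0 ∧ padicValNat 3 ((CU F σ u).index * classNumber F) =
    padicValNat 3 (classNumber H) + 2 * M + 1

/-! ### the tower: words -/

/-- `g` multiplies the roots of order `N` of `a` by `ζ ^ x` -/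
def Kv {N : ℕ} (ζ a : Qb) (g : GQ) (x : ZMod N) : Prop := ∀ y : Qb, y ^ N = a → g y = ζ ^ x.val * y

/-- `g` acts on the roots of unity of order `q` by a cube -/
def Cb (q : ℕ) (g : GQ) : Prop := ∃ a : ℕ, ∀ ζ : Qb, ζ ^ q = 1 → g ζ = ζ ^ a ^ 3

/-- reduction modulo three -/
def eb {N : ℕ} (e : GQ → ZMod N) (g : GQ) : ZMod 3 := ((e g).val : ZMod 3)

section tower

variable {K : Type} [Field K] [NumberField K] (j : K →+* Qb)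

/-- the field: three splits -/
structure Kd : Prop where
  iq : Iq K
  upm : Upm K
  spl : ∀ P, Ov 3 P → dec P ≤ GK j
  pos : ∃ γ ∉ GK j, ∀ n, Fx {1} (3 ^ n) γ
  neg : ∃ γ ∉ GK j, ∀ (n : ℕ) (ζ : Qb), ζ ^ 3 ^ n = 1 → γ ζ = ζ⁻¹

/-- `β / β̄` -/
def qa (γ : GQ) (β : 𝓞 K) : Qb := j β / γ (j β)

/-- a ring class character of order three -/
structure Xc (c : ℕ) (x : GQ → ZMod 3) : Prop where
  add : ∀ g ∈ GK j, ∀ h ∈ GK j, x (g * h) = x g + x h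
  ker : ∀ g ∈ Hc j c, x g = 0

/-- primes of degree one which generate the class group -/
structure Bs (B : Finset ℕ) (P : ℕ → Ideal (𝓞 Qb)) : Prop where
  thr : 3 ∈ B
  ov : ∀ b ∈ B, Ov b (P b) ∧ dec (P b) ≤ GK j
  gen : ∀ I : Ideal (𝓞 K), I ≠ ⊥ → ∃ (μ : ℕ → ℕ) (β : 𝓞 K),
    I * ∏ b ∈ B, below j (P b) ^ μ b = Ideal.span {β}

/-- the Kummer classes of the relations take the values which are given by `y` -/
def Rl (γ : GQ) (B : Finset ℕ) (P : ℕ → Ideal (𝓞 Qb)) {N : ℕ} (ζ : Qb) (g : GQ) (y : ℕ → ZMod N) :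
    Prop := ∀ (μ : ℕ → ℕ) (β : 𝓞 K), ∏ b ∈ B, below j (P b) ^ μ b = Ideal.span {β} →
  Kv ζ (qa j γ β) g (∑ b ∈ B, (μ b : ZMod N) * y b)

/-- `a` is a cube in the completions at the primes of `c` -/
def Lc (c : ℕ) (a : 𝓞 K) : Prop :=
  ∀ l P, Ov l P → l ∣ c → ∃ y : Qb, y ^ 3 = j a ∧ ∀ g ∈ dec P, g y = y

/-- the ideal is a cube, the element is a cube above three -/
def Yz (a : 𝓞 K) : Prop := a ≠ 0 ∧ (∃ I : Ideal (𝓞 K), Ideal.span {a} = I ^ 3) ∧ Lc j 3 a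

/-- **the small Selmer group vanishes**: strict at `P`, transverse at `c` -/
def Sl (c : ℕ) (x : GQ → ZMod 3) (P : Ideal (𝓞 Qb)) : Prop := ∀ (a : 𝓞 K) (y : Qb), a ≠ 0 →
  y ^ 3 = j a → (∃ (I J : Ideal (𝓞 K)) (n : ℕ), Ideal.span {a} = I ^ 3 * J ∧
    J ∣ Ideal.span {(c : 𝓞 K)} ^ n) → (∀ g ∈ dec P, g y = y) →
  (∀ q Q, Ov q Q → q ∣ c → ∀ g ∈ dec Q, x g = 0 → g y = y) → ∀ g ∈ GK j, g y = y

/-- the data which kill the small Selmer group; `o` is the last prime -/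
structure Kl {ι : Type} [Fintype ι] [DecidableEq ι] (q : ι → ℕ) (Q : ι → Ideal (𝓞 Qb)) (φ : ι → GQ)
    (o : ι) (x x₀ : GQ → ZMod 3) : Prop where
  inj : Function.Injective q
  pl : ∀ i, Ov (q i) (Q i) ∧ Fb (q i) (Q i) (φ i) ∧ q i % 3 = 1 ∧
    ∀ Q', Ov (q i) Q' → dec Q' ≤ GK j ∧ ∃ t, Inert Q' t ∧ x t = 1
  xe : Xc j (∏ i, q i) x
  x0 : Xc j (∏ i ∈ Finset.univ.erase o, q i) x₀ ∧ x₀ (φ o) ≠ 0
  x9 : ∀ i ≠ o, ∃ z, Xc j 9 z ∧ z (φ i) ≠ 0 ∧ ∀ i' ≠ i, z (φ i') = 0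
  det : ∀ (a : 𝓞 K) (y : Qb), Yz j a → y ^ 3 = j a → (∀ i ≠ o, φ i y = y) → ∃ t : K, (a : K) = t ^ 3
  pls : ∃ s : ι → GQ, (∀ i, s i ∈ dec (Q i) ∧ x (s i) = 0) ∧
    ∀ m : ι → ZMod 3, (∀ i, ∑ i', ka 3 (q i') (s i) * m i' = 0) → m = 0

/-- the input which keeps the traces of the Frobenius elements away from `± 2` -/
structure Nq (S : Finset ℕ) (U : ℕ → Subgroup GQ) (Gq : ℕ → GQ → Prop) : Prop where
  opn : ∀ m, IsOpen (U m : Set GQ) ∧ (U m).Normal ∧ UnS S (U m)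
  stb : ∀ m g, ∀ u ∈ U m, Gq m g → Gq m (g * u)
  cj : ∀ m g x, Gq m g → Gq m (x * g * x⁻¹)
  mono : ∀ m m' g, m ≤ m' → Gq m g → Gq m' g
  ex : ∀ A : Finset K, 0 ∉ A → ∀ W : Subgroup GQ, IsOpen (W : Set GQ) → ∃ h ∈ GK j, h ∈ W ∧
    (∀ n, Fx (insert 1 (j '' A)) (3 ^ n) h) ∧ ∃ m, ∀ g, Fx {1} 3 g → ∃ k ≤ 2, Gq m (g * h ^ k)

end tower

/-! ### the tower: rows -/

/-- generators of the class group -/
def BSX : Prop := ∀ (K : Type) [Field K] [NumberField K] (j : K →+* Qb), Iq K →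
  ∀ (S : Finset ℕ) (P : ℕ → Ideal (𝓞 Qb)), 3 ∈ S → (∀ p ∈ S, Ov p (P p) ∧ dec (P p) ≤ GK j) →
  ∃ B P', S ⊆ B ∧ (∀ p ∈ S, P' p = P p) ∧ Bs j B P'

/-- finitely many Kummer classes control the relations -/
def GEN : Prop := ∀ (K : Type) [Field K] [NumberField K] (j : K →+* Qb), Kd j → ∀ γ ∉ GK j,
  ∀ B P, Bs j B P → ∃ A : Finset K, 0 ∉ A ∧
    (∀ n l Q, Ov l Q → l ∉ B → ∀ g ∈ GK j, Inert Q g → Fx (insert 1 (j '' A)) (3 ^ n) g) ∧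
    (∀ (N : ℕ) (ζ : Qb), ∀ g ∈ GK j, ∀ h ∈ GK j, ∀ y : ℕ → ZMod N, 0 < N →
      Fx (insert 1 (j '' A)) N h → Rl j γ B P ζ g y → Rl j γ B P ζ (g * h) y) ∧
    (∀ (N : ℕ) (ζ : Qb), Rl j γ B P ζ 1 (0 : ℕ → ZMod N)) ∧
    ∀ (a : 𝓞 K) (I : Ideal (𝓞 K)) (y : Qb), ∀ g ∈ GK j, a ≠ 0 → Ideal.span {a} = I ^ 3 →
      y ^ 3 = j a → Fx (insert 1 (j '' A)) 3 g → g y = y

/-- an element which is not a cube is not a cube in the cyclotomic tower -/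
def KI0 : Prop := ∀ (K : Type) [Field K] [NumberField K] (j : K →+* Qb), Kd j → ∀ (a : K) (y : Qb)
  (n : ℕ), y ^ 3 = j a → (∀ g ∈ GK j, Fx {1} (3 ^ n) g → g y = y) → ∃ t : K, a = t ^ 3

/-- independence of the Kummer classes of the relations -/
def KI : Prop := ∀ (K : Type) [Field K] [NumberField K] (j : K →+* Qb), Kd j → ∀ γ ∉ GK j,
  ∀ B P, Bs j B P → ∀ (N n : ℕ) (ζ : Qb) (y : ℕ → ZMod N), N = 3 ^ n → IsPrimitiveRoot ζ N →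
  ∃ g ∈ GK j, Fx {1} N g ∧ Rl j γ B P ζ g y

/-- **ring class characters with prescribed ramification and values** -/
def EXT : Prop := ∀ (K : Type) [Field K] [NumberField K] (j : K →+* Qb), Kd j → ∀ γ ∉ GK j,
  ∀ B P, Bs j B P → ∀ (N n : ℕ) (ζ : Qb) (y : ℕ → ZMod N), N = 3 ^ n → IsPrimitiveRoot ζ N →
  ∀ (k : ℕ) (q : Fin k → ℕ) (Q : Fin k → Ideal (𝓞 Qb)) (φ : Fin k → GQ), Function.Injective q →
  (∀ i, Ov (q i) (Q i) ∧ dec (Q i) ≤ GK j ∧ Fb (q i) (Q i) (φ i) ∧ q i ∉ B ∧ Fx {1} N (φ i)) →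
  Rl j γ B P ζ (List.ofFn φ).prod y →
  ∃ e : GQ → ZMod N, (∀ g ∈ GK j, ∀ h ∈ GK j, e (g * h) = e g + e h) ∧
    (∀ g ∈ Hc j (∏ i, q i), e g = 0) ∧ (∀ i Q', Ov (q i) Q' → ∃ t, Inert Q' t ∧ e t = 1) ∧
    (∀ b ∈ B, ∀ ψ, Fb b (P b) ψ → e ψ = y b) ∧
    ∀ (l : ℕ) (L : Ideal (𝓞 Qb)) (ψ : GQ) (μ : ℕ → ℕ) (β : 𝓞 K) (x : ZMod N), Ov l L →
      dec L ≤ GK j → Fb l L ψ → ¬ l ∣ ∏ i, q i →
      below j L * ∏ b ∈ B, below j (P b) ^ μ b = Ideal.span {β} →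
      Kv ζ (qa j γ β) (List.ofFn φ).prod x → e ψ + ∑ b ∈ B, (μ b : ZMod N) * y b = x

/-- a local cube is congruent to one, after multiplication by a cube -/
def CUB : Prop := ∀ (K : Type) [Field K] [NumberField K] (j : K →+* Qb), Iq K →
  ∀ (c r : ℕ) (a : 𝓞 K) (I J : Ideal (𝓞 K)), 0 < c → a ≠ 0 →
  (∀ l P, Ov l P → l ∣ c → dec P ≤ GK j) → Lc j c a → Ideal.span {a} = I ^ 3 * J → Cop c J →
  ∃ (t : K) (b : 𝓞 K) (I' : Ideal (𝓞 K)), t ≠ 0 ∧ ((1 + c ^ r * b : 𝓞 K) : K) = t ^ 3 * a ∧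
    Ideal.span {1 + c ^ r * b} = I' ^ 3 * J

/-- reciprocity for ring class characters -/
def ART : Prop := ∀ (K : Type) [Field K] [NumberField K] (j : K →+* Qb), Iq K →
  ∀ (c r : ℕ) (x : GQ → ZMod 3) (a : 𝓞 K) (I : Ideal (𝓞 K)) (ι : Type) [Fintype ι] (l m : ι → ℕ)
    (Q : ι → Ideal (𝓞 Qb)) (φ : ι → GQ), 0 < c → a ≠ 0 → Xc j (c ^ r) x →
  (∀ l P, Ov l P → l ∣ c → dec P ≤ GK j) → Lc j c a →
  (∀ i, Ov (l i) (Q i) ∧ dec (Q i) ≤ GK j ∧ Fb (l i) (Q i) (φ i) ∧ ¬ l i ∣ c) →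
  Ideal.span {a} = I ^ 3 * ∏ i, below j (Q i) ^ m i → ∑ i, (m i : ZMod 3) * x (φ i) = 0

/-- **the rank of the class group of conductor nine** -/
def CLS : Prop := ∀ (K : Type) [Field K] [NumberField K] (j : K →+* Qb), Kd j →
  ∃ (d : ℕ) (x : Fin (d + 1) → GQ → ZMod 3) (a : Fin d → 𝓞 K), (∀ i, Xc j 9 (x i)) ∧
    (∀ u : Fin (d + 1) → ZMod 3, ∃ g ∈ GK j, ∀ i, x i g = u i) ∧
    (∀ i, a i ≠ 0 ∧ ∃ I : Ideal (𝓞 K), Ideal.span {a i} = I ^ 3) ∧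
    ∀ b, Yz j b → ∃ (m : Fin d → ℕ) (t : K), (b : K) * ∏ i, (a i : K) ^ m i = t ^ 3

/-- the ring class characters are independent from the Kummer classes -/
def KX : Prop := ∀ (K : Type) [Field K] [NumberField K] (j : K →+* Qb), Kd j →
  ∀ (A : Finset K) (n c : ℕ), 0 < c → ∀ g ∈ GK j, ∃ h ∈ GK j,
    Fx (insert 1 (j '' A)) (3 ^ n) h ∧ ∀ x, Xc j c x → x h = x g

/-- **the classes of the first primes** -/
def PH1 : Prop := ∀ (K : Type) [Field K] [NumberField K] (j : K →+* Qb), Kd j →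
  ∀ (d : ℕ) (x : Fin (d + 1) → GQ → ZMod 3) (a : Fin d → 𝓞 K) (A : Finset K), (∀ i, Xc j 9 (x i)) →
  (∀ u : Fin (d + 1) → ZMod 3, ∃ g ∈ GK j, ∀ i, x i g = u i) → (∀ i, a i ≠ 0) → 0 ∉ A →
  (∀ i (y : Qb), ∀ g ∈ GK j, y ^ 3 = j (a i) → Fx (insert 1 (j '' A)) 3 g → g y = y) →
  ∀ n, 0 < n → ∀ g₀ ∈ GK j, Fx {1} (3 ^ n) g₀ → ∃ g : Fin (d + 1) → GQ,
    (∀ i, g i ∈ GK j ∧ Fx {1} (3 ^ n) (g i) ∧ ∀ i', x i' (g i) = if i' = i then 1 else 0) ∧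
    ∀ φ : Fin (d + 1) → GQ,
      (∀ i, φ i ∈ GK j ∧ Fx (insert 1 (j '' A)) (3 ^ n) ((g i)⁻¹ * φ i)) →
      Fx (insert 1 (j '' A)) (3 ^ n) (g₀⁻¹ * (List.ofFn φ).prod) ∧
      ∀ (m : Fin d → ℕ) (y : Qb), y ^ 3 = j (∏ i, (a i : K) ^ m i) → (∀ i, φ i y = y) →
        ∃ t : K, ∏ i, (a i : K) ^ m i = t ^ 3

/-- **adjustment by inertia at the first primes** -/
def ADJ : Prop := ∀ (K : Type) [Field K] [NumberField K] (j : K →+* Qb), Kd j → ∀ γ ∉ GK j,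
  ∀ (ι : Type) [Fintype ι] (o : ι) (q : ι → ℕ) (Q : ι → Ideal (𝓞 Qb)) (β : ι → 𝓞 K)
    (J : ι → Ideal (𝓞 K)) (x : GQ → ZMod 3) (ζ : Qb), Function.Injective q → IsPrimitiveRoot ζ 3 →
  (∀ i, Ov (q i) (Q i) ∧ q i % 3 = 1 ∧ below j (Q i) * J i = Ideal.span {β i} ∧
    Cop (∏ i, q i) (J i) ∧ ∀ Q', Ov (q i) Q' → dec Q' ≤ GK j ∧ ∃ t, Inert Q' t ∧ x t = 1) →
  Xc j (∏ i, q i) x → ∀ g₀ ∈ GK j, g₀ ζ = ζ → ∀ z : ι → ZMod 3,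
  ∃ t ∈ Subgroup.closure {s | ∃ i Q', Ov (q i) Q' ∧ Inert Q' s}, x (g₀ * t) = 1 ∧ ∀ i,
    Kv ζ (qa j γ (β i)) (g₀ * t) (z i) ∧ (ka 3 (q i) (g₀ * t) = 0 ↔ i ≠ o) ∧
      (Cb (q i) (g₀ * t) ↔ i ≠ o)

/-- cubic residues -/
def CBR : Prop := ∀ (q l : ℕ) (Q L : Ideal (𝓞 Qb)) (φ ψ : GQ), Ov q Q → Ov l L → q ≠ l →
  q % 3 = 1 → Fb l L ψ → φ ∈ dec Q → (∃ t, Inert Q t ∧ Fb q Q (φ * t)) → (ka 3 l φ = 0 ↔ Cb q ψ)

/-- **the rational part** -/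
def PLS : Prop := ∀ (ι : Type) [Fintype ι] (q : ι → ℕ) (s : ι → GQ) (n : ℤ) (y : Qb),
  Function.Injective q → (∀ i, (q i).Prime ∧ oz 3 (s i) = 1 ∧ s i y = y) → n ≠ 0 → y ^ 3 = n →
  (∀ l : ℕ, l.Prime → (∀ i, l ≠ q i) → 3 ∣ padicValInt l n) →
  (∀ m : ι → ZMod 3, (∀ i, ∑ i', ka 3 (q i') (s i) * m i' = 0) → m = 0) → ∃ t : ℤ, n = t ^ 3

/-- **killing** -/
def KIL : Prop := ∀ (K : Type) [Field K] [NumberField K] (j : K →+* Qb), Kd j →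
  ∀ (ι : Type) [Fintype ι] [DecidableEq ι] (q : ι → ℕ) (Q : ι → Ideal (𝓞 Qb)) (φ : ι → GQ) (o : ι)
    (x x₀ : GQ → ZMod 3), Kl j q Q φ o x x₀ → ∀ P, Ov 3 P → Sl j (∏ i, q i) x P

/-- **the tower** -/
def TWR : Prop := ∀ (K : Type) [Field K] [NumberField K] (j : K →+* Qb) (S : Finset ℕ)
  (U : ℕ → Subgroup GQ) (Gq : ℕ → GQ → Prop), Kd j → 2 ∈ S → 3 ∈ S →
  (∀ p ∈ S, p.Prime ∧ ∀ Q, Ov p Q → dec Q ≤ GK j) → Nq j S U Gq →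
  ∃ k m : ℕ, ∀ n, ∃ (c : ℕ) (e : GQ → ZMod (3 * 3 ^ (n + 1))), Lv j c (3 ^ (n + 1)) e S ∧
    (∀ P, Ov 3 P → Sl j c (eb e) P) ∧ c.primeFactors.card ≤ k ∧
    ∀ q : ℕ, q.Prime → q ∣ c → 3 ^ n ∣ q - 1 ∧ ∀ g, IsFrob q g → Gq m g

end Vale.Agent.P014Y.Rd
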