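import Vale.Agent.P014Y.Rd.St
import Vale.Agent.P004R.St2
import Vale.Agent.P004R.Qf0

/-!
# P014Y, route R: the rows which connect the index formula with the two sides of the anchor
-/

set_option autoImplicit false
set_option linter.all false

open UpperHalfPlane NumberField CongruenceSubgroup Matrix
open scoped Pointwise PowerSeries

noncomputable section

namespace Vale.Agent.P014Y.Rd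

open Vale.Agent.P022 P027H P027M.M P004K Vale.Agent.P022.H218.L3 Vale.Agent.P022.H236.L3
open Vale.Agent.P027M.S (Inert)
open Vale.Agent.P022D.W (dec)
open Vale.Agent.P022.H443 (inP)
open Vale.Agent.P022E.GW (Ov Fb)
open Vale.Agent.P022K.G2 (Tv ka oz)
open P004Z.EF (Val)
open P004F.Qx (Zq Cq dp Ch IM)

export Vale.Agent.P004R (Vn ij Z0 r1)

/-! ### words -/

/-- depletion modulo three: `(1 - V) (1 - p⁻¹ V)` -/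
def dpl (φ : ℕ → GQ) (h : GQ → Qb) : List ℕ → GQ → Qb
  | [] => h
  | p :: L => fun g =>
    dpl φ h L g - (1 + p) * dpl φ h L (g * φ p) + p * dpl φ h L (g * φ p ^ 2)

/-- the cost of the depletion -/
def cs (L : List ℕ) : ℕ := L.length + (L.filter fun p => p % 3 = 1).length

/-- `R = 𝔽₃[T] / T ^ J` -/
structure Tq {R : Type} [CommRing R] (ρ : (ZMod 3)⟦X⟧ →+* R) (J : ℕ) : Prop where
  sur : Function.Surjective ρ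
  ker : ∀ x, ρ x = 0 ↔ PowerSeries.X ^ J ∣ x

section words

variable {R : Type} [CommRing R] (ρ : (ZMod 3)⟦X⟧ →+* R)

/-- the variable -/
abbrev tt : R := ρ PowerSeries.X

/-- the character `(1 + T) ^ e` -/
def ch {n : ℕ} (e : GQ → ZMod n) (g : GQ) : R := (1 + tt ρ) ^ (e g).val

/-- the twist by the cyclotomic character -/
def tw (χ : GQ → R) (g : GQ) : R := ρ (PowerSeries.C (oz 3 g)) * χ g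

/-- rank two -/
def r2 (χ : GQ → R) (b : GQ → Matrix (Fin 2) (Fin 2) (ZMod 3)) (g : GQ) :
    Matrix (Fin 2) (Fin 2) R := χ g • (b g).map (ρ.comp PowerSeries.C)

/-- unramified outside `T`, which contains two and three -/
structure G3 {n : Type} [Fintype n] [DecidableEq n] (Γ : Subgroup GQ) (T : Finset ℕ)
    (a : GQ → Matrix n n R) : Prop extends P004F.Pr.Gd Γ T a where
  thr : 3 ∈ T

/-- rank one cocycles which vanish at `P` -/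
abbrev Zr (Γ : Subgroup GQ) (T : Finset ℕ) (χ : GQ → R) (P : Ideal (𝓞 Qb)) := Z0 Γ T (r1 χ) P

/-- the cocycles which are coboundaries at the tame places above `T` -/
def Y0 (Γ : Subgroup GQ) (T : Finset ℕ) (χ : GQ → R) (P : Ideal (𝓞 Qb)) : Set (Zr Γ T χ P) :=
  {z | ∀ l ∈ T, l ≠ 3 → ∀ Q, Ov l Q → ∃ m : R, ∀ g ∈ dec Q, z.1.1 g 0 = (χ g - 1) * m}

/-- `T ^ i` kills the cocycles -/
def Ki (Γ : Subgroup GQ) (T : Finset ℕ) (χ : GQ → R) (P : Ideal (𝓞 Qb)) (i : ℕ) : Prop :=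
  ∀ z : Zr Γ T χ P, ∀ g, tt ρ ^ i * z.1.1 g 0 = 0

/-- residually trivial at `Q` -/
def Rt (χ : GQ → R) (Q : Ideal (𝓞 Qb)) : Prop := ∀ g ∈ dec Q, tt ρ ∣ χ g - 1

/-- totally ramified, or inert -/
def Lt (χ : GQ → R) (l : ℕ) (Q : Ideal (𝓞 Qb)) : Prop :=
  (Rt ρ χ Q ∧ ∃ t, Inert Q t ∧ χ t - 1 ∣ tt ρ) ∨
    ((∀ t, Inert Q t → χ t = 1) ∧ ∀ φ, Fb l Q φ → χ φ - 1 ∣ tt ρ ∧ χ φ - l ∣ tt ρ)

end words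

/-- a fixed vector or a fixed linear form -/
def Fv (Γ : Subgroup GQ) (b : GQ → Matrix (Fin 2) (Fin 2) (ZMod 3)) : Prop :=
  ∃ v : Fin 2 → ZMod 3, v ≠ 0 ∧ ((∀ g ∈ Γ, b g *ᵥ v = v) ∨ ∀ g ∈ Γ, v ᵥ* b g = v)

/-! ### the analytic side -/

open Classical in
/-- **the depth of the elliptic unit** -/
def DPT : Prop := ∀ (K : Type) [Field K] [NumberField K] (j : K →+* Qb) (c M : ℕ)
  (e : GQ → ZMod (3 * M)), Ly j c M e → ∀ (F H : Type) [Field F] [NumberField F] [Field H]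
  [NumberField H] [Algebra F H] (jH : H →+* Qb) (φ : GQ) (σ : H ≃ₐ[ℚ] H), Fl j M e F jH φ σ →
  Cp F σ M → ∀ P, Ov 3 P → Fb 3 P φ → ∀ v', Ip σ M 3 (below (jH.comp (algebraMap F H)) P) v' →
  up H (below (jH.comp (algebraMap F H)) P) = below jH P → ∀ s, Us j c P φ s →
  ∀ R, Tv (GK j) (Hc j c) R → jc j c ≠ 0 ∧ (∀ g ∈ GK j, P004K.Ip P (ij j c g)) ∧
  ∃ u : (𝓞 H)ˣ,
    jH (u : 𝓞 H) * ∏ g ∈ R with e g = 0, g (s : Qb) = φ (∏ g ∈ R with e g = 0, g (s : Qb)) ∧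
    ∀ l, l + 1 ≤ 2 * M → Vn P R e (ij j c) l →
      Dp σ (below (jH.comp (algebraMap F H)) P) u (2 * M - l - 1)

/-- the expansion of `1 / j` modulo three -/
def TAU : Prop := ∃ W : PowerSeries ℤ, ExM 1 (ls 0 (toCi W)) jM⁻¹ ∧
  ∀ n, ((PowerSeries.coeff n W : ℤ) : ZMod 3) =
    if 3 ∣ n then 0 else (ArithmeticFunction.sigma 1 n : ZMod 3)

/-- **the depleted form is a sum of values of `1 / j` modulo three** -/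
def QF : Prop := ∀ (N : ℕ) (a : ℕ → ℤ) (S : List ℕ), 0 < N → S.Nodup → (∀ p ∈ S, p.Prime) → 3 ∈ S →
  (∀ n : ℕ, n.Coprime S.prod → (3 : ℤ) ∣ a n - ArithmeticFunction.sigma 1 n) →
  ∀ u ∈ MF (Gamma0 (N * S.prod ^ 2)), ∀ s, ExM 1 s u → Zq 3 s → Cq 3 (dp S.prod a) s →
  ∀ P : ℕ → Ideal (𝓞 Qb), (∀ p ∈ S, (P p).IsPrime ∧ (p : 𝓞 Qb) ∈ P p) →
  ∃ T : ℕ, ∀ δ, T ≤ δ → Squarefree δ →
  ∀ (K : Type) [Field K] [NumberField K] (j : K →+* Qb), Iq K → ∀ θ : 𝓞 K,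
  θ ^ 2 = -(δ : 𝓞 K) → ∀ I I' Q φ, Ch j N I I' S P Q φ →
  ∀ c : ℕ, 0 < c → c.Coprime (N * S.prod) → jc j c ≠ 0 → ∀ g ∈ GK j, ∀ σ τ τ', Ex σ g →
    Hp (JJ j) (N * S.prod ^ 2) (IM j I S P) c τ → Cj0 σ (N * S.prod ^ 2) τ τ' →
    ∀ y : Qb, Val τ' u (io y) → Zp (P 3) (y - dpl φ (ij j c) (S.erase 3) g)

/-- the cost of the depletion -/
def SHF : Prop := ∀ (Γ U : Subgroup GQ) (R : Finset GQ) (m : ℕ) (e : GQ → ZMod (3 * 3 ^ m))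
  (P : Ideal (𝓞 Qb)) (h : GQ → Qb) (φ : ℕ → GQ) (L : List ℕ) (l : ℕ), Tv Γ U R → U ≤ Γ →
  (∀ g ∈ Γ, ∀ g' ∈ Γ, g * g' * g⁻¹ * g'⁻¹ ∈ U) → (∀ g ∈ Γ, ∀ g' ∈ Γ, e (g * g') = e g + e g') →
  (∀ g ∈ U, e g = 0) → Ov 3 P → (∀ g ∈ Γ, P004K.Ip P (h g) ∧ ∀ u ∈ U, h (g * u) = h g) →
  (∀ p ∈ L, ¬ 3 ∣ p ∧ φ p ∈ Γ ∧ IsUnit (e (φ p))) → l + cs L ≤ 3 * 3 ^ m →
  Vn P R e (dpl φ h L) (l + cs L) → Vn P R e h l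

/-! ### the algebraic side -/

/-- the two characters and their local types -/
def GDR : Prop := ∀ (K : Type) [Field K] [NumberField K] (j : K →+* Qb) (c M : ℕ)
  (e : GQ → ZMod (3 * M)) (S : Finset ℕ), Lv j c M e S →
  ∀ (R : Type) [CommRing R] (ρ : (ZMod 3)⟦X⟧ →+* R) J, Tq ρ J → J ≤ 3 * M →
  G3 (GK j) (S ∪ c.primeFactors) (r1 (ch ρ e)) ∧
  G3 (GK j) (S ∪ c.primeFactors) (r1 (tw ρ (ch ρ e))) ∧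
  (∀ l ∈ S ∪ c.primeFactors, ∀ Q, Ov l Q → dec Q ≤ GK j ∧ Rt ρ (ch ρ e) Q ∧
    (l % 3 = 1 → Rt ρ (tw ρ (ch ρ e)) Q) ∧
    (l ≠ 3 → Lt ρ (ch ρ e) l Q ∧ Lt ρ (tw ρ (ch ρ e)) l Q)) ∧
  (∀ γ ∉ GK j, ∀ g ∈ GK j, ch ρ e g * tw ρ (ch ρ e) (γ * g * γ⁻¹) = ρ (PowerSeries.C (oz 3 g)) ∧
    tw ρ (ch ρ e) g * ch ρ e (γ * g * γ⁻¹) = ρ (PowerSeries.C (oz 3 g))) ∧
  ∃ W : Subgroup GQ, IsOpen (W : Set GQ) ∧ W.Normal ∧ W ≤ GK j ∧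
    (∀ w ∈ W, ch ρ e w = 1 ∧ tw ρ (ch ρ e) w = 1 ∧ oz 3 w = 1) ∧
    ∀ P, Ov 3 P → ∀ g ∈ GK j, ∃ d ∈ dec P, g * d⁻¹ ∈ W

/-- **Kummer theory and the lemma of Shapiro** -/
def SHP : Prop := ∀ (K : Type) [Field K] [NumberField K] (j : K →+* Qb) (c M : ℕ)
  (e : GQ → ZMod (3 * M)), Ly j c M e → ∀ (F H : Type) [Field F] [NumberField F] [Field H]
  [NumberField H] [Algebra F H] (jH : H →+* Qb) (φ : GQ) (σ : H ≃ₐ[ℚ] H), Fl j M e F jH φ σ →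
  Cp F σ M → ∀ P, Ov 3 P → Fb 3 P φ → dec P ≤ GK j → ∀ v v' : Ideal (𝓞 F), Ip σ M 3 v v' →
  up H v = below jH P → ∀ T : Finset ℕ, 3 ∈ T → (∀ q : ℕ, q.Prime → q ∣ c → q ∈ T) →
  ∀ A : Ideal (𝓞 H), (∀ Q : Ideal (𝓞 H), Q.IsPrime → A ≤ Q → ∃ l ∈ T, l.Prime ∧ (l : 𝓞 H) ∈ Q) →
  ∀ (R : Type) [CommRing R] (ρ : (ZMod 3)⟦X⟧ →+* R), Tq ρ (3 * M) →
  ∃ κ : 𝓞 H → Zr (GK j) T (tw ρ (ch ρ e)) P, ∀ a b, Ad (up H v ^ 3) A a → Ad (up H v ^ 3) A b →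
    κ a = κ b → ∃ y : H, (a : H) = y ^ 3 * b

/-- Kummer theory over the quadratic field -/
def KUK : Prop := ∀ (K : Type) [Field K] [NumberField K] (j : K →+* Qb) (z : GQ → ZMod 3),
  (∀ g ∈ GK j, ∀ h ∈ GK j, z (g * h) = z g + oz 3 g * z h) →
  (∃ W : Subgroup GQ, IsOpen (W : Set GQ) ∧ ∀ w ∈ GK j, w ∈ W → z w = 0) →
  ∃ (a : 𝓞 K) (y : Qb), a ≠ 0 ∧ y ^ 3 = j a ∧ ∀ g ∈ GK j, g y = P022K.G2.zt 3 ^ (z g).val * y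

/-- the valuations of a class which lifts -/
def VAL : Prop := ∀ (K : Type) [Field K] [NumberField K] (j : K →+* Qb), Iq K →
  ∀ (c : ℕ) (a : 𝓞 K) (y : Qb) (x z z' : GQ → ZMod 3), 0 < c → a ≠ 0 → y ^ 3 = j a →
  (∀ g ∈ GK j, g y = P022K.G2.zt 3 ^ (z g).val * y) → (∀ g ∈ GK j, ∀ h ∈ GK j, x (g * h) = x g + x h) →
  (∀ g ∈ GK j, ∀ h ∈ GK j, z' (g * h) = z' g + oz 3 g * z' h + x g * oz 3 g * z h) →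
  (∃ W : Subgroup GQ, IsOpen (W : Set GQ) ∧ ∀ w ∈ GK j, w ∈ W → x w = 0 ∧ z' w = 0) →
  (∀ l Q, Ov l Q → ¬ l ∣ c → (l ≠ 3 ∧ ∀ g ∈ GK j, Inert Q g → z g = 0) ∨
    (dec Q ≤ GK j ∧ (∀ g, Inert Q g → x g = 0) ∧ ∃ φ, Fb l Q φ ∧ x φ ≠ 0)) →
  ∃ (I J : Ideal (𝓞 K)) (n : ℕ), Ideal.span {a} = I ^ 3 * J ∧ J ∣ Ideal.span {(c : 𝓞 K)} ^ n

/-- **no free part** -/
def MU : Prop := ∀ (K : Type) [Field K] [NumberField K] (j : K →+* Qb) (c M : ℕ)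
  (e : GQ → ZMod (3 * M)) (S : Finset ℕ), Lv j c M e S → ∀ P, Ov 3 P → Sl j c (eb e) P →
  ∀ (R : Type) [CommRing R] (ρ : (ZMod 3)⟦X⟧ →+* R) J, Tq ρ J → J ≤ 3 * M →
  Ki ρ (GK j) (S ∪ c.primeFactors) (tw ρ (ch ρ e)) P 1

/-- bounded exponent gives bounded order -/
def LEX : Prop := ∀ (Γ : Subgroup GQ) (S : Finset ℕ) (α : GQ → ZMod 3), G3 Γ S (r1 α) → ∀ k : ℕ,
  ∃ C : ℕ, ∀ (T : Finset ℕ) (R : Type) [CommRing R] (ρ : (ZMod 3)⟦X⟧ →+* R) (J : ℕ) (χ : GQ → R) P,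
  T.card ≤ k → Tq ρ J → G3 Γ (S ∪ T) (r1 χ) → (∀ g ∈ Γ, tt ρ ∣ χ g - ρ (PowerSeries.C (α g))) →
  Finite (Zr Γ (S ∪ T) χ P) ∧
  (∀ i, Ki ρ Γ (S ∪ T) χ P i → Nat.card (Zr Γ (S ∪ T) χ P) ≤ 3 ^ (C * i)) ∧
  (∀ i, Nat.card (Y0 Γ (S ∪ T) χ P) ≤ 3 ^ i → ∀ z ∈ Y0 Γ (S ∪ T) χ P, ∀ g,
    tt ρ ^ i * z.1.1 g 0 = 0) ∧
  (Ki ρ Γ (S ∪ T) χ P 1 → ∀ (R' : Type) [CommRing R'] (ρ' : (ZMod 3)⟦X⟧ →+* R') (J' : ℕ)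
    (χ' : GQ → R'), Tq ρ' J' → 0 < J' → G3 Γ (S ∪ T) (r1 χ') →
    (∀ g ∈ Γ, tt ρ' ∣ χ' g - ρ' (PowerSeries.C (α g))) →
    Nat.card (Zr Γ (S ∪ T) χ P) ≤ Nat.card (Zr Γ (S ∪ T) χ' P))

/-- **the local indices** -/
def LOI : Prop := ∀ (R : Type) [CommRing R] (ρ : (ZMod 3)⟦X⟧ →+* R) (J : ℕ), Tq ρ J →
  ∀ (Γ : Subgroup GQ) (T : Finset ℕ) (χ : GQ → R) P, G3 Γ T (r1 χ) →
  (∀ l ∈ T, l ≠ 3 → ∀ Q, Ov l Q → dec Q ≤ Γ ∧ Lt ρ χ l Q) →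
  (∀ z : Zr Γ T χ P, tt ρ ^ 2 • z ∈ Y0 Γ T χ P) ∧
  (2 ≤ J → Ki ρ Γ T χ P 1 → Finite (Zr Γ T χ P) →
    Nat.card (Zr Γ T χ P) ≤ 3 ^ (2 * (T.erase 3).card) * Nat.card (Y0 Γ T χ P))

/-- **the count**: the local relations are divisible by `T` at `U` and vanish at `L` -/
def DU1 : Prop := ∀ (R : Type) [CommRing R] (ρ : (ZMod 3)⟦X⟧ →+* R) (J : ℕ), Tq ρ J → 0 < J →
  ∀ (Γ : Subgroup GQ) (T U L : Finset ℕ) (χ : GQ → R) P, G3 Γ T (r1 χ) → Ov 3 P → dec P ≤ Γ →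
  Disjoint U L → (∀ l ∈ U ∪ L, l ∈ T ∧ l % 3 = 1 ∧ ∀ Q, Ov l Q → dec Q ≤ Γ ∧ Rt ρ χ Q) →
  (∀ l ∈ L, ∀ Q, Ov l Q → ∀ g ∈ dec Q, χ g = 1) →
  (∃ l ∈ T, l ≠ 3 ∧ l ∉ U ∪ L ∧ ∃ Q, Ov l Q ∧ dec Q ≤ Γ ∧ Rt ρ χ Q) →
  3 ^ (2 * U.card) * Nat.card R ^ (2 * L.card) ≤ Nat.card (Zr Γ T χ P)

/-- orthogonal subgroups -/
def ORT : Prop := ∀ (R : Type) [CommRing R] (ρ : (ZMod 3)⟦X⟧ →+* R) (J : ℕ), Tq ρ J →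
  ∀ (ι : Type) [Fintype ι] (w : ι → ℕ) (A B : AddSubgroup (ι → R)), (∀ i, ¬ 3 ∣ w i) →
  (∀ x ∈ A, ∀ y ∈ B, ∑ i, w i • (x i * y i) = 0) →
  Finite R ∧ Nat.card A * Nat.card B ≤ Nat.card R ^ Fintype.card ι

/-- **duality** -/
def DU : Prop := ∀ (R : Type) [CommRing R] (ρ : (ZMod 3)⟦X⟧ →+* R) (J : ℕ), Tq ρ J → 0 < J →
  ∀ (Γ W : Subgroup GQ) (T U : Finset ℕ) (χ χ' : GQ → R) P, ∀ γ ∉ Γ, G3 Γ T (r1 χ) →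
  G3 Γ T (r1 χ') → Ov 3 P → (∀ l ∈ T, ∀ Q, Ov l Q → dec Q ≤ Γ) →
  (∀ g ∈ Γ, χ g * χ' (γ * g * γ⁻¹) = ρ (PowerSeries.C (oz 3 g))) →
  IsOpen (W : Set GQ) → W.Normal → W ≤ Γ → (∀ w ∈ W, χ w = 1 ∧ χ' w = 1 ∧ oz 3 w = 1) →
  (∀ g ∈ Γ, ∃ d ∈ dec P, g * d⁻¹ ∈ W) →
  (∀ l ∈ U, l ∈ T ∧ l % 3 = 1 ∧ ∀ Q, Ov l Q → Rt ρ χ Q) →
  (∃ l ∈ T, l ≠ 3 ∧ l ∉ U ∧ ∃ Q, Ov l Q ∧ Rt ρ χ Q) →
  Finite (Zr Γ T χ' P) → (∀ L : Finset ℕ, (∀ l ∈ L, l.Prime) → Finite (Zr Γ (T ∪ L) χ P)) →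
  3 ^ (2 * U.card) * Nat.card (Y0 Γ T χ' P) ≤ Nat.card (Zr Γ T χ P)

/-- **the group of an extension is the product of the rank one groups** -/
def MUL : Prop := ∀ (R : Type) [CommRing R] (ρ : (ZMod 3)⟦X⟧ →+* R) (J : ℕ), Tq ρ J → 0 < J →
  ∀ (Γ : Subgroup GQ) (T : Finset ℕ) (χ : GQ → R) (b : GQ → Matrix (Fin 2) (Fin 2) (ZMod 3)) P,
  G3 Γ T (r1 χ) → G3 Γ T b → Fv Γ b → (∀ g ∈ Γ, (b g).det = oz 3 g) → Ov 3 P → dec P ≤ Γ →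
  (∃ l ∈ T, l % 3 = 1 ∧ ∃ Q, Ov l Q ∧ dec Q ≤ Γ ∧ Rt ρ χ Q) → Finite (Z0 Γ T (r2 ρ χ b) P) ∧
    Nat.card (Z0 Γ T (r2 ρ χ b) P) ≤ Nat.card (Zr Γ T χ P) * Nat.card (Zr Γ T (tw ρ χ) P) ∧
    ∀ l, 2 * l ≤ J → Nat.card (Zr Γ T χ P) * Nat.card (Zr Γ T (tw ρ χ) P) ≤ 3 ^ l →
      Nat.card (Zr Γ T χ P) * Nat.card (Zr Γ T (tw ρ χ) P) ≤ Nat.card (Z0 Γ T (r2 ρ χ b) P)

/-- Eisenstein congruences for all coefficients -/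
def CSG : Prop := ∀ N G a (S : List ℕ), P004N.RN N G a →
  (∀ l : ℕ, l.Prime → l ∉ S → ¬ l ∣ N ∧ (3 : ℤ) ∣ a l - (1 + l)) → (∀ p ∈ S, p.Prime) →
  ∀ n : ℕ, n.Coprime S.prod → (3 : ℤ) ∣ a n - ArithmeticFunction.sigma 1 n

end Vale.Agent.P014Y.Rd
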