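import Vale.Agent.P014Y.Rd.St4
import Vale.Agent.P014Y.Rd.Ly
import Vale.Agent.P004R.Twr0
import Vale.Agent.P004R.Ext0

/-!
# P014Y, route R: the tower from its two steps (helper80)
-/

set_option autoImplicit false
set_option linter.all false

open NumberField
open scoped Pointwise

noncomputable section

namespace Vale.Agent.P014Y.Rd

open Vale.Agent.P022 (Qb GQ GK below IsFrob)
open P004K
open Vale.Agent.P027M.S (Inert)
open Vale.Agent.P022D.W (dec)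
open Vale.Agent.P022E.GW (Ov Fb)

namespace Tw

variable {l N : ℕ} {P : Ideal (𝓞 Qb)} {φ : GQ}

theorem dvd_sub (h : Ov l P) (hN : ¬ l ∣ N) (hφ : Fb l P φ) (hf : Fx {1} N φ) : N ∣ l - 1 := by
  have p0 : 0 < N := Nat.pos_of_ne_zero fun e => hN (e ▸ dvd_zero l)
  have : NeZero ((N : ℕ) : Qb) := ⟨by exact_mod_cast p0.ne'⟩
  have : NeZero N := ⟨p0.ne'⟩
  obtain ⟨ζ, hζ⟩ := HasEnoughRootsOfUnity.exists_primitiveRoot Qb N
  let z : 𝓞 Qb := ⟨ζ, hζ.isIntegral p0⟩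
  have hz : IsPrimitiveRoot z N :=
    IsPrimitiveRoot.of_map_of_injective (f := algebraMap (𝓞 Qb) Qb) hζ
      RingOfIntegers.coe_injective
  have e : φ • z = z := RingOfIntegers.ext (hf ζ hζ.pow_eq_one)
  have k := hφ z
  obtain ⟨m, rfl⟩ : ∃ m, l = m + 1 := ⟨l - 1, by have := h.1.pos; omega⟩
  rw [e, show z - z ^ (m + 1) = -z * (z ^ m - 1) by ring] at k
  rcases h.2.1.mem_or_mem k with a | a
  · exact (h.2.1.ne_top (P.eq_top_of_isUnit_mem a (hz.isUnit p0.ne').neg)).elim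
  · exact (hz.pow_eq_one_iff_dvd m).1 (P004R.Xt.unit_one h hN
      (by rw [← pow_mul, mul_comm, pow_mul, hz.pow_eq_one, one_pow]) a)

theorem fb_smul (f : Fb l P φ) (g : GQ) : Fb l (g • P) (g * φ * g⁻¹) := fun x => by
  rw [Ideal.mem_pointwise_smul_iff_inv_smul_mem, smul_sub, mul_smul, mul_smul, inv_smul_smul,
    smul_pow']
  exact f _

theorem fb_dec (h : Ov l P) (f : Fb l P φ) : φ ∈ dec P := fun x =>
  ⟨fun a => h.2.1.mem_of_pow_mem l (by simpa using P.sub_mem a (f x)),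
    fun a => by simpa using P.add_mem (f x) (P.pow_mem_of_mem a l h.1.pos)⟩

theorem ex_i {ι : Type} [Fintype ι] {q : ι → ℕ} (hq : ∀ i, (q i).Prime) (h : l.Prime)
    (d : l ∣ ∏ i, q i) : ∃ i, l = q i := by
  obtain ⟨i, -, a⟩ := (h.prime.dvd_finset_prod_iff _).1 d
  exact ⟨i, (Nat.prime_dvd_prime_iff_eq h (hq i)).1 a⟩

end Tw

open Tw in
theorem twr (r1 : RC1) (bsx : BSX) (gen : GEN) (tw1 : TW1) (tw2 : TW2) (kil : KIL) : TWR := by
  classical
  intro K _ _ j S U Gq kd h2 h3 hS nq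
  choose! P₀ hP₀ using fun p (hp : p ∈ S) => P004R.Cb.ex_ov (hS p hp).1
  obtain ⟨B, P, sb, -, bs⟩ := bsx K j kd.iq S P₀ h3 fun p hp =>
    ⟨hP₀ p hp, (hS p hp).2 _ (hP₀ p hp)⟩
  obtain ⟨γ, hγ, -⟩ := kd.pos
  obtain ⟨A, a1, a2, a3, a4, a5⟩ := gen K j kd γ hγ B P bs
  have ga : Ga j γ B P A := ⟨a1, a2, a3, a4, a5⟩
  obtain ⟨d, m, h1⟩ := tw1 K j kd γ hγ B P A bs ga S U Gq nq
  obtain ⟨m', h2'⟩ := tw2 K j kd γ hγ B P A bs ga S U Gq sb nq
  refine ⟨d + 2, max m m', fun n => ?_⟩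
  obtain ⟨q₁, Q₁, φ₁, e₁, p1⟩ := h1 n
  obtain ⟨q, Q, φ, e, p0, kl⟩ := h2' _ n d q₁ Q₁ φ₁ e₁ p1
  have hq : ∀ i, (q i).Prime := fun i => (p0.pl i).1.1
  have ly : Ly j (∏ i, q i) (3 ^ (n + 1)) e :=
    { iq := kd.iq
      upm := kd.upm
      pow := ⟨n, rfl⟩
      sq := Finset.squarefree_prod_of_pairwise_isCoprime
        (fun i _ i' _ ne => Nat.coprime_iff_isRelPrime.1
          ((Nat.coprime_primes (hq i) (hq i')).2 fun a => ne (p0.inj a)))
        fun i _ => (hq i).squarefree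
      one := (hq none).one_lt.trans_le (Nat.le_of_dvd (Finset.prod_pos fun i _ => (hq i).pos)
        (Finset.dvd_prod_of_mem _ (Finset.mem_univ _)))
      add := p0.add
      ker := p0.ker
      ram := fun l L o dv => by
        obtain ⟨i, rfl⟩ := ex_i hq o.1 dv
        exact ⟨(kl.pl i).2.2.1, (p0.pl i).2.2.2.2.2 L o⟩ }
  refine ⟨∏ i, q i, e, ⟨ly, h2, h3, fun p hp => ⟨(hS p hp).1, fun dv => ?_, fun L o =>
    ⟨(hS p hp).2 L o, fun ψ f => ?_⟩⟩⟩, kil K j kd _ q Q φ none _ _ kl, ?_, fun l hl dv => ?_⟩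
  · obtain ⟨i, rfl⟩ := ex_i hq (hS p hp).1 dv
    exact (p0.pl i).2.2.1 (sb hp)
  · obtain ⟨g, hg⟩ := P022E.GW.Tg.trans o (bs.ov p (sb hp)).1
    have v := p0.val p (sb hp) _ (hg ▸ fb_smul f g)
    have k := (hS p hp).2 L o (fb_dec o f)
    by_cases hg' : g ∈ GK j
    · rw [ly.cj hg' k] at v
      exact v ▸ isUnit_one
    · rw [(ly.cj' r1 hg' k).2, neg_eq_iff_eq_neg] at v
      exact v ▸ isUnit_one.neg
  · refine (Finset.card_le_card (t := Finset.univ.image q) fun l hl => ?_).trans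
      (Finset.card_image_le.trans (by simp))
    obtain ⟨i, rfl⟩ := ex_i hq (Nat.prime_of_mem_primeFactors hl) (Nat.dvd_of_mem_primeFactors hl)
    exact Finset.mem_image_of_mem _ (Finset.mem_univ _)
  · obtain ⟨i, rfl⟩ := ex_i hq hl dv
    obtain ⟨o, f, nb, fx, gq, -⟩ := p0.pl i
    refine ⟨(show 3 ^ n ∣ 3 * 3 ^ (n + 1) from ⟨9, by ring⟩).trans (dvd_sub o (fun a => nb ?_) f fx),
      fun g hg => ?_⟩
    · rw [← pow_succ'] at a
      rw [(Nat.prime_dvd_prime_iff_eq hl Nat.prime_three).1 (hl.dvd_of_dvd_pow a)]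
      exact bs.thr
    · obtain ⟨x, s, hs, rfl⟩ := P004R.Wr.fb_cj o f hg
      obtain ⟨-, nr, un⟩ := nq.opn (max m m')
      refine nq.cj _ _ x ?_
      rw [show s * φ i = φ i * ((φ i)⁻¹ * s * (φ i)⁻¹⁻¹) by group]
      exact nq.stb _ _ _ (nr.conj_mem _ (un _ _ o (fun a => nb (sb a)) s hs) _)
        (gq.elim (nq.mono _ _ _ (le_max_left _ _)) (nq.mono _ _ _ (le_max_right _ _)))

end Vale.Agent.P014Y.Rd
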